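/-
R152/SLGram (helper92): Gram determinants and orthogonal projections.
-/
import Mathlib

set_option autoImplicit false
set_option linter.unusedSectionVars false

namespace Crest.Agent.R152.SL

open Matrix
open scoped InnerProductSpace

section det
variable {ι : Type*} [Fintype ι] [DecidableEq ι]

theorem one_le_det_one_add {D : Matrix ι ι ℝ} (hD : D.PosSemidef) : 1 ≤ (1 + D).det := by
  have hH : (1 + D).IsHermitian := isHermitian_one.add hD.1
  rw [hH.det_eq_prod_eigenvalues]
  refine Finset.one_le_prod fun i _ => ?_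
  have h1 := hH.mulVec_eigenvectorBasis i
  have h2 := hD.dotProduct_mulVec_nonneg (hH.eigenvectorBasis i).ofLp
  have h3 : (hH.eigenvectorBasis i).ofLp ⬝ᵥ (hH.eigenvectorBasis i).ofLp = 1 := by
    have := (hH.eigenvectorBasis.orthonormal.1 i)
    have h4 := EuclideanSpace.real_norm_sq_eq (hH.eigenvectorBasis i)
    rw [this] at h4
    simp only [dotProduct, ← sq]
    rw [← h4]; norm_num
  have h4 := congrArg (fun v => (hH.eigenvectorBasis i).ofLp ⬝ᵥ v) h1
  simp only [add_mulVec, one_mulVec, dotProduct_add, dotProduct_smul, h3, smul_eq_mul,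
    mul_one] at h4
  rw [star_trivial] at h2
  change (1 : ℝ) ≤ hH.eigenvalues i
  linarith

open scoped MatrixOrder in
theorem det_le_det {A B : Matrix ι ι ℝ} (hA : A.PosSemidef) (hD : (B - A).PosSemidef) :
    A.det ≤ B.det := by
  have hB : B.PosSemidef := by simpa using hA.add hD
  by_cases h0 : A.det = 0
  · rw [h0]; exact hB.det_nonneg
  obtain ⟨S, hS⟩ : ∃ S : Matrix ι ι ℝ, A = Sᵀ * S := by
    obtain ⟨B, hB⟩ := CStarAlgebra.nonneg_iff_eq_star_mul_self.1 hA.nonneg
    exact ⟨B, by simpa [star_eq_conjTranspose] using hB⟩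
  have hS0 : S.det ≠ 0 := by
    intro h; apply h0; rw [hS, det_mul, h, mul_zero]
  have hu : IsUnit S.det := hS0.isUnit
  have hP : ((S⁻¹)ᵀ * (B - A) * S⁻¹).PosSemidef := by
    simpa using hD.conjTranspose_mul_mul_same S⁻¹
  have h1 := one_le_det_one_add hP
  have h2 : B = Sᵀ * (1 + (S⁻¹)ᵀ * (B - A) * S⁻¹) * S := by
    have e1 : Sᵀ * (S⁻¹)ᵀ = 1 := by rw [← transpose_mul, nonsing_inv_mul _ hu, transpose_one]
    have e2 : S⁻¹ * S = 1 := nonsing_inv_mul _ hu
    calc B = A + (Sᵀ * (S⁻¹)ᵀ) * (B - A) * (S⁻¹ * S) := by rw [e1, e2]; simp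
      _ = _ := by rw [hS]; simp only [Matrix.mul_add, Matrix.add_mul, Matrix.mul_one, Matrix.mul_assoc]
  have h3 : 0 ≤ A.det := hA.det_nonneg
  have h4 : B.det = A.det * (1 + (S⁻¹)ᵀ * (B - A) * S⁻¹).det := by
    conv_lhs => rw [h2]
    rw [det_mul, det_mul, hS, det_mul]; ring
  rw [h4]; nlinarith

end det

variable {E : Type*} [NormedAddCommGroup E] [InnerProductSpace ℝ E] [FiniteDimensional ℝ E]

/-- Gram determinant. -/
noncomputable def gd {ι : Type*} [Fintype ι] [DecidableEq ι] (v : ι → E) : ℝ := (gram ℝ v).det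

/-- orthogonal projection killing `U`. -/
noncomputable def pr (U : Submodule ℝ E) : E →L[ℝ] E := Uᗮ.starProjection

theorem pr_mem (U : Submodule ℝ E) (x : E) : pr U x ∈ Uᗮ := Submodule.starProjection_apply_mem _ _

theorem sub_pr_mem (U : Submodule ℝ E) (x : E) : x - pr U x ∈ U := by
  have := Submodule.sub_starProjection_mem_orthogonal (K := Uᗮ) x
  rwa [Submodule.orthogonal_orthogonal] at this

theorem pr_eq_zero {U : Submodule ℝ E} {x : E} : pr U x = 0 ↔ x ∈ U := by
  unfold pr
  rw [Submodule.starProjection_apply_eq_zero_iff, Submodule.orthogonal_orthogonal]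

theorem norm_pr_le (U : Submodule ℝ E) (x : E) : ‖pr U x‖ ≤ ‖x‖ :=
  Submodule.norm_starProjection_apply_le _ _

theorem pr_of_mem {U : Submodule ℝ E} {x : E} (h : x ∈ Uᗮ) : pr U x = x :=
  Submodule.starProjection_eq_self_iff.2 h

theorem pr_pr {U U' : Submodule ℝ E} (h : U ≤ U') (x : E) : pr U' (pr U x) = pr U' x := by
  have : pr U' (x - pr U x) = 0 := pr_eq_zero.2 (h (sub_pr_mem U x))
  rw [map_sub, sub_eq_zero] at this
  exact this.symm

theorem pr_eq_iff {U : Submodule ℝ E} {x y : E} : pr U x = pr U y ↔ x - y ∈ U := by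
  rw [← pr_eq_zero, map_sub, sub_eq_zero]

theorem pr_bot (x : E) : pr (⊥ : Submodule ℝ E) x = x := pr_of_mem (by simp)

variable {ι κ : Type*} [Fintype ι] [DecidableEq ι] [Fintype κ] [DecidableEq κ]

theorem gd_nonneg (v : ι → E) : 0 ≤ gd v := (posSemidef_gram ℝ v).det_nonneg

theorem gd_ne_zero {v : ι → E} : gd v ≠ 0 ↔ LinearIndependent ℝ v :=
  det_gram_ne_zero_iff_linearIndependent

theorem gd_pos {v : ι → E} (h : LinearIndependent ℝ v) : 0 < gd v :=
  lt_of_le_of_ne (gd_nonneg v) (gd_ne_zero.2 h).symm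

theorem gd_equiv (e : κ ≃ ι) (v : ι → E) : gd (v ∘ e) = gd v := by
  unfold gd
  have : gram ℝ (v ∘ e) = (gram ℝ v).submatrix e e := by ext i j; simp
  rw [this, det_submatrix_equiv_self]

theorem gd_empty [IsEmpty ι] (v : ι → E) : gd v = 1 := by simp [gd]

theorem gd_unique [Unique ι] (v : ι → E) : gd v = ‖v default‖ ^ 2 := by
  simp [gd, det_unique]

theorem gd_lin (T : Matrix ι ι ℝ) (v : ι → E) :
    gd (fun i => ∑ j, T i j • v j) = T.det ^ 2 * gd v := by
  unfold gd
  have : gram ℝ (fun i => ∑ j, T i j • v j) = T * gram ℝ v * Tᵀ := by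
    ext i k
    simp only [gram_apply, sum_inner, inner_sum, inner_smul_left, inner_smul_right, mul_apply,
      transpose_apply, Finset.sum_mul, Finset.mul_sum, RCLike.conj_to_real]
    refine Finset.sum_congr rfl fun j _ => Finset.sum_congr rfl fun l _ => by ring
  rw [this, det_mul, det_mul, det_transpose]; ring

theorem gd_pr_le (U : Submodule ℝ E) (v : ι → E) : gd (fun i => pr U (v i)) ≤ gd v := by
  refine det_le_det (posSemidef_gram ℝ _) ?_
  have : gram ℝ v - gram ℝ (fun i => pr U (v i)) = gram ℝ (fun i => v i - pr U (v i)) := by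
    ext i j
    have h1 : ⟪v i - pr U (v i), pr U (v j)⟫_ℝ = 0 :=
      Submodule.inner_right_of_mem_orthogonal (sub_pr_mem U _) (pr_mem U _)
    have h2 : ⟪pr U (v i), v j - pr U (v j)⟫_ℝ = 0 :=
      Submodule.inner_left_of_mem_orthogonal (sub_pr_mem U _) (pr_mem U _)
    simp only [inner_sub_left, inner_sub_right, Matrix.sub_apply, gram_apply] at *
    linarith
  rw [this]; exact posSemidef_gram ℝ _

theorem gd_pr_mono {U U' : Submodule ℝ E} (h : U ≤ U') (v : ι → E) :
    gd (fun i => pr U' (v i)) ≤ gd (fun i => pr U (v i)) := by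
  have := gd_pr_le U' (fun i => pr U (v i))
  simpa only [pr_pr h] using this

theorem gd_elim (w : ι → E) (y : κ → E) :
    gd (Sum.elim w y) = gd w * gd (fun j => pr (Submodule.span ℝ (Set.range w)) (y j)) := by
  set U := Submodule.span ℝ (Set.range w) with hU
  have hc : ∀ j, ∃ c : ι → ℝ, ∑ i, c i • w i = y j - pr U (y j) := fun j =>
    (Submodule.mem_span_range_iff_exists_fun ℝ).1 (sub_pr_mem U (y j))
  choose C hC using hc
  have h1 : Sum.elim w y = fun a => ∑ b, (fromBlocks 1 0 (Matrix.of C) 1 : Matrix (ι ⊕ κ) (ι ⊕ κ) ℝ) a b •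
      Sum.elim w (fun j => pr U (y j)) b := by
    funext a
    rcases a with i | j
    · simp [Fintype.sum_sum_type, one_apply]
    · simp [Fintype.sum_sum_type, one_apply, hC]
  rw [h1, gd_lin, det_fromBlocks_zero₁₂]
  have h2 : gram ℝ (Sum.elim w (fun j => pr U (y j))) =
      fromBlocks (gram ℝ w) 0 0 (gram ℝ (fun j => pr U (y j))) := by
    ext a b
    rcases a with i | j <;> rcases b with i' | j'
    · simp
    · simpa using Submodule.inner_right_of_mem_orthogonal
        (Submodule.subset_span (Set.mem_range_self i)) (pr_mem U _)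
    · simpa using Submodule.inner_left_of_mem_orthogonal
        (Submodule.subset_span (Set.mem_range_self i')) (pr_mem U _)
    · simp
  unfold gd
  rw [h2, det_fromBlocks_zero₁₂]; simp

/-- Hadamard's inequality. -/
theorem gd_le_prod_fin : ∀ (k : ℕ) (v : Fin k → E), gd v ≤ ∏ i, ‖v i‖ ^ 2
  | 0, v => by simp [gd_empty]
  | k + 1, v => by
    have e : gd v = gd (Sum.elim (fun _ : Unit => v 0) (fun j : Fin k => v j.succ)) := by
      let e : Unit ⊕ Fin k ≃ Fin (k + 1) :=
        (Equiv.sumComm _ _).trans ((Equiv.optionEquivSumPUnit (Fin k)).symm.trans (finSuccEquiv k).symm)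
      rw [← gd_equiv e v]
      congr 1
      funext a
      rcases a with u | j <;> simp [e]
    rw [e, gd_elim, gd_unique, Fin.prod_univ_succ]
    exact mul_le_mul_of_nonneg_left ((gd_pr_le _ _).trans (gd_le_prod_fin k _)) (by positivity)

theorem gd_le_prod (v : ι → E) : gd v ≤ ∏ i, ‖v i‖ ^ 2 := by
  let e := (Fintype.equivFin ι).symm
  rw [← gd_equiv e v]
  refine (gd_le_prod_fin _ _).trans (le_of_eq ?_)
  exact Fintype.prod_equiv e _ _ fun i => rfl

end Crest.Agent.R152.SL
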