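/-
R152/SLMV (helper92): max-volume sub-families.
-/
import Crest.Agent.R152.SLGram

set_option autoImplicit false
set_option linter.unusedSectionVars false

namespace Crest.Agent.R152.SL

open Matrix Module

theorem maxvol_inner {E : Type*} [NormedAddCommGroup E] [InnerProductSpace ℝ E]
    [FiniteDimensional ℝ E] {α : Type*} [Fintype α] [DecidableEq α] (v : α → E) :
    ∃ (k : ℕ) (b : Fin k → α), LinearIndependent ℝ (fun i => v (b i)) ∧
      ∀ a, ∃ c : Fin k → ℝ, (∀ i, |c i| ≤ 1) ∧ v a = ∑ i, c i • v (b i) := by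
  classical
  obtain ⟨κ, a0, -, hsp, hli⟩ := exists_linearIndependent' ℝ v
  have : Finite κ := hli.finite
  let _ := Fintype.ofFinite κ
  set k := Fintype.card κ
  have hk : finrank ℝ (Submodule.span ℝ (Set.range v)) = k := by
    rw [← hsp, finrank_span_eq_card hli]
  let e : Fin k ≃ κ := (Fintype.equivFin κ).symm
  obtain ⟨b, -, hb⟩ := Finset.exists_max_image (Finset.univ : Finset (Fin k → α))
    (fun b => gd fun i => v (b i)) ⟨fun i => a0 (e i), Finset.mem_univ _⟩
  have h0 : 0 < gd fun i => v (b i) :=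
    lt_of_lt_of_le (gd_pos (hli.comp e e.injective)) (hb (fun i => a0 (e i)) (Finset.mem_univ _))
  have hbli := gd_ne_zero.1 h0.ne'
  have hs : Submodule.span ℝ (Set.range fun i => v (b i)) = Submodule.span ℝ (Set.range v) :=
    Submodule.eq_of_le_of_finrank_eq
      (Submodule.span_mono (by rintro _ ⟨i, rfl⟩; exact ⟨_, rfl⟩))
      (by rw [hk, finrank_span_eq_card hbli, Fintype.card_fin])
  refine ⟨k, b, hbli, fun a => ?_⟩
  have ha : v a ∈ Submodule.span ℝ (Set.range fun i => v (b i)) := by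
    rw [hs]; exact Submodule.subset_span ⟨a, rfl⟩
  obtain ⟨c, hc⟩ := (Submodule.mem_span_range_iff_exists_fun ℝ).1 ha
  refine ⟨c, fun i => ?_, hc.symm⟩
  have h1 := hb (Function.update b i a) (Finset.mem_univ _)
  have h2 : (fun j => v (Function.update b i a j)) =
      fun j => ∑ l, (updateRow (1 : Matrix (Fin k) (Fin k) ℝ) i c) j l • v (b l) := by
    funext j
    by_cases hj : j = i
    · subst hj; simp [hc]
    · simp [hj, updateRow_ne, one_apply]
  have h3 : (updateRow (1 : Matrix (Fin k) (Fin k) ℝ) i c).det = c i := by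
    have := det_updateRow_sum (1 : Matrix (Fin k) (Fin k) ℝ) i c
    simp only [det_one, smul_eq_mul, mul_one] at this
    rw [← this]
    congr 2
    funext l
    simp [Finset.sum_apply, one_apply]
  simp only [h2, gd_lin, h3] at h1
  have h4 : c i ^ 2 ≤ 1 := by
    by_contra h
    push Not at h
    nlinarith
  exact (sq_le_one_iff_abs_le_one _).1 h4

theorem maxvol_fin {V : Type*} [AddCommGroup V] [Module ℝ V] [FiniteDimensional ℝ V]
    {α : Type*} [Fintype α] [DecidableEq α] (v : α → V) :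
    ∃ (k : ℕ) (b : Fin k → α), LinearIndependent ℝ (fun i => v (b i)) ∧
      ∀ a, ∃ c : Fin k → ℝ, (∀ i, |c i| ≤ 1) ∧ v a = ∑ i, c i • v (b i) := by
  let e : V ≃ₗ[ℝ] EuclideanSpace ℝ (Fin (finrank ℝ V)) :=
    LinearEquiv.ofFinrankEq _ _ (by simp)
  obtain ⟨k, b, h1, h2⟩ := maxvol_inner (fun a => e (v a))
  refine ⟨k, b, LinearIndependent.of_comp e.toLinearMap h1, fun a => ?_⟩
  obtain ⟨c, hc, hc'⟩ := h2 a
  refine ⟨c, hc, e.injective ?_⟩
  rw [hc', map_sum]
  simp only [map_smul]

end Crest.Agent.R152.SL
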