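import Crest.Agent.R152.Defs
import Crest.Agent.R152.SLMV

/-! Row 152: linear algebra toolkit. -/

set_option autoImplicit false
open Matrix Filter

namespace Crest.Agent.R152

/-- max-volume sub-family modulo a subspace -/
theorem maxvol {V : Type} [AddCommGroup V] [Module ℝ V] [FiniteDimensional ℝ V]
    (W : Submodule ℝ V) {ι : Type} [Fintype ι] [DecidableEq ι] (φ : ι → V) :
    ∃ S : Finset ι, LinearIndependent ℝ (fun k : S => W.mkQ (φ k)) ∧
      ∀ j, ∃ a : ι → ℝ, (∀ k, |a k| ≤ 1) ∧ φ j - ∑ k ∈ S, a k • φ k ∈ W := by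
  classical
  obtain ⟨k, b, hli, hb⟩ := SL.maxvol_fin (fun j => W.mkQ (φ j))
  have hinj : Function.Injective b := fun i j h => hli.injective (by simp only [h])
  refine ⟨Finset.univ.map ⟨b, hinj⟩, ?_, fun j => ?_⟩
  · let e : Fin k ≃ (Finset.univ.map ⟨b, hinj⟩ : Finset ι) :=
      Equiv.ofBijective (fun i => ⟨b i, by simp⟩) ⟨fun i j h => hinj (congrArg Subtype.val h),
        fun ⟨x, hx⟩ => by
          obtain ⟨i, -, rfl⟩ := Finset.mem_map.1 hx
          exact ⟨i, rfl⟩⟩
    exact (linearIndependent_equiv e).1 hli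
  · obtain ⟨c, hc, hc'⟩ := hb j
    refine ⟨Function.extend b c 0, fun x => ?_, ?_⟩
    · by_cases hx : ∃ i, b i = x
      · obtain ⟨i, rfl⟩ := hx
        rw [hinj.extend_apply]; exact hc i
      · rw [Function.extend_apply' _ _ _ hx]; simp
    · rw [Finset.sum_map, ← Submodule.Quotient.mk_eq_zero, ← Submodule.mkQ_apply, map_sub, map_sum,
        hc', sub_eq_zero]
      refine Finset.sum_congr rfl fun i _ => ?_
      simp only [Function.Embedding.coeFn_mk, hinj.extend_apply, map_smul]

section gram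
variable {E : Type} [NormedAddCommGroup E] [InnerProductSpace ℝ E] [FiniteDimensional ℝ E]

/-- Gram determinant of a concatenation -/
theorem gram_det_append {r k : ℕ} (a : Fin r → E) (b : Fin k → E) :
    (Matrix.gram ℝ (Fin.append a b)).det = (Matrix.gram ℝ a).det *
      (Matrix.gram ℝ (fun i => (Submodule.span ℝ (Set.range a))ᗮ.starProjection (b i))).det := by
  have h := SL.gd_elim a b
  have h2 : Sum.elim a b = Fin.append a b ∘ finSumFinEquiv := by
    funext x; rcases x with i | j <;> simp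
  rw [h2, SL.gd_equiv] at h
  exact h

/-- an orthogonal projection decreases Gram determinants -/
theorem gram_det_proj_le {k : ℕ} (W : Submodule ℝ E) (b : Fin k → E) :
    (Matrix.gram ℝ (fun i => W.starProjection (b i))).det ≤ (Matrix.gram ℝ b).det := by
  have h := SL.gd_pr_le Wᗮ b
  simpa only [SL.pr, SL.gd, Submodule.orthogonal_orthogonal] using h

/-- Hadamard -/
theorem gram_det_le_prod {k : ℕ} (b : Fin k → E) :
    (Matrix.gram ℝ b).det ≤ ∏ i, ‖b i‖ ^ 2 := by
  exact SL.gd_le_prod b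

/-- change of tuple -/
theorem gram_det_mul {k : ℕ} (b : Fin k → E) (P : Matrix (Fin k) (Fin k) ℝ) :
    (Matrix.gram ℝ (fun j => ∑ i, P i j • b i)).det = P.det ^ 2 * (Matrix.gram ℝ b).det := by
  have h := SL.gd_lin Pᵀ b
  rw [det_transpose] at h
  exact h

end gram

/-- Hadamard bound for matrices with entries in `[-1,1]` -/
theorem det_sq_le {k : ℕ} (B : Matrix (Fin k) (Fin k) ℤ) (hB : ∀ i j, |B i j| ≤ 1) :
    B.det ^ 2 ≤ (k : ℤ) ^ k := by
  let v : Fin k → EuclideanSpace ℝ (Fin k) := fun i => WithLp.toLp 2 fun j => (B i j : ℝ)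
  have h := SL.gd_le_prod v
  have h1 : SL.gd v = ((B.det ^ 2 : ℤ) : ℝ) := by
    have : Matrix.gram ℝ v = rm B * (rm B)ᵀ := by
      ext i j
      simp [v, rm, PiLp.inner_apply, Matrix.mul_apply, mul_comm]
    unfold SL.gd
    rw [this, det_mul, det_transpose]
    push_cast
    rw [sq]; rfl
  have h2 : ∏ i, ‖v i‖ ^ 2 ≤ ∏ _i : Fin k, (k : ℝ) :=
    Finset.prod_le_prod (fun _ _ => sq_nonneg _) fun i _ => by
      rw [EuclideanSpace.real_norm_sq_eq]
      calc ∑ j, v i j ^ 2 ≤ ∑ _j : Fin k, (1 : ℝ) := Finset.sum_le_sum fun j _ => by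
            have : |(B i j : ℝ)| ≤ 1 := by exact_mod_cast hB i j
            exact (sq_le_one_iff_abs_le_one _).2 this
        _ = k := by simp
  rw [h1] at h
  have h3 := h.trans h2
  simp only [Finset.prod_const, Finset.card_univ, Fintype.card_fin] at h3
  exact_mod_cast h3

theorem det_Mx_le {n : ℕ} (ω : Om n) : |((Mx ω).det : ℝ)| ≤ Real.exp (Lg n / 2) := by
  have h := det_sq_le (Mx ω) (fun i j => by
    simp only [Mx, of_apply, sg]; split_ifs <;> simp)
  have h1 : ((Mx ω).det : ℝ) ^ 2 ≤ (n : ℝ) ^ n := by exact_mod_cast h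
  have h2 : (n : ℝ) ^ n ≤ Real.exp (Lg n / 2) ^ 2 := by
    rw [← Real.exp_nat_mul]
    rcases Nat.eq_zero_or_pos n with rfl | hn
    · simp [Lg]
    · have hn' : (0 : ℝ) < n := by exact_mod_cast hn
      have : ((2 : ℕ) : ℝ) * (Lg n / 2) = Real.log ((n : ℝ) ^ n) := by
        rw [Real.log_pow, Lg]; push_cast; ring
      rw [this, Real.exp_log (by positivity)]
  exact abs_le_of_sq_le_sq' (h1.trans h2) (Real.exp_pos _).le |> fun h => abs_le.2 h

theorem LA.card_quot {ι : Type} [Fintype ι] [DecidableEq ι] (G : Matrix ι ι ℤ) (hG : G.det ≠ 0) :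
    Nat.card ((ι → ℤ) ⧸ LinearMap.range (Matrix.toLin' G)) = G.det.natAbs := by
  have hinj : Function.Injective (Matrix.toLin' G) := by
    rw [← LinearMap.ker_eq_bot, LinearMap.ker_eq_bot']
    intro x hx
    exact Matrix.eq_zero_of_mulVec_eq_zero hG hx
  rw [← Submodule.natAbs_det_equiv _ (LinearEquiv.ofInjective _ hinj), ← LinearMap.det_toLin']
  congr 2

theorem LA.pr_coe {ι : Type} [Fintype ι] (z : ι → ℤ) (s : ι → ℝ) :
    pr z (fun j => (s j : T1)) = ((rc z ⬝ᵥ s : ℝ) : T1) := by
  have : rc z ⬝ᵥ s = ∑ i, z i • s i := by simp [rc, dotProduct]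
  rw [this, QuotientAddGroup.mk_sum]
  exact Finset.sum_congr rfl fun i _ => by rw [AddCircle.coe_zsmul]

theorem LA.coe_T1_eq_zero {x : ℝ} : (x : T1) = 0 ↔ ∃ m : ℤ, (m : ℝ) = x := by
  rw [AddCircle.coe_eq_zero_iff]; simp

theorem LA.rm_mulVec {ι κ : Type} [Fintype κ] (B : Matrix ι κ ℤ) (a : κ → ℤ) :
    rm B *ᵥ rc a = rc (B *ᵥ a) := by
  funext i; simp [rm, rc, mulVec, dotProduct]

theorem LA.rm_det {ι : Type} [Fintype ι] [DecidableEq ι] (B : Matrix ι ι ℤ) :
    (rm B).det = (B.det : ℝ) := by rw [Int.cast_det]; rfl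

theorem LA.card_Td' {n : ℕ} (B : Matrix (Fin n) (Fin n) ℤ) (hB : B.det ≠ 0) :
    Nat.card (Td B) = B.det.natAbs := by
  have hu : IsUnit (rm B).det := by
    rw [LA.rm_det]; exact (Int.cast_ne_zero.2 hB).isUnit
  let φ : (Fin n → ℤ) →+ (Fin n → T1) :=
    { toFun := fun z i => ((((rm B)⁻¹ *ᵥ rc z) i : ℝ) : T1)
      map_zero' := by
        funext i
        have : rc (0 : Fin n → ℤ) = 0 := by funext j; simp [rc]
        simp [this]
      map_add' := fun a b => by
        funext i
        have : rc (a + b) = rc a + rc b := by funext j; simp [rc]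
        simp [this, mulVec_add] }
  have h1 : φ.range = Td B := by
    ext u
    constructor
    · rintro ⟨z, rfl⟩ i
      have := LA.pr_coe (B i) ((rm B)⁻¹ *ᵥ rc z)
      refine this.trans (LA.coe_T1_eq_zero.2 ⟨z i, ?_⟩)
      have h := congrFun (mulVec_mulVec (rc z) (rm B) (rm B)⁻¹) i
      rw [mul_nonsing_inv _ hu, one_mulVec] at h
      exact h.symm
    · intro hu'
      have h : ∀ a : T1, ∃ x : ℝ, (x : T1) = a := fun a => QuotientAddGroup.mk_surjective a
      choose r hr using h
      have h2 : ∀ i, ∃ m : ℤ, (m : ℝ) = rc (B i) ⬝ᵥ fun j => r (u j) := fun i => by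
        rw [← LA.coe_T1_eq_zero, ← LA.pr_coe]
        simpa only [hr] using hu' i
      choose z hz using h2
      refine ⟨z, funext fun i => ?_⟩
      have h3 : rc z = rm B *ᵥ fun j => r (u j) := funext hz
      change ((((rm B)⁻¹ *ᵥ rc z) i : ℝ) : T1) = u i
      rw [h3, mulVec_mulVec, nonsing_inv_mul _ hu, one_mulVec, hr]
  have h2 : φ.ker = (LinearMap.range (Matrix.toLin' B)).toAddSubgroup := by
    ext z
    constructor
    · intro hz
      have h3 : ∀ i, ∃ m : ℤ, (m : ℝ) = ((rm B)⁻¹ *ᵥ rc z) i := fun i =>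
        LA.coe_T1_eq_zero.1 (congrFun hz i)
      choose a ha using h3
      refine ⟨a, funext fun i => ?_⟩
      have h4 : rc a = (rm B)⁻¹ *ᵥ rc z := funext ha
      have h5 := LA.rm_mulVec B a
      rw [h4, mulVec_mulVec, mul_nonsing_inv _ hu, one_mulVec] at h5
      have := congrFun h5 i
      simp only [rc, Int.cast_inj] at this
      exact this.symm
    · rintro ⟨a, rfl⟩
      funext i
      change ((((rm B)⁻¹ *ᵥ rc (B *ᵥ a)) i : ℝ) : T1) = 0
      rw [← LA.rm_mulVec, mulVec_mulVec, nonsing_inv_mul _ hu, one_mulVec]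
      exact LA.coe_T1_eq_zero.2 ⟨a i, rfl⟩
  rw [← h1, ← Nat.card_congr (QuotientAddGroup.quotientKerEquivRange φ).toEquiv, h2,
    ← LA.card_quot B hB]
  rfl

theorem finite_Td {n : ℕ} (B : Matrix (Fin n) (Fin n) ℤ) (hB : B.det ≠ 0) : Finite (Td B) := by
  exact Nat.finite_of_card_ne_zero (by rw [LA.card_Td' B hB]; exact Int.natAbs_ne_zero.2 hB)

theorem card_Td {n : ℕ} (B : Matrix (Fin n) (Fin n) ℤ) (hB : B.det ≠ 0) :
    Nat.card (Td B) = B.det.natAbs := by
  exact LA.card_Td' B hB

/-- representatives modulo `B ℤ^n` -/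
theorem exists_reps {n : ℕ} (B : Matrix (Fin n) (Fin n) ℤ) (hB : B.det ≠ 0) :
    ∃ R : Finset (Fin n → ℤ), R.card = B.det.natAbs ∧
      (∀ s : Fin n → ℤ, ∃ r ∈ R, ∃ a : Fin n → ℤ, s = r + B *ᵥ a) ∧
      ∀ r ∈ R, ∀ r' ∈ R, ∀ a : Fin n → ℤ, r = r' + B *ᵥ a → r = r' := by
  classical
  have hc := LA.card_quot B hB
  set N := LinearMap.range (Matrix.toLin' B)
  have : Finite ((Fin n → ℤ) ⧸ N) :=
    Nat.finite_of_card_ne_zero (by rw [hc]; exact Int.natAbs_ne_zero.2 hB)
  let _ := Fintype.ofFinite ((Fin n → ℤ) ⧸ N)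
  choose o ho using Submodule.Quotient.mk_surjective N
  have hinj : Function.Injective o := fun a b h => by rw [← ho a, ← ho b, h]
  refine ⟨Finset.univ.image o, ?_, fun s => ?_, fun r hr r' hr' a h => ?_⟩
  · rw [Finset.card_image_of_injective _ hinj, Finset.card_univ, ← Nat.card_eq_fintype_card, hc]
  · obtain ⟨a, ha⟩ := (Submodule.Quotient.eq N).1 (ho (Submodule.Quotient.mk s)).symm
    refine ⟨_, Finset.mem_image_of_mem _ (Finset.mem_univ (Submodule.Quotient.mk s)), a, ?_⟩
    rw [toLin'_apply] at ha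
    rw [ha]; abel
  · obtain ⟨x, -, rfl⟩ := Finset.mem_image.1 hr
    obtain ⟨y, -, rfl⟩ := Finset.mem_image.1 hr'
    have : (Submodule.Quotient.mk (o x) : _ ⧸ N) = Submodule.Quotient.mk (o y) :=
      (Submodule.Quotient.eq N).2 ⟨a, by rw [toLin'_apply, h]; abel⟩
    rw [ho, ho] at this
    rw [this]

theorem LA.exists_sub_card (k : ℕ) : ∀ (G : Type) [AddCommGroup G] [Finite G], k ∣ Nat.card G →
    ∃ H : AddSubgroup G, Nat.card H = k := by
  induction k using Nat.strong_induction_on with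
  | _ k ih =>
    intro G _ _ hk
    have hG : Nat.card G ≠ 0 := Nat.card_pos.ne'
    by_cases h1 : k = 1
    · exact ⟨⊥, by simp [h1]⟩
    have h0 : k ≠ 0 := by rintro rfl; exact hG (zero_dvd_iff.1 hk)
    have hp := Nat.minFac_prime h1
    have : Fact k.minFac.Prime := ⟨hp⟩
    obtain ⟨g, hg⟩ := exists_prime_addOrderOf_dvd_card' (G := G) k.minFac ((Nat.minFac_dvd k).trans hk)
    obtain ⟨k', hk'⟩ := Nat.minFac_dvd k
    have hZ : Nat.card (AddSubgroup.zmultiples g) = k.minFac := by rw [Nat.card_zmultiples, hg]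
    have hQ := AddSubgroup.card_eq_card_quotient_mul_card_addSubgroup (AddSubgroup.zmultiples g)
    rw [hZ] at hQ
    have hd : k' ∣ Nat.card (G ⧸ AddSubgroup.zmultiples g) := by
      have h2 := hk
      rw [hQ, mul_comm] at h2
      rw [hk'] at h2
      rw [← hk'] at h2
      exact Nat.dvd_of_mul_dvd_mul_left hp.pos (by rw [← hk']; exact h2)
    have hlt : k' < k := by
      have := hp.two_le
      have : k' ≠ 0 := by rintro rfl; exact h0 (by simpa using hk')
      nlinarith [Nat.pos_of_ne_zero this]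
    obtain ⟨H', hH'⟩ := ih k' hlt _ hd
    refine ⟨H'.comap (QuotientAddGroup.mk' _), ?_⟩
    have e1 := AddSubgroup.index_comap_of_surjective H' (QuotientAddGroup.mk'_surjective
      (AddSubgroup.zmultiples g))
    have e2 := (H'.comap (QuotientAddGroup.mk' (AddSubgroup.zmultiples g))).card_mul_index
    have e3 := H'.card_mul_index
    have e4 : H'.index ≠ 0 := AddSubgroup.index_ne_zero_of_finite
    rw [e1, hQ, ← e3, hH'] at e2
    refine Nat.eq_of_mul_eq_mul_right (Nat.pos_of_ne_zero e4) ?_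
    rw [e2]
    conv_rhs => rw [hk']
    ring

/-- the `k`-torsion of a finite abelian group of order divisible by `k` -/
theorem le_card_torsion (G : Type) [AddCommGroup G] [Finite G] (k : ℕ) (hk : k ∣ Nat.card G) :
    k ≤ ({u : G | k • u = 0} : Set G).ncard := by
  obtain ⟨H, hH⟩ := LA.exists_sub_card k G hk
  have h1 : (H : Set G) ⊆ {u : G | k • u = 0} := fun u hu => by
    have := congrArg Subtype.val (card_nsmul_eq_zero' (G := H) (x := ⟨u, hu⟩))
    rw [hH] at this
    exact this
  rw [← hH]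
  exact Set.ncard_le_ncard (by rwa [hH]) (Set.toFinite _)

/-- a symmetric matrix has a nonsingular principal minor of size its rank -/
theorem sym_basis {F : Type} [Field F] {n : ℕ} (N : Matrix (Fin n) (Fin n) F) (hN : N.IsSymm) :
    ∃ I : Finset (Fin n), I.card = N.rank ∧
      (N.submatrix (Subtype.val : I → Fin n) Subtype.val).det ≠ 0 := by
  classical
  obtain ⟨κ, a, ha, hsp, hli⟩ := exists_linearIndependent' F N.row
  have : Finite κ := Finite.of_injective a ha
  let _ := Fintype.ofFinite κ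
  let e : κ ≃ (Finset.univ.map ⟨a, ha⟩ : Finset (Fin n)) :=
    Equiv.ofBijective (fun i => ⟨a i, by simp⟩) ⟨fun i j h => ha (congrArg Subtype.val h),
      fun ⟨x, hx⟩ => by
        obtain ⟨i, -, rfl⟩ := Finset.mem_map.1 hx
        exact ⟨i, rfl⟩⟩
  refine ⟨Finset.univ.map ⟨a, ha⟩, ?_, ?_⟩
  · rw [rank_eq_finrank_span_row, ← hsp, finrank_span_eq_card hli, Finset.card_map,
      Finset.card_univ]
  · rw [← det_submatrix_equiv_self e]
    intro h0
    obtain ⟨c, hc0, hc⟩ := Matrix.exists_mulVec_eq_zero_iff.2 h0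
    apply hc0
    have h1 : ∀ i, ∑ j, N (a i) (a j) * c j = 0 := fun i => congrFun hc i
    have h2 : ∀ v ∈ Submodule.span F (Set.range (N.row ∘ a)), ∑ j, v (a j) * c j = 0 := by
      intro v hv
      obtain ⟨d, rfl⟩ := (Submodule.mem_span_range_iff_exists_fun F).1 hv
      simp only [Finset.sum_apply, Pi.smul_apply, smul_eq_mul, Finset.sum_mul, Function.comp,
        mul_assoc, Matrix.row]
      rw [Finset.sum_comm]
      simp only [← Finset.mul_sum, h1, mul_zero, Finset.sum_const_zero]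
    funext j
    refine Fintype.linearIndependent_iff.1 hli c (funext fun l => ?_) j
    have := h2 (N.row l) (by rw [hsp]; exact Submodule.subset_span ⟨l, rfl⟩)
    simp only [Finset.sum_apply, Pi.smul_apply, smul_eq_mul, Function.comp, Matrix.row,
      Pi.zero_apply] at this ⊢
    rw [← this]
    exact Finset.sum_congr rfl fun j _ => by rw [hN.apply l (a j), mul_comm]

/-- the complementary block is then determined -/
theorem sym_determined {F : Type} [Field F] {n : ℕ} (N N' : Matrix (Fin n) (Fin n) F)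
    (I : Finset (Fin n)) (hdet : (N.submatrix (Subtype.val : I → Fin n) Subtype.val).det ≠ 0)
    (hr : N.rank ≤ I.card) (hr' : N'.rank ≤ I.card)
    (h : ∀ a b, a ∈ I ∨ b ∈ I → N a b = N' a b) : N = N' := by
  classical
  have key : ∀ c : I → F, (∀ j : I, ∑ i : I, c i * N i j = 0) → c = 0 := fun c hc =>
    Matrix.eq_zero_of_vecMul_eq_zero hdet (funext hc)
  have hsp : ∀ M : Matrix (Fin n) (Fin n) F, M.rank ≤ I.card → (∀ i ∈ I, M i = N i) →
      ∀ a, ∃ c : I → F, ∑ i : I, c i • N i = M a := fun M hM hI a => by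
    have hli : LinearIndependent F (fun i : I => N i) :=
      Fintype.linearIndependent_iff.2 fun c hc => congrFun (key c fun j => by
        simpa using congrFun hc j)
    have : Submodule.span F (Set.range fun i : I => N i) = Submodule.span F (Set.range M.row) :=
      Submodule.eq_of_le_of_finrank_le (Submodule.span_mono (by
        rintro _ ⟨i, rfl⟩; exact ⟨i, hI i i.2⟩)) (by
        rw [← rank_eq_finrank_span_row, finrank_span_eq_card hli, Fintype.card_coe]; exact hM)
    exact (Submodule.mem_span_range_iff_exists_fun F).1 (this ▸ Submodule.subset_span ⟨a, rfl⟩)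
  funext a
  obtain ⟨c, hc⟩ := hsp N hr (fun _ _ => rfl) a
  obtain ⟨c', hc'⟩ := hsp N' hr' (fun i hi => funext fun b => (h i b (Or.inl hi)).symm) a
  have : c - c' = 0 := key _ fun j => by
    have e1 := congrFun hc j
    have e2 := congrFun hc' j
    simp only [Finset.sum_apply, Pi.smul_apply, smul_eq_mul] at e1 e2
    simp only [Pi.sub_apply, sub_mul, Finset.sum_sub_distrib, e1, e2, h a j (Or.inr j.2), sub_self]
  rw [← hc, ← hc', sub_eq_zero.1 this]

end Crest.Agent.R152
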