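import Crest.Agent.R152.Defs

/-! Row 152: probability toolkit for `Pr` (finite product weights). -/

set_option autoImplicit false
set_option linter.unusedSectionVars false
open Matrix Filter

namespace Crest.Agent.R152
open Crest.FinProb

variable {β γ : Type} [Fintype β] [DecidableEq β] [Fintype γ] [DecidableEq γ] {p : ℝ}

theorem wt_nonneg (hp0 : 0 ≤ p) (hp1 : p ≤ 1) (ω : β → Bool) : 0 ≤ bernoulliWeight p ω := by
  unfold bernoulliWeight
  exact Finset.prod_nonneg fun i _ => by split_ifs <;> linarith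

theorem Pr_eq_sum (E : Set (β → Bool)) [DecidablePred (· ∈ E)] :
    Pr p E = ∑ ω : β → Bool, if ω ∈ E then bernoulliWeight p ω else 0 := by
  unfold Pr bernoulliProb
  rw [Finset.sum_filter]
  exact Finset.sum_congr rfl fun ω _ => by congr

theorem Pr_nonneg (hp0 : 0 ≤ p) (hp1 : p ≤ 1) (E : Set (β → Bool)) : 0 ≤ Pr p E := by
  exact Finset.sum_nonneg fun ω _ => wt_nonneg hp0 hp1 ω

theorem sum_wt : ∑ ω : β → Bool, bernoulliWeight p ω = 1 := by
  have := Finset.prod_univ_sum (fun _ : β => (Finset.univ : Finset Bool))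
    (fun _ b => if b then p else 1 - p)
  rw [Fintype.piFinset_univ] at this
  unfold bernoulliWeight
  rw [← this]; simp

theorem Pr_univ : Pr p (Set.univ : Set (β → Bool)) = 1 := by
  classical
  rw [Pr_eq_sum]; simp [sum_wt]

theorem Pr_empty : Pr p (∅ : Set (β → Bool)) = 0 := by
  classical
  rw [Pr_eq_sum]; simp

theorem Pr_mono (hp0 : 0 ≤ p) (hp1 : p ≤ 1) {E F : Set (β → Bool)} (h : E ⊆ F) :
    Pr p E ≤ Pr p F := by
  classical
  rw [Pr_eq_sum, Pr_eq_sum]
  refine Finset.sum_le_sum fun ω _ => ?_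
  have := wt_nonneg hp0 hp1 ω
  by_cases h1 : ω ∈ E
  · simp [h1, h h1]
  · simp only [h1, if_false]; split_ifs <;> linarith

theorem Pr_le_one (hp0 : 0 ≤ p) (hp1 : p ≤ 1) (E : Set (β → Bool)) : Pr p E ≤ 1 := by
  rw [← Pr_univ (β := β) (p := p)]; exact Pr_mono hp0 hp1 (Set.subset_univ _)

theorem Pr_union_le (hp0 : 0 ≤ p) (hp1 : p ≤ 1) (E F : Set (β → Bool)) :
    Pr p (E ∪ F) ≤ Pr p E + Pr p F := by
  classical
  rw [Pr_eq_sum, Pr_eq_sum, Pr_eq_sum, ← Finset.sum_add_distrib]
  refine Finset.sum_le_sum fun ω _ => ?_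
  have := wt_nonneg hp0 hp1 ω
  by_cases h1 : ω ∈ E <;> by_cases h2 : ω ∈ F <;> simp [h1, h2, this]

/-- union bound -/
theorem Pr_exists_le_sum (hp0 : 0 ≤ p) (hp1 : p ≤ 1) {α : Type} (s : Finset α)
    (E : α → Set (β → Bool)) : Pr p {ω | ∃ a ∈ s, ω ∈ E a} ≤ ∑ a ∈ s, Pr p (E a) := by
  classical
  induction s using Finset.induction_on with
  | empty => simp [Pr_empty]
  | insert a s ha ih =>
    rw [Finset.sum_insert ha]
    refine le_trans (Pr_mono hp0 hp1 (F := E a ∪ {ω | ∃ a ∈ s, ω ∈ E a}) ?_)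
      ((Pr_union_le hp0 hp1 _ _).trans (by linarith))
    rintro ω ⟨a', ha', h⟩
    rcases Finset.mem_insert.1 ha' with rfl | ha'
    · exact Or.inl h
    · exact Or.inr ⟨a', ha', h⟩

theorem Pr_exists_le (hp0 : 0 ≤ p) (hp1 : p ≤ 1) {α : Type} (s : Finset α)
    (E : α → Set (β → Bool)) {b : ℝ} (h : ∀ a ∈ s, Pr p (E a) ≤ b) :
    Pr p {ω | ∃ a ∈ s, ω ∈ E a} ≤ s.card * b := by
  refine (Pr_exists_le_sum hp0 hp1 s E).trans ((Finset.sum_le_card_nsmul _ _ _ h).trans ?_)
  simp

/-- at `p = 1/2` the probability is the density -/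
theorem Pr_half (E : Set (β → Bool)) :
    Pr (1 / 2 : ℝ) E = (E.ncard : ℝ) / 2 ^ Fintype.card β := by
  classical
  have : ∀ ω : β → Bool, bernoulliWeight (1 / 2 : ℝ) ω = 1 / 2 ^ Fintype.card β := fun ω => by
    unfold bernoulliWeight
    rw [Finset.prod_congr rfl (g := fun _ => (1 / 2 : ℝ)) fun i _ => by split_ifs <;> norm_num]
    simp
  rw [Pr_eq_sum, ← Finset.sum_filter, Set.ncard_eq_toFinset_card' E]
  simp only [this, Finset.sum_const, nsmul_eq_mul, mul_one_div]
  congr 3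
  ext ω; simp

theorem P.wt_swap (e : γ ↪ β) (ω : β → Bool) (x : γ → Bool) :
    bernoulliWeight p (Function.extend e x ω) * bernoulliWeight p (fun c => ω (e c)) =
      bernoulliWeight p ω * bernoulliWeight p x := by
  unfold bernoulliWeight
  have h : ∀ f : β → ℝ, ∏ b, f b = (∏ b ∈ (Finset.univ.map e)ᶜ, f b) * ∏ c, f (e c) := fun f => by
    rw [← Finset.prod_compl_mul_prod (Finset.univ.map e), Finset.prod_map]
  rw [h, h (fun b => if ω b then p else 1 - p)]
  simp only [e.injective.extend_apply]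
  have : ∏ b ∈ (Finset.univ.map e)ᶜ, (if Function.extend e x ω b then p else 1 - p) =
      ∏ b ∈ (Finset.univ.map e)ᶜ, (if ω b then p else 1 - p) :=
    Finset.prod_congr rfl fun b hb => by
      rw [Function.extend_apply' _ _ _ (by simpa using hb)]
  rw [this]; ring

/-- resampling a block of coins -/
theorem P.E_split (e : γ ↪ β) (Φ : (β → Bool) → ℝ) :
    ∑ ω : β → Bool, bernoulliWeight p ω * Φ ω =
      ∑ ω : β → Bool, bernoulliWeight p ω *
        ∑ x : γ → Bool, bernoulliWeight p x * Φ (Function.extend e x ω) := by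
  let σ : (β → Bool) × (γ → Bool) → (β → Bool) × (γ → Bool) :=
    fun z => (Function.extend e z.2 z.1, fun c => z.1 (e c))
  have hσ : Function.Involutive σ := fun z => by
    refine Prod.ext (funext fun b => ?_) (funext fun c => ?_)
    · by_cases hb : ∃ c, e c = b
      · obtain ⟨c, rfl⟩ := hb
        simp only [σ, e.injective.extend_apply]
      · simp only [σ, Function.extend_apply' _ _ _ hb]
    · simp only [σ, e.injective.extend_apply]
  have h1 : ∑ ω : β → Bool, bernoulliWeight p ω * Φ ω =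
      ∑ z : (β → Bool) × (γ → Bool), bernoulliWeight p z.1 * bernoulliWeight p z.2 * Φ z.1 := by
    rw [Fintype.sum_prod_type]
    refine Finset.sum_congr rfl fun ω _ => ?_
    simp only [← Finset.sum_mul, ← Finset.mul_sum, sum_wt, mul_one]
  rw [h1, ← Equiv.sum_comp hσ.toPerm, Fintype.sum_prod_type]
  refine Finset.sum_congr rfl fun ω _ => ?_
  rw [Finset.mul_sum]
  refine Finset.sum_congr rfl fun x _ => ?_
  simp only [Function.Involutive.coe_toPerm, σ, P.wt_swap, mul_assoc]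

theorem P.Pr_eq_sum' (E : Set (β → Bool)) [DecidablePred (· ∈ E)] :
    Pr p E = ∑ ω : β → Bool, bernoulliWeight p ω * if ω ∈ E then 1 else 0 := by
  rw [Pr_eq_sum]; simp

theorem P.Pr_split' (e : γ ↪ β) (F : (β → Bool) → Set (γ → Bool))
    (hF : ∀ ω ω' : β → Bool, (∀ b, b ∉ Set.range e → ω b = ω' b) → F ω = F ω') :
    Pr p {ω : β → Bool | (fun c => ω (e c)) ∈ F ω} =
      ∑ ω : β → Bool, bernoulliWeight p ω * Pr p (F ω) := by
  classical
  rw [P.Pr_eq_sum', P.E_split e]
  refine Finset.sum_congr rfl fun ω _ => ?_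
  rw [P.Pr_eq_sum']
  congr 1
  refine Finset.sum_congr rfl fun x _ => ?_
  have h1 : F (Function.extend e x ω) = F ω :=
    hF _ _ fun b hb => Function.extend_apply' _ _ _ hb
  simp only [Set.mem_ofPred_eq, e.injective.extend_apply, h1]

/-- bound by the worst fibre -/
theorem P.Pr_le_fibre (hp0 : 0 ≤ p) (hp1 : p ≤ 1) (e : γ ↪ β) (Z : Set (β → Bool)) {b : ℝ}
    (h : ∀ ω, Pr p {x : γ → Bool | Function.extend e x ω ∈ Z} ≤ b) : Pr p Z ≤ b := by
  classical
  rw [P.Pr_eq_sum', P.E_split e]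
  calc _ ≤ ∑ ω : β → Bool, bernoulliWeight p ω * b := Finset.sum_le_sum fun ω _ =>
        mul_le_mul_of_nonneg_left (by have := h ω; rw [P.Pr_eq_sum'] at this; exact this)
          (wt_nonneg hp0 hp1 ω)
    _ = b := by rw [← Finset.sum_mul, sum_wt, one_mul]

theorem P.Pr_singleton (x : β → Bool) : Pr p {x} = bernoulliWeight p x := by
  classical
  rw [Pr_eq_sum]; simp

theorem P.wt_le_pm (hp0 : 0 ≤ p) (hp1 : p ≤ 1) (x : β → Bool) :
    bernoulliWeight p x ≤ pm p ^ Fintype.card β := by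
  unfold bernoulliWeight pm
  refine (Finset.prod_le_prod (g := fun _ => max p (1 - p)) (fun i _ => by split_ifs <;> linarith)
    fun i _ => by split_ifs <;> simp).trans (by simp)

theorem P.pn_le_wt (hp0 : 0 ≤ p) (hp1 : p ≤ 1) (x : β → Bool) :
    pn p ^ Fintype.card β ≤ bernoulliWeight p x := by
  unfold bernoulliWeight pn
  refine le_trans (by simp) (Finset.prod_le_prod (f := fun _ => min p (1 - p))
    (fun i _ => le_min hp0 (by linarith)) fun i _ => by split_ifs <;> simp)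

theorem P.Pr_inter_indep (J : Finset β) (A B : Set (β → Bool))
    (hA : ∀ x y : β → Bool, (∀ b ∈ J, x b = y b) → x ∈ A → y ∈ A)
    (hB : ∀ x y : β → Bool, (∀ b, b ∉ J → x b = y b) → x ∈ B → y ∈ B) :
    Pr p (A ∩ B) = Pr p A * Pr p B := by
  classical
  let e : J ↪ β := Function.Embedding.subtype _
  let A' : Set (J → Bool) := {x | Function.extend e x (fun _ => true) ∈ A}
  have hA' : ∀ ω : β → Bool, (fun c => ω (e c)) ∈ A' ↔ ω ∈ A := fun ω => by
    have : ∀ b ∈ J, Function.extend e (fun c => ω (e c)) (fun _ => true) b = ω b := fun b hb =>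
      e.injective.extend_apply _ _ ⟨b, hb⟩
    exact ⟨hA _ _ this, hA _ _ fun b hb => (this b hb).symm⟩
  have h1 := P.Pr_split' (p := p) e (fun _ => A') fun _ _ _ => rfl
  have h2 := P.Pr_split' (p := p) e (fun ω => if ω ∈ B then A' else ∅) fun ω ω' h => by
    have h' : ∀ b, b ∉ J → ω b = ω' b := fun b hb => h b (by rintro ⟨c, rfl⟩; exact hb c.2)
    have : ω ∈ B ↔ ω' ∈ B := ⟨hB _ _ h', hB _ _ fun b hb => (h' b hb).symm⟩
    simp only [this]
  have e1 : {ω : β → Bool | (fun c => ω (e c)) ∈ A'} = A := Set.ext hA'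
  have e2 : {ω : β → Bool | (fun c => ω (e c)) ∈ if ω ∈ B then A' else ∅} = A ∩ B := by
    ext ω
    by_cases h : ω ∈ B <;> simp [h, hA']
  rw [e1, ← Finset.sum_mul, sum_wt, one_mul] at h1
  rw [e2] at h2
  rw [h2, h1, Pr_eq_sum B, Finset.mul_sum]
  refine Finset.sum_congr rfl fun ω _ => ?_
  split_ifs <;> simp [Pr_empty, mul_comm]

/-- marginal on a sub-family of coins -/
theorem Pr_comp (e : γ ↪ β) (E : Set (γ → Bool)) :
    Pr p {ω : β → Bool | (fun c => ω (e c)) ∈ E} = Pr p E := by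
  rw [P.Pr_split' e (fun _ => E) fun _ _ _ => rfl, ← Finset.sum_mul, sum_wt, one_mul]

theorem Pr_res {m n : ℕ} (e : Fin m ↪ Fin n) (E : Set (Om m)) :
    Pr p {ω : Om n | res e ω ∈ E} = Pr p E := by
  exact Pr_comp ⟨Sym2.map e, Sym2.map.injective e.injective⟩ E

/-- a block of coins is independent of the others -/
theorem Pr_split (e : γ ↪ β) (F : (β → Bool) → Set (γ → Bool))
    (hF : ∀ ω ω' : β → Bool, (∀ b, b ∉ Set.range e → ω b = ω' b) → F ω = F ω') :
    Pr p {ω : β → Bool | (fun c => ω (e c)) ∈ F ω} =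
      ∑ ω : β → Bool, bernoulliWeight p ω * Pr p (F ω) := by
  exact P.Pr_split' e F hF

/-- events depending on disjoint sets of coins are independent -/
theorem Pr_iInter {α : Type} [DecidableEq α] (s : Finset α) (J : α → Finset β)
    (hJ : ∀ a ∈ s, ∀ a' ∈ s, a ≠ a' → Disjoint (J a) (J a')) (A : α → Set (β → Bool))
    (hA : ∀ a ∈ s, ∀ x y : β → Bool, (∀ b ∈ J a, x b = y b) → x ∈ A a → y ∈ A a) :
    Pr p {x | ∀ a ∈ s, x ∈ A a} = ∏ a ∈ s, Pr p (A a) := by
  induction s using Finset.induction_on with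
  | empty => simp [Pr_univ]
  | insert a s ha ih =>
    rw [Finset.prod_insert ha, ← ih (fun a1 h1 a2 h2 => hJ a1 (Finset.mem_insert_of_mem h1) a2
      (Finset.mem_insert_of_mem h2)) fun a1 h1 => hA a1 (Finset.mem_insert_of_mem h1),
      ← P.Pr_inter_indep (J a) _ _ (hA a (Finset.mem_insert_self _ _))]
    · congr 1; ext x; simp
    · intro x y h hx a' ha'
      refine hA a' (Finset.mem_insert_of_mem ha') x y (fun b hb => h b fun hb' => ?_) (hx a' ha')
      exact Finset.disjoint_left.1 (hJ a (Finset.mem_insert_self _ _) a'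
        (Finset.mem_insert_of_mem ha') (by rintro rfl; exact ha ha')) hb' hb

/-- fresh rows: row `r j` restricted to the columns `C` is exposed after everything else and after
the rows `r j'`, `j' < j`. -/
theorem fresh (hp0 : 0 ≤ p) (hp1 : p ≤ 1) {n k : ℕ} (r : Fin k ↪ Fin n) (C : Finset (Fin n))
    (hr : ∀ j, r j ∉ C) (E0 : Set (Om n)) (F : Fin k → Om n → Set (C → Bool)) {b : ℝ}
    (hb : 0 ≤ b)
    (hE0 : ∀ ω ω' : Om n, (∀ a c : Fin n, (¬ ∃ j, a = r j ∧ c ∈ C) → (¬ ∃ j, c = r j ∧ a ∈ C) →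
      ω s(a, c) = ω' s(a, c)) → ω ∈ E0 → ω' ∈ E0)
    (hF : ∀ j, ∀ ω ω' : Om n, (∀ a c : Fin n, (¬ ∃ j', j ≤ j' ∧ a = r j' ∧ c ∈ C) →
      (¬ ∃ j', j ≤ j' ∧ c = r j' ∧ a ∈ C) → ω s(a, c) = ω' s(a, c)) → F j ω = F j ω') :
    Pr p {ω : Om n | ω ∈ E0 ∧ ∀ j, Pr p (F j ω) ≤ b ∧ (fun c : C => ω s(r j, c)) ∈ F j ω} ≤
      Pr p E0 * b ^ k := by
  classical
  let A : ℕ → Set (Om n) := fun m => {ω | ω ∈ E0 ∧ ∀ j : Fin k, (j : ℕ) < m →
    Pr p (F j ω) ≤ b ∧ (fun c : C => ω s(r j, c)) ∈ F j ω}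
  have key : ∀ m, m ≤ k → Pr p (A m) ≤ Pr p E0 * b ^ m := by
    intro m
    induction m with
    | zero => intro _; simp [A]
    | succ m ih =>
      intro hm
      let j0 : Fin k := ⟨m, hm⟩
      let e : C ↪ Sym2 (Fin n) := ⟨fun c => s(r j0, c), fun c c' h => by
        rcases Sym2.eq_iff.1 h with h | h
        · exact Subtype.ext h.2
        · exact absurd (h.1 ▸ c'.2) (hr j0)⟩
      have hinv : ∀ ω ω' : Om n, (∀ x, x ∉ Set.range e → ω x = ω' x) →
          (∀ j : Fin k, j ≤ j0 → F j ω = F j ω') ∧ (ω ∈ A m → ω' ∈ A m) := fun ω ω' h => by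
        have h1 : ∀ a c : Fin n, ¬ (a = r j0 ∧ c ∈ C) → ¬ (c = r j0 ∧ a ∈ C) →
            ω s(a, c) = ω' s(a, c) := fun a c h1 h2 => h _ (by
          rintro ⟨c', hc'⟩
          rcases Sym2.eq_iff.1 hc' with h | h
          · exact h1 ⟨h.1.symm, h.2 ▸ c'.2⟩
          · exact h2 ⟨h.1.symm, h.2 ▸ c'.2⟩)
        have h2 : ∀ j : Fin k, j ≤ j0 → F j ω = F j ω' := fun j hj => hF j ω ω' fun a c ha hc =>
          h1 a c (fun h => ha ⟨j0, hj, h⟩) fun h => hc ⟨j0, hj, h⟩
        refine ⟨h2, fun hA => ⟨hE0 ω ω' (fun a c ha hc =>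
          h1 a c (fun h => ha ⟨j0, h⟩) fun h => hc ⟨j0, h⟩) hA.1, fun j hj => ?_⟩⟩
        have h3 : (fun c : C => ω' s(r j, c)) = fun c : C => ω s(r j, c) := funext fun c =>
          (h1 _ _ (fun h => by
            have := congrArg Fin.val (r.injective h.1)
            simp only [j0] at this; omega) fun h => hr j h.2).symm
        rw [← h2 j (show (j : ℕ) ≤ m by omega), h3]
        exact hA.2 j hj
      have h2 := P.Pr_split' (p := p) e
        (fun ω => if ω ∈ A m ∧ Pr p (F j0 ω) ≤ b then F j0 ω else ∅) fun ω ω' h => by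
          have a1 := hinv ω ω' h
          have a2 := hinv ω' ω fun x hx => (h x hx).symm
          have : ω ∈ A m ↔ ω' ∈ A m := ⟨a1.2, a2.2⟩
          simp only [this, a1.1 j0 le_rfl]
      have h3 : A (m + 1) ⊆ {ω : Om n | (fun c => ω (e c)) ∈
          if ω ∈ A m ∧ Pr p (F j0 ω) ≤ b then F j0 ω else ∅} := fun ω hω => by
        have a1 : ω ∈ A m := ⟨hω.1, fun j hj => hω.2 j (by omega)⟩
        have a2 := hω.2 j0 (Nat.lt_succ_self m)
        simp only [Set.mem_ofPred_eq, a1, a2.1, and_self, if_true]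
        exact a2.2
      refine (Pr_mono hp0 hp1 h3).trans ?_
      rw [h2, pow_succ, ← mul_assoc]
      refine le_trans ?_ (mul_le_mul_of_nonneg_right (ih (by omega)) hb)
      rw [P.Pr_eq_sum' (A m), Finset.sum_mul]
      refine Finset.sum_le_sum fun ω _ => ?_
      rw [mul_assoc]
      refine mul_le_mul_of_nonneg_left ?_ (wt_nonneg hp0 hp1 ω)
      by_cases a1 : ω ∈ A m <;> by_cases a2 : Pr p (F j0 ω) ≤ b <;> simp [a1, a2, Pr_empty, hb]
  exact le_trans (Pr_mono hp0 hp1 (F := A k) fun ω hω => ⟨hω.1, fun j _ => hω.2 j⟩) (key k le_rfl)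

/-- a set with no edge in two given directions -/
theorem Pr_indep2 (hp0 : 0 ≤ p) (hp1 : p ≤ 1) {a b : γ} (hab : a ≠ b) (Z : Set (γ → Bool))
    (hZ : ∀ x ∈ Z, Function.update x a (!x a) ∉ Z ∧ Function.update x b (!x b) ∉ Z) :
    Pr p Z ≤ rho p := by
  classical
  let e : Bool ↪ γ := ⟨fun t => if t then a else b, fun t t' h => by
    cases t <;> cases t' <;> simp_all [hab.symm]⟩
  refine P.Pr_le_fibre hp0 hp1 e Z fun ω => ?_
  let Φ : Bool → Bool → γ → Bool := fun u v => Function.update (Function.update ω a u) b v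
  have h1 : ∀ x : Bool → Bool, Function.extend e x ω = Φ (x true) (x false) := fun x => by
    funext c
    by_cases hb : c = b
    · subst hb
      have := e.injective.extend_apply x ω false
      simpa [Φ, e] using this
    by_cases ha : c = a
    · subst ha
      have := e.injective.extend_apply x ω true
      simpa [Φ, e, hab] using this
    · rw [Function.extend_apply' _ _ _ (by
        rintro ⟨t, ht⟩
        cases t
        · exact hb ht.symm
        · exact ha ht.symm)]
      simp [Φ, ha, hb]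
  have h2 : ∀ u v, Φ u v ∈ Z → Φ (!u) v ∉ Z ∧ Φ u (!v) ∉ Z := fun u v h => by
    have := hZ _ h
    have e1 : Function.update (Φ u v) a (!Φ u v a) = Φ (!u) v := by
      simp only [Φ, Function.update_of_ne hab, Function.update_self]
      rw [Function.update_comm hab.symm, Function.update_idem]
    have e2 : Function.update (Φ u v) b (!Φ u v b) = Φ u (!v) := by simp [Φ]
    rwa [e1, e2] at this
  rw [Pr_eq_sum, ← Equiv.sum_comp (Equiv.boolArrowEquivProd Bool).symm, Fintype.sum_prod_type]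
  simp only [Set.mem_ofPred_eq, h1, bernoulliWeight, Fintype.sum_bool, Fintype.prod_bool,
    Equiv.boolArrowEquivProd_symm_apply]
  have a1 := h2 true true
  have a2 := h2 false false
  simp only [Bool.not_true, Bool.not_false] at a1 a2
  have q1 : 0 ≤ p * (1 - p) := mul_nonneg hp0 (by linarith)
  unfold rho
  by_cases c1 : Φ true true ∈ Z <;> by_cases c2 : Φ false false ∈ Z <;>
    by_cases c3 : Φ true false ∈ Z <;> by_cases c4 : Φ false true ∈ Z <;>
    simp_all <;> nlinarith [sq_nonneg (1 - 2 * p), sq_nonneg p, sq_nonneg (1 - p)]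

/-- coordinates determined by the others -/
theorem Pr_det (hp0 : 0 ≤ p) (hp1 : p ≤ 1) (S : Finset γ) (Z : Set (γ → Bool))
    (hZ : ∀ x ∈ Z, ∀ y ∈ Z, (∀ c, c ∉ S → x c = y c) → x = y) : Pr p Z ≤ pm p ^ S.card := by
  classical
  let e : S ↪ γ := Function.Embedding.subtype _
  refine P.Pr_le_fibre hp0 hp1 e Z fun ω => ?_
  by_cases h : ∃ x, Function.extend e x ω ∈ Z
  · obtain ⟨x, hx⟩ := h
    refine (Pr_mono hp0 hp1 (F := {x}) fun y hy => ?_).trans ?_
    · have := hZ _ hy _ hx fun c hc => by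
        have : ¬ ∃ a, e a = c := by rintro ⟨a, rfl⟩; exact hc a.2
        rw [Function.extend_apply' _ _ _ this, Function.extend_apply' _ _ _ this]
      funext c
      have := congrFun this (e c)
      rwa [e.injective.extend_apply, e.injective.extend_apply] at this
    · rw [P.Pr_singleton, ← Fintype.card_coe]; exact P.wt_le_pm hp0 hp1 x
  · have : {x : S → Bool | Function.extend e x ω ∈ Z} = ∅ :=
      Set.eq_empty_of_forall_notMem fun x hx => h ⟨x, hx⟩
    rw [this, Pr_empty]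
    exact pow_nonneg (le_max_of_le_left hp0) _

/-- a slice: freeze the coordinates outside `C` -/
theorem Pr_slice (hp0 : 0 < p) (hp1 : p < 1) (C D : Finset β) (A : Set (β → Bool))
    (hA : ∀ x y : β → Bool, (∀ b, b ∈ C ∨ b ∈ D → x b = y b) → x ∈ A → y ∈ A) (x0 : β → Bool) :
    Pr p {y : C → Bool | (fun b => if h : b ∈ C then y ⟨b, h⟩ else x0 b) ∈ A} * pn p ^ D.card ≤
      Pr p A := by
  classical
  let e : C ↪ β := Function.Embedding.subtype _
  let e' : D ↪ β := Function.Embedding.subtype _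
  set A' := {y : C → Bool | (fun b => if h : b ∈ C then y ⟨b, h⟩ else x0 b) ∈ A}
  have h1 := Pr_comp (p := p) e' {fun c => x0 (e' c)}
  rw [P.Pr_singleton] at h1
  have h2 := P.pn_le_wt hp0.le hp1.le (fun c : D => x0 (e' c))
  rw [Fintype.card_coe, ← h1] at h2
  refine (mul_le_mul_of_nonneg_left h2 (Pr_nonneg hp0.le hp1.le _)).trans ?_
  rw [P.Pr_eq_sum' A, P.E_split e, P.Pr_eq_sum' (β := β), Finset.mul_sum]
  refine Finset.sum_le_sum fun ω _ => ?_
  rw [mul_left_comm]
  refine mul_le_mul_of_nonneg_left ?_ (wt_nonneg hp0.le hp1.le ω)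
  split_ifs with h
  · rw [mul_one, P.Pr_eq_sum']
    refine Finset.sum_le_sum fun y _ => mul_le_mul_of_nonneg_left ?_ (wt_nonneg hp0.le hp1.le y)
    by_cases hy : y ∈ A'
    · have : Function.extend e y ω ∈ A := hA _ _ (fun b hb => by
        by_cases hC : b ∈ C
        · rw [dif_pos hC]; exact (e.injective.extend_apply y ω ⟨b, hC⟩).symm
        · rw [dif_neg hC, Function.extend_apply' _ _ _ (by rintro ⟨c, rfl⟩; exact hC c.2)]
          exact (congrFun h ⟨b, hb.resolve_left hC⟩).symm) hy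
      simp [hy, this]
    · simp only [hy, if_false]; split_ifs <;> norm_num
  · rw [mul_zero]
    exact Finset.sum_nonneg fun y _ => mul_nonneg (wt_nonneg hp0.le hp1.le y)
      (by split_ifs <;> norm_num)

theorem sum_wt_sq : ∑ x : γ → Bool, bernoulliWeight p x ^ 2 = rho p ^ Fintype.card γ := by
  have := Finset.prod_univ_sum (fun _ : γ => (Finset.univ : Finset Bool))
    (fun _ b => (if b then p else 1 - p) ^ 2)
  rw [Fintype.piFinset_univ] at this
  unfold bernoulliWeight rho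
  simp only [← Finset.prod_pow]
  rw [← this]; simp

theorem pm_lt_one (hp0 : 0 < p) (hp1 : p < 1) : pm p < 1 := by
  exact max_lt hp1 (by linarith)

theorem pm_pos : 0 < pm p := by
  unfold pm
  rcases lt_or_ge 0 p with h | h
  · exact lt_max_of_lt_left h
  · exact lt_max_of_lt_right (by linarith)

theorem pn_pos (hp0 : 0 < p) (hp1 : p < 1) : 0 < pn p := by
  exact lt_min hp0 (by linarith)

theorem rho_ge : 1 / 2 ≤ rho p := by
  unfold rho; nlinarith [sq_nonneg (1 - 2 * p)]

theorem rho_lt_one (hp0 : 0 < p) (hp1 : p < 1) : rho p < 1 := by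
  unfold rho; nlinarith

end Crest.Agent.R152
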