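import Crest.Agent.R152.Iface
import Crest.Agent.R152.P
import Crest.Agent.R152.LA

/-! Row 152, block C, notes152/H33.md 3C.  Recipe: `maxvol` modulo `span Z` for the family indexed by `{i // i ∉ J} ⊕ Fin n` (rows, and `e_l/(2n)`);
`R0`, `I` the chosen rows / coordinates, `|R0|+|I| = n-t`.  If `|I| ≤ s`: `CondI` (use `GoodZ` for the `span Z` part, `t ≤ n`).  Otherwise pick `I2` among the non-basis rows outside `J`,
`|I2| = s/2`; `U' = {w | Z w = 0, w = 0 on I2, rows R0 kill w}` has dimension `≥ s/2`, depends only on the entries outside the block `I2 × I2ᶜ`, and every row `i ∈ I2` has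
`|row·w| ≤ ‖w‖∞/2` on `U'`; `maxvol` for the coordinate functionals on `U'` gives pivots, so `Pr_det` bounds each row by `pm^(s/2)`; `fresh` with `C = I2ᶜ`; union over `(R0, I2)`. -/

set_option autoImplicit false
open Matrix Filter

namespace Crest.Agent.R152

namespace CC

/-- the space killed by a finite family -/
def kerF {n : ℕ} {κ : Type} [Fintype κ] (v : κ → Fin n → ℝ) : Submodule ℝ (Fin n → ℝ) :=
  LinearMap.ker (Matrix.of v).mulVecLin

theorem mem_kerF {n : ℕ} {κ : Type} [Fintype κ] (v : κ → Fin n → ℝ) (w : Fin n → ℝ) :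
    w ∈ kerF v ↔ ∀ k, v k ⬝ᵥ w = 0 := by
  simp only [kerF, LinearMap.mem_ker, Matrix.mulVecLin_apply, funext_iff]
  rfl

theorem finrank_kerF {n : ℕ} {κ : Type} [Fintype κ] (v : κ → Fin n → ℝ) :
    n ≤ Module.finrank ℝ (kerF v) + Fintype.card κ := by
  have h := LinearMap.finrank_range_add_finrank_ker (Matrix.of v).mulVecLin
  have h2 : Module.finrank ℝ (LinearMap.range (Matrix.of v).mulVecLin) ≤ Fintype.card κ :=
    (Submodule.finrank_le _).trans (by simp)
  have h3 : Module.finrank ℝ (Fin n → ℝ) = n := by simp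
  unfold kerF
  omega

/-- the test space `U'` -/
def Up {n t : ℕ} (Z : Fin t → Fin n → ℤ) (R0 I2 : Finset (Fin n))
    (B : Matrix (Fin n) (Fin n) ℤ) : Submodule ℝ (Fin n → ℝ) :=
  kerF (Sum.elim (fun k => rc (Z k))
    (Sum.elim (fun l : I2 => (Pi.single l.1 (1 : ℝ) : Fin n → ℝ)) (fun i : R0 => rc (B i))))

theorem mem_Up {n t : ℕ} (Z : Fin t → Fin n → ℤ) (R0 I2 : Finset (Fin n))
    (B : Matrix (Fin n) (Fin n) ℤ) (w : Fin n → ℝ) :
    w ∈ Up Z R0 I2 B ↔ (∀ k, rc (Z k) ⬝ᵥ w = 0) ∧ (∀ l ∈ I2, w l = 0) ∧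
      ∀ i ∈ R0, rc (B i) ⬝ᵥ w = 0 := by
  simp [Up, mem_kerF, Sum.forall]

theorem finrank_Up {n t : ℕ} (Z : Fin t → Fin n → ℤ) (R0 I2 : Finset (Fin n))
    (B : Matrix (Fin n) (Fin n) ℤ) :
    n ≤ Module.finrank ℝ (Up Z R0 I2 B) + (t + (I2.card + R0.card)) := by
  have h := finrank_kerF (Sum.elim (fun k => rc (Z k))
    (Sum.elim (fun l : I2 => (Pi.single l.1 (1 : ℝ) : Fin n → ℝ)) (fun i : R0 => rc (B i))))
  have h2 : Fintype.card (Fin t ⊕ (I2 ⊕ R0)) = t + (I2.card + R0.card) := by simp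
  rw [h2] at h
  exact h

/-- pivots of a subspace -/
theorem pivots {n : ℕ} (C : Finset (Fin n)) (U : Submodule ℝ (Fin n → ℝ))
    (hU : ∀ w ∈ U, ∀ l, l ∉ C → w l = 0) :
    ∃ S : Finset C, Module.finrank ℝ U ≤ S.card ∧ ∀ k0 ∈ S, ∃ w ∈ U, w k0 = 1 ∧
      (∀ k ∈ S, k ≠ k0 → w k = 0) ∧ ∀ l, |w l| ≤ 1 := by
  classical
  let φ : C → Module.Dual ℝ U := fun c => (LinearMap.proj (c : Fin n)).comp U.subtype
  have hφ : ∀ (c : C) (w : U), φ c w = (w : Fin n → ℝ) c := fun _ _ => rfl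
  obtain ⟨S, hli, hS⟩ := maxvol (⊥ : Submodule ℝ (Module.Dual ℝ U)) φ
  have hli' : LinearIndependent ℝ (fun k : S => φ k) :=
    LinearIndependent.of_comp (⊥ : Submodule ℝ (Module.Dual ℝ U)).mkQ hli
  have hrep : ∀ j : C, ∃ a : C → ℝ, (∀ k, |a k| ≤ 1) ∧
      ∀ w : U, (w : Fin n → ℝ) j = ∑ k ∈ S, a k * (w : Fin n → ℝ) k := by
    intro j
    obtain ⟨a, ha, h⟩ := hS j
    refine ⟨a, ha, fun w => ?_⟩
    rw [Submodule.mem_bot, sub_eq_zero] at h
    rw [← hφ, h, LinearMap.sum_apply]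
    simp [hφ]
  refine ⟨S, ?_, fun k0 hk0 => ?_⟩
  · let f : U →ₗ[ℝ] (S → ℝ) := LinearMap.pi fun k => φ k
    have hf : Function.Injective f := by
      rw [← LinearMap.ker_eq_bot, LinearMap.ker_eq_bot']
      intro w hw
      have hw' : ∀ k ∈ S, (w : Fin n → ℝ) k = 0 := fun k hk => congrFun hw ⟨k, hk⟩
      ext l
      by_cases hl : l ∈ C
      · obtain ⟨a, -, h⟩ := hrep ⟨l, hl⟩
        have := h w
        rw [Finset.sum_eq_zero (fun k hk => by rw [hw' k hk, mul_zero])] at this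
        simpa using this
      · simpa using hU w w.2 l hl
    have := LinearMap.finrank_le_finrank_of_injective hf
    simpa using this
  · obtain ⟨g, hg⟩ := LinearMap.exists_extend
      ((Finsupp.lapply (⟨k0, hk0⟩ : S)).comp hli'.repr)
    let w : U := (Module.evalEquiv ℝ U).symm g
    have hw : ∀ k : S, (w : Fin n → ℝ) (k : C) = if k = ⟨k0, hk0⟩ then 1 else 0 := by
      intro k
      rw [← hφ, Module.apply_evalEquiv_symm_apply]
      have h1 := LinearMap.congr_fun hg ⟨φ k, Submodule.subset_span ⟨k, rfl⟩⟩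
      simp only [LinearMap.comp_apply, Submodule.subtype_apply, Finsupp.lapply_apply] at h1
      rw [h1, hli'.repr_eq_single k _ rfl, Finsupp.single_apply]
    have hw1 : (w : Fin n → ℝ) k0 = 1 := by simpa using hw ⟨k0, hk0⟩
    have hw0 : ∀ k ∈ S, k ≠ k0 → (w : Fin n → ℝ) k = 0 := fun k hk hne => by
      have := hw ⟨k, hk⟩
      rwa [if_neg (fun h => hne (congrArg Subtype.val h))] at this
    refine ⟨w, w.2, hw1, hw0, fun l => ?_⟩
    by_cases hl : l ∈ C
    · obtain ⟨a, ha, h⟩ := hrep ⟨l, hl⟩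
      have := h w
      rw [Finset.sum_eq_single k0 (fun k hk hne => by rw [hw0 k hk hne, mul_zero])
        (fun h => absurd hk0 h), hw1, mul_one] at this
      rw [show (w : Fin n → ℝ) l = a k0 from this]
      exact ha k0
    · rw [hU w w.2 l hl]; simp

/-- rows that are nearly orthogonal to `U` -/
def Fs {n : ℕ} (C : Finset (Fin n)) (U : Submodule ℝ (Fin n → ℝ)) : Set (C → Bool) :=
  {x | ∀ w ∈ U, (∀ l, |w l| ≤ 1) → |∑ c : C, (sg (x c) : ℝ) * w c| ≤ 1 / 2}

theorem Pr_Fs {p : ℝ} (hp0 : 0 < p) (hp1 : p < 1) {n : ℕ} (C : Finset (Fin n))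
    (U : Submodule ℝ (Fin n → ℝ)) (hU : ∀ w ∈ U, ∀ l, l ∉ C → w l = 0) {h : ℕ}
    (hh : h ≤ Module.finrank ℝ U) : Pr p (Fs C U) ≤ pm p ^ h := by
  obtain ⟨S, hS, hw⟩ := pivots C U hU
  refine (Pr_det hp0.le hp1.le S (Fs C U) fun x hx y hy hxy => ?_).trans
    (pow_le_pow_of_le_one pm_pos.le (pm_lt_one hp0 hp1).le (hh.trans hS))
  funext c
  by_cases hc : c ∈ S
  swap
  · exact hxy c hc
  obtain ⟨w, hwU, hw1, hw0, hwl⟩ := hw c hc
  have h1 := hx w hwU hwl
  have h2 := hy w hwU hwl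
  have h3 : ∑ k : C, (sg (x k) : ℝ) * w k - ∑ k : C, (sg (y k) : ℝ) * w k =
      (sg (x c) : ℝ) - sg (y c) := by
    rw [← Finset.sum_sub_distrib, Finset.sum_eq_single c]
    · rw [hw1]; ring
    · intro k _ hk
      by_cases hkS : k ∈ S
      · rw [hw0 k hkS hk]; ring
      · rw [hxy k hkS]; ring
    · simp
  rw [abs_le] at h1 h2
  by_contra hne
  rcases hx' : x c <;> rcases hy' : y c <;> simp_all [sg] <;> linarith [h1.1, h1.2, h2.1, h2.2]

/-- the bad event for fixed `R0`, `I2` -/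
def Bad {n t : ℕ} (Z : Fin t → Fin n → ℤ) (h : ℕ) (R0 I2 : Finset (Fin n))
    (B : Matrix (Fin n) (Fin n) ℤ) : Prop :=
  Disjoint R0 I2 ∧ I2.card = h ∧ h ≤ Module.finrank ℝ (Up Z R0 I2 B) ∧
    ∀ i ∈ I2, ∀ w ∈ Up Z R0 I2 B, (∀ l, |w l| ≤ 1) → |rc (B i) ⬝ᵥ w| ≤ 1 / 2

theorem dot_restrict {n : ℕ} (I2 : Finset (Fin n)) (x w : Fin n → ℝ) (hw : ∀ l ∈ I2, w l = 0) :
    x ⬝ᵥ w = ∑ c : (I2ᶜ : Finset (Fin n)), x c * w c := by
  rw [Finset.sum_coe_sort I2ᶜ (fun c => x c * w c), dotProduct]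
  symm
  refine Finset.sum_subset (Finset.subset_univ _) fun l _ hl => ?_
  rw [hw l (by simpa using hl), mul_zero]

theorem Up_congr {n t : ℕ} (Z : Fin t → Fin n → ℤ) (R0 I2 : Finset (Fin n))
    (B B' : Matrix (Fin n) (Fin n) ℤ) (h : ∀ i ∈ R0, ∀ l, l ∉ I2 → B i l = B' i l) :
    Up Z R0 I2 B = Up Z R0 I2 B' := by
  ext w
  rw [mem_Up, mem_Up]
  refine and_congr_right fun _ => and_congr_right fun hw => forall₂_congr fun i hi => ?_
  rw [dot_restrict I2 _ w hw, dot_restrict I2 _ w hw]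
  have : ∀ c : (I2ᶜ : Finset (Fin n)), rc (B i) c = rc (B' i) c := fun c => by
    simp only [rc]
    rw [h i hi c (Finset.mem_compl.1 c.2)]
  simp only [this]

theorem Pr_Bad {p : ℝ} (hp0 : 0 < p) (hp1 : p < 1) {n t : ℕ} (Z : Fin t → Fin n → ℤ) (h : ℕ)
    (R0 I2 : Finset (Fin n)) : Pr p {ω : Om n | Bad Z h R0 I2 (Mx ω)} ≤ pm p ^ (h ^ 2) := by
  by_cases hd : Disjoint R0 I2 ∧ I2.card = h
  swap
  · have : {ω : Om n | Bad Z h R0 I2 (Mx ω)} = ∅ :=
      Set.eq_empty_of_forall_notMem fun ω hω => hd ⟨hω.1, hω.2.1⟩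
    rw [this, Pr_empty]
    exact pow_nonneg pm_pos.le _
  obtain ⟨hd, hc⟩ := hd
  let r : Fin h ↪ Fin n := (I2.orderEmbOfFin hc).toEmbedding
  have hr : ∀ j, r j ∈ I2 := fun j => I2.orderEmbOfFin_mem hc j
  have hf := fresh hp0.le hp1.le r I2ᶜ (fun j => by simpa using hr j) Set.univ
    (fun _ ω => Fs I2ᶜ (Up Z R0 I2 (Mx ω))) (b := pm p ^ h) (pow_nonneg pm_pos.le _)
    (fun _ _ _ _ => Set.mem_univ _) (fun j ω ω' hω => by
      have : Up Z R0 I2 (Mx ω) = Up Z R0 I2 (Mx ω') := by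
        refine Up_congr Z R0 I2 _ _ fun i hi l hl => ?_
        have hi' : i ∉ I2 := Finset.disjoint_left.1 hd hi
        simp only [Mx, of_apply]
        rw [hω i l]
        · rintro ⟨j', -, rfl, -⟩
          exact hi' (hr j')
        · rintro ⟨j', -, rfl, -⟩
          exact hl (hr j')
      simp only [this])
  rw [Pr_univ, one_mul, ← pow_mul, ← sq] at hf
  refine le_trans (Pr_mono hp0.le hp1.le fun ω hω => ?_) hf
  refine ⟨Set.mem_univ _, fun j => ⟨?_, ?_⟩⟩
  · refine Pr_Fs hp0 hp1 _ _ (fun w hw l hl => ?_) hω.2.2.1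
    exact ((mem_Up _ _ _ _ _).1 hw).2.1 l (by simpa using hl)
  · intro w hw hwl
    have h1 := hω.2.2.2 (r j) (hr j) w hw hwl
    rw [dot_restrict I2 _ w ((mem_Up _ _ _ _ _).1 hw).2.1] at h1
    exact h1

theorem li_of_good {n t : ℕ} {Z : Fin t → Fin n → ℤ} (hZ : GoodZ Z) :
    LinearIndependent ℝ (fun k => rc (Z k)) := by
  rw [Fintype.linearIndependent_iff]
  intro c hc k
  have := hZ.2 c 0 (fun l => by
    have h := congrFun hc l
    simp only [Finset.sum_apply, Pi.smul_apply, smul_eq_mul, rc, Pi.zero_apply] at h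
    rw [h]; simp) k
  simpa using this

/-- the deterministic dichotomy -/
theorem dich {n t : ℕ} (Z : Fin t → Fin n → ℤ) (hZ : GoodZ Z) (J : Finset (Fin n))
    (hJ : J.card ≤ t) (s : ℕ) (B : Matrix (Fin n) (Fin n) ℤ) (hB : ∀ i j, |B i j| ≤ 1) :
    (∃ I : Finset (Fin n), I.card ≤ s ∧ CondI Z J B I) ∨ ∃ R0 I2, Bad Z (s / 2) R0 I2 B := by
  classical
  rcases Nat.eq_zero_or_pos n with rfl | hn
  · exact Or.inl ⟨∅, by simp, fun w α _ _ _ l => l.elim0⟩
  have hn1 : (1 : ℝ) ≤ n := by exact_mod_cast hn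
  let W : Submodule ℝ (Fin n → ℝ) := Submodule.span ℝ (Set.range fun k => rc (Z k))
  have hW : Module.finrank ℝ W = t := by
    rw [finrank_span_eq_card (li_of_good hZ)]; simp
  let φ : Fin n ⊕ Fin n → Fin n → ℝ :=
    Sum.elim (fun i => if i ∈ J then 0 else rc (B i))
      (fun l => (1 / (2 * n) : ℝ) • (Pi.single l (1 : ℝ) : Fin n → ℝ))
  obtain ⟨S, hli, hS⟩ := maxvol W φ
  have hcard : S.card + t ≤ n := by
    have h1 := hli.fintype_card_le_finrank
    have h2 := W.finrank_quotient_add_finrank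
    simp only [Fintype.card_coe, Module.finrank_fintype_fun_eq_card, Fintype.card_fin] at h1 h2
    omega
  have hSJ : ∀ i, Sum.inl i ∈ S → i ∉ J := fun i hi hiJ => by
    have := hli.ne_zero ⟨_, hi⟩
    simp [φ, hiJ] at this
  have hsplit : S.toLeft.card + S.toRight.card = S.card := Finset.card_toLeft_add_card_toRight
  have h2n : (0 : ℝ) < 2 * n := by linarith
  have h2n' : (1 / (2 * n) : ℝ) ≤ 1 := by rw [div_le_one h2n]; linarith
  have hφ1 : ∀ k l, |φ k l| ≤ 1 := by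
    rintro (i | m) l
    · by_cases hi : i ∈ J
      · simp [φ, hi]
      · simp only [φ, Sum.elim_inl, hi, if_false, rc]
        exact_mod_cast hB i l
    · simp only [φ, Sum.elim_inr, Pi.smul_apply, smul_eq_mul, Pi.single_apply]
      split_ifs
      · rw [mul_one, abs_of_nonneg (by positivity)]; exact h2n'
      · simp
  have hφr : ∀ (l : Fin n) (w : Fin n → ℝ), φ (Sum.inr l) ⬝ᵥ w = 1 / (2 * n) * w l := by
    intro l w
    simp [φ, smul_dotProduct]
  -- expansion of the pairing with `φ j`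
  have hexp : ∀ j, ∃ (a : Fin n ⊕ Fin n → ℝ) (c : Fin t → ℝ), (∀ k, |a k| ≤ 1) ∧
      (∀ k, |c k| ≤ 4 * (n : ℝ) ^ 2) ∧ ∀ w : Fin n → ℝ,
        φ j ⬝ᵥ w = ∑ k ∈ S, a k * (φ k ⬝ᵥ w) + ∑ k, c k * (rc (Z k) ⬝ᵥ w) := by
    intro j
    obtain ⟨a, ha, hw⟩ := hS j
    obtain ⟨c, hc⟩ := (Submodule.mem_span_range_iff_exists_fun ℝ).1 hw
    refine ⟨a, c, ha, fun k => ?_, fun w => ?_⟩
    · have := hZ.2 c (2 * n) (fun l => ?_) k
      · linarith
      have h := congrFun hc l
      simp only [Finset.sum_apply, Pi.smul_apply, smul_eq_mul, rc, Pi.sub_apply] at h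
      rw [h]
      have h3 : |∑ k ∈ S, a k * φ k l| ≤ n := by
        refine (Finset.abs_sum_le_sum_abs _ _).trans ?_
        calc ∑ k ∈ S, |a k * φ k l| ≤ ∑ _k ∈ S, (1 : ℝ) := Finset.sum_le_sum fun k _ => by
              rw [abs_mul]
              exact mul_le_one₀ (ha k) (abs_nonneg _) (hφ1 k l)
          _ = S.card := by simp
          _ ≤ n := by exact_mod_cast (by omega : S.card ≤ n)
      calc |φ j l - ∑ k ∈ S, a k * φ k l| ≤ |φ j l| + |∑ k ∈ S, a k * φ k l| := abs_sub _ _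
        _ ≤ 1 + n := add_le_add (hφ1 j l) h3
        _ ≤ 2 * n := by linarith
    · have h : φ j = ∑ k ∈ S, a k • φ k + ∑ k, c k • rc (Z k) := by rw [hc]; abel
      conv_lhs => rw [h]
      simp only [add_dotProduct, sum_dotProduct, smul_dotProduct, smul_eq_mul]
  by_cases hI : S.toRight.card ≤ s
  · refine Or.inl ⟨S.toRight, hI, fun w α h1 h2 h3 l => ?_⟩
    have hα : 0 ≤ α := by
      rcases Nat.eq_zero_or_pos t with rfl | ht
      · have : l ∉ J := by
          rw [Finset.card_eq_zero.1 (Nat.le_zero.1 hJ)]; simp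
        exact (abs_nonneg _).trans (h2 l this)
      · exact (abs_nonneg _).trans (h1 ⟨0, ht⟩)
    obtain ⟨a, c, ha, hc, h⟩ := hexp (Sum.inr l)
    have h4 := h w
    rw [hφr] at h4
    have h5 : |∑ k ∈ S, a k * (φ k ⬝ᵥ w)| ≤ n * α := by
      refine (Finset.abs_sum_le_sum_abs _ _).trans ?_
      calc ∑ k ∈ S, |a k * (φ k ⬝ᵥ w)| ≤ ∑ _k ∈ S, α := Finset.sum_le_sum fun k hk => by
            rw [abs_mul]
            have : |φ k ⬝ᵥ w| ≤ α := by
              rcases k with i | m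
              · have hi := hSJ i hk
                simp only [φ, Sum.elim_inl, hi, if_false]
                exact h2 i hi
              · rw [hφr, abs_mul, abs_of_nonneg (by positivity)]
                exact (mul_le_of_le_one_left (abs_nonneg _) h2n').trans
                  (h3 m (Finset.mem_toRight.2 hk))
            exact (mul_le_of_le_one_left (abs_nonneg _) (ha k)).trans this
        _ = S.card * α := by simp
        _ ≤ n * α := mul_le_mul_of_nonneg_right (by exact_mod_cast (by omega : S.card ≤ n)) hα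
    have h6 : |∑ k, c k * (rc (Z k) ⬝ᵥ w)| ≤ n * (4 * (n : ℝ) ^ 2 * α) := by
      refine (Finset.abs_sum_le_sum_abs _ _).trans ?_
      calc ∑ k, |c k * (rc (Z k) ⬝ᵥ w)| ≤ ∑ _k : Fin t, 4 * (n : ℝ) ^ 2 * α :=
            Finset.sum_le_sum fun k _ => by
              rw [abs_mul]
              exact mul_le_mul (hc k) (h1 k) (abs_nonneg _) (by positivity)
        _ = t * (4 * (n : ℝ) ^ 2 * α) := by simp
        _ ≤ n * (4 * (n : ℝ) ^ 2 * α) :=
          mul_le_mul_of_nonneg_right (by exact_mod_cast (by omega : t ≤ n)) (by positivity)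
    have h7 : |1 / (2 * n) * w l| ≤ n * α + n * (4 * (n : ℝ) ^ 2 * α) := by
      rw [h4]
      exact (abs_add_le _ _).trans (add_le_add h5 h6)
    rw [abs_mul, abs_of_nonneg (by positivity), one_div, inv_mul_le_iff₀ h2n] at h7
    have h8 : (n : ℝ) ^ 2 * α ≤ (n : ℝ) ^ 4 * α :=
      mul_le_mul_of_nonneg_right (pow_le_pow_right₀ hn1 (by norm_num)) hα
    have h9 : 0 ≤ (n : ℝ) ^ 4 * α := by positivity
    nlinarith
  · right
    push Not at hI
    have hfree : s / 2 ≤ (Finset.univ \ (J ∪ S.toLeft)).card := by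
      have h1 := Finset.card_union_le J S.toLeft
      have h2 := Finset.card_sdiff_add_card_eq_card (Finset.subset_univ (J ∪ S.toLeft))
      simp only [Finset.card_univ, Fintype.card_fin] at h2
      omega
    obtain ⟨I2, hI2, hI2c⟩ := Finset.exists_subset_card_eq hfree
    have hI2' : ∀ i ∈ I2, i ∉ J ∧ i ∉ S.toLeft := fun i hi => by
      simpa [not_or] using hI2 hi
    refine ⟨S.toLeft, I2, Finset.disjoint_right.2 fun i hi => (hI2' i hi).2, hI2c, ?_,
      fun i hi w hw hwl => ?_⟩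
    · have := finrank_Up Z S.toLeft I2 B
      omega
    · obtain ⟨hw1, -, hw3⟩ := (mem_Up _ _ _ _ _).1 hw
      obtain ⟨a, c, ha, -, h⟩ := hexp (Sum.inl i)
      have h4 := h w
      have h5 : φ (Sum.inl i) = rc (B i) := by simp [φ, (hI2' i hi).1]
      rw [h5, Finset.sum_eq_zero (s := Finset.univ) (fun k _ => by rw [hw1 k, mul_zero]),
        add_zero] at h4
      rw [h4]
      refine (Finset.abs_sum_le_sum_abs _ _).trans ?_
      calc ∑ k ∈ S, |a k * (φ k ⬝ᵥ w)| ≤ ∑ _k ∈ S, (1 / (2 * n) : ℝ) :=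
            Finset.sum_le_sum fun k hk => by
              rw [abs_mul]
              have : |φ k ⬝ᵥ w| ≤ 1 / (2 * n) := by
                rcases k with i' | m
                · have hi' := hSJ i' hk
                  simp only [φ, Sum.elim_inl, hi', if_false]
                  rw [hw3 i' (Finset.mem_toLeft.2 hk), abs_zero]
                  positivity
                · rw [hφr, abs_mul, abs_of_nonneg (by positivity)]
                  exact mul_le_of_le_one_right (by positivity) (hwl m)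
              exact (mul_le_of_le_one_left (abs_nonneg _) (ha k)).trans this
        _ = S.card * (1 / (2 * n) : ℝ) := by simp
        _ ≤ n * (1 / (2 * n) : ℝ) :=
          mul_le_mul_of_nonneg_right (by exact_mod_cast (by omega : S.card ≤ n)) (by positivity)
        _ = 1 / 2 := by field_simp

end CC

theorem stC : StC := by
  intro p hp0 hp1 n t Z hZ J hJ s
  have h := Pr_exists_le hp0.le hp1.le (Finset.univ : Finset (Finset (Fin n) × Finset (Fin n)))
    (fun x => {ω : Om n | CC.Bad Z (s / 2) x.1 x.2 (Mx ω)})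
    (fun x _ => CC.Pr_Bad hp0 hp1 Z (s / 2) x.1 x.2)
  have hc : ((Finset.univ : Finset (Finset (Fin n) × Finset (Fin n))).card : ℝ) = 4 ^ n := by
    simp only [Finset.card_univ, Fintype.card_prod, Fintype.card_finset, Fintype.card_fin]
    push_cast
    rw [← mul_pow]; norm_num
  rw [hc] at h
  refine le_trans (Pr_mono hp0.le hp1.le fun ω hω => ?_) h
  rcases CC.dich Z hZ J hJ s (Mx ω) (fun i j => by
    simp only [Mx, of_apply, sg]; split_ifs <;> simp) with h1 | ⟨R0, I2, h1⟩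
  · exact absurd h1 hω
  · exact ⟨(R0, I2), Finset.mem_univ _, h1⟩

end Crest.Agent.R152
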