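import Mathlib
import Crest.Prelude.Def_SignMatrix

/-! Row 152 (symmetric sign matrices): definitions.  Blueprint: `notes152/H33.md`. -/

set_option autoImplicit false
open Matrix Filter

namespace Crest.Agent.R152
open Crest.FinProb

/-- the circle `ℝ/ℤ` -/
abbrev T1 := UnitAddCircle

/-- sign of a coin -/
def sg (b : Bool) : ℤ := if b then 1 else -1

/-- sign vector -/
def sv {ι : Type} (x : ι → Bool) : ι → ℤ := fun i => sg (x i)

/-- real cast of an integer vector -/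
def rc {ι : Type} (z : ι → ℤ) : ι → ℝ := fun i => (z i : ℝ)

/-- real cast of an integer matrix -/
def rm {ι κ : Type} (B : Matrix ι κ ℤ) : Matrix ι κ ℝ := B.map (fun z => (z : ℝ))

/-- restriction of an integer vector to a set of coordinates (zero elsewhere) -/
def rs {n : ℕ} (J : Finset (Fin n)) (z : Fin n → ℤ) : Fin n → ℤ := fun i => if i ∈ J then z i else 0

/-- outcomes -/
abbrev Om (n : ℕ) := Sym2 (Fin n) → Bool

/-- the symmetric sign matrix -/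
def Mx {n : ℕ} (ω : Om n) : Matrix (Fin n) (Fin n) ℤ := Matrix.of fun i j => sg (ω s(i, j))

/-- outcome of the principal submatrix along `e` -/
def res {m n : ℕ} (e : Fin m ↪ Fin n) (ω : Om n) : Om m := fun s => ω (s.map e)

/-- probability -/
noncomputable abbrev Pr {ι : Type} [Fintype ι] [DecidableEq ι] (p : ℝ) (E : Set (ι → Bool)) : ℝ :=
  bernoulliProb p E

noncomputable def rho (p : ℝ) : ℝ := p ^ 2 + (1 - p) ^ 2
noncomputable def pm (p : ℝ) : ℝ := max p (1 - p)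
noncomputable def pn (p : ℝ) : ℝ := min p (1 - p)

/-- `n log n` -/
noncomputable def Lg (n : ℕ) : ℝ := (n : ℝ) * Real.log n

/-- pairing of an integer vector with a point of the torus -/
noncomputable def pr {ι : Type} [Fintype ι] (z : ι → ℤ) (u : ι → T1) : T1 := ∑ i, z i • u i

theorem pr_add_right {ι : Type} [Fintype ι] (z : ι → ℤ) (u v : ι → T1) :
    pr z (u + v) = pr z u + pr z v := by
  simp [pr, Finset.sum_add_distrib]

theorem pr_neg_right {ι : Type} [Fintype ι] (z : ι → ℤ) (u : ι → T1) :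
    pr z (-u) = -pr z u := by
  simp [pr]

theorem pr_zero_right {ι : Type} [Fintype ι] (z : ι → ℤ) : pr z (0 : ι → T1) = 0 := by
  simp [pr]

theorem pr_sub_right {ι : Type} [Fintype ι] (z : ι → ℤ) (u v : ι → T1) :
    pr z (u - v) = pr z u - pr z v := by
  rw [sub_eq_add_neg, pr_add_right, pr_neg_right, sub_eq_add_neg]

theorem pr_add_left {ι : Type} [Fintype ι] (z z' : ι → ℤ) (u : ι → T1) :
    pr (z + z') u = pr z u + pr z' u := by
  simp [pr, add_smul, Finset.sum_add_distrib]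

theorem pr_sub_left {ι : Type} [Fintype ι] (z z' : ι → ℤ) (u : ι → T1) :
    pr (z - z') u = pr z u - pr z' u := by
  simp [pr, sub_smul, Finset.sum_sub_distrib]

/-- `pr z` as an additive map -/
noncomputable def prH {ι : Type} [Fintype ι] (z : ι → ℤ) : (ι → T1) →+ T1 where
  toFun := pr z
  map_zero' := pr_zero_right z
  map_add' := pr_add_right z

/-- the kernel of `B` on the torus -/
noncomputable def Td {n : ℕ} (B : Matrix (Fin n) (Fin n) ℤ) : AddSubgroup (Fin n → T1) where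
  carrier := {u | ∀ i, pr (B i) u = 0}
  zero_mem' := fun i => pr_zero_right _
  add_mem' := fun {u v} hu hv i => by rw [pr_add_right, hu i, hv i, add_zero]
  neg_mem' := fun {u} hu i => by rw [pr_neg_right, hu i, neg_zero]

theorem mem_Td {n : ℕ} {B : Matrix (Fin n) (Fin n) ℤ} {u : Fin n → T1} :
    u ∈ Td B ↔ ∀ i, pr (B i) u = 0 := Iff.rfl

/-- cube points killed by a set of torus points -/
def ann {n : ℕ} (K : Set (Fin n → T1)) : Set (Fin n → Bool) := {x | ∀ u ∈ K, pr (sv x) u = 0}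

/-- quadratic form -/
def qf {d : ℕ} (Q : Matrix (Fin d) (Fin d) ℝ) (x : Fin d → ℝ) : ℝ := x ⬝ᵥ Q *ᵥ x

/-- mean square distance to `ℤ^d` in the form `Q` -/
noncomputable def gq {d : ℕ} (Q : Matrix (Fin d) (Fin d) ℝ) : ℝ :=
  ∫ x in Set.Icc (0 : Fin d → ℝ) 1, ⨅ y : Fin d → ℤ, qf Q (x - rc y)

/-- all sublattices of `(ℤ^d, Q)` have slope at least `s` -/
def Slope {d : ℕ} (Q : Matrix (Fin d) (Fin d) ℝ) (s : ℝ) : Prop :=
  ∀ (k : ℕ) (P : Matrix (Fin d) (Fin k) ℤ), LinearIndependent ℝ (fun j => rc (Pᵀ j)) →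
    s ^ (2 * k) ≤ ((rm P)ᵀ * Q * rm P).det

/-- a well-conditioned tuple of `{0,±1}` vectors -/
def GoodZ {n t : ℕ} (Z : Fin t → Fin n → ℤ) : Prop :=
  (∀ k l, |Z k l| ≤ 1) ∧
    ∀ (c : Fin t → ℝ) (m : ℝ), (∀ l, |∑ k, c k * (Z k l : ℝ)| ≤ m) → ∀ k, |c k| ≤ 2 * n * m

/-- conditioning: `Z`, the rows of `B` outside `J` and the coordinates in `I` control a vector -/
def CondI {n t : ℕ} (Z : Fin t → Fin n → ℤ) (J : Finset (Fin n)) (B : Matrix (Fin n) (Fin n) ℤ)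
    (I : Finset (Fin n)) : Prop :=
  ∀ (w : Fin n → ℝ) (α : ℝ), (∀ k, |rc (Z k) ⬝ᵥ w| ≤ α) → (∀ i, i ∉ J → |rc (B i) ⬝ᵥ w| ≤ α) →
    (∀ l ∈ I, |w l| ≤ α) → ∀ l, |w l| ≤ 12 * (n : ℝ) ^ 4 * α

/-- the exceptional event of Theorem L -/
def BadL (n : ℕ) (c ε : ℝ) : Set (Om n) :=
  {ω | (Mx ω).det ≠ 0 ∧ ∃ K : AddSubgroup (Fin n → T1), K ≤ Td (Mx ω) ∧
    Real.exp (c * Lg n) ≤ (Nat.card K : ℝ) ∧
    Real.exp (ε * n) ≤ ((ann (K : Set (Fin n → T1))).ncard : ℝ)}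

/-- regularised determinant is small -/
def BadG (n : ℕ) (δ : ℝ) : Set (Om n) :=
  {ω | (rm (Mx ω) * rm (Mx ω) + ((n : ℝ) ^ 3)⁻¹ • (1 : Matrix (Fin n) (Fin n) ℝ)).det
      < Real.exp ((1 - δ) * Lg n)}

/-- much small torsion -/
def BadR (n : ℕ) (δ K : ℝ) : Set (Om n) :=
  {ω | ∃ D : ℕ, 1 ≤ D ∧ (D : ℝ) ≤ (n : ℝ) ^ K ∧
    Real.exp (δ * Lg n) < (({u | u ∈ Td (Mx ω) ∧ D • u = 0} : Set (Fin n → T1)).ncard : ℝ)}

/-- a kernel vector that is sparse modulo a prime -/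
def BadS (n : ℕ) (β : ℝ) : Set (Om n) :=
  {ω | ∃ (q : ℕ) (v : Fin n → ℤ), q.Prime ∧ Mx ω *ᵥ v = 0 ∧ (∃ i, ¬ (q : ℤ) ∣ v i) ∧
    ((Finset.univ.filter fun i => ¬ (q : ℤ) ∣ v i).card : ℝ) ≤ β * n}

/-- candidate rows, case of large torsion -/
def Y1 {n : ℕ} (B : Matrix (Fin n) (Fin n) ℤ) (c : ℝ) : Set (Fin n → Bool) :=
  {x | ∃ k : ℕ, (k : ℤ) ∣ B.det ∧ Real.exp (c * Lg n) ≤ (k : ℝ) ∧
    ∀ u ∈ Td B, k • u = 0 → pr (sv x) u = 0}

/-- candidate rows, case of small torsion -/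
def Y2 {n : ℕ} (B : Matrix (Fin n) (Fin n) ℤ) (c : ℝ) : Set (Fin n → Bool) :=
  {x | ∃ (v : Fin n → ℤ) (m : ℤ), m ≠ 0 ∧ B *ᵥ v = m • sv x ∧ (∀ l, |v l| ≤ n * |m|) ∧
    (∀ q : ℕ, q.Prime → (q : ℤ) ∣ m → ∃ l, ¬ (q : ℤ) ∣ v l) ∧ m ∣ v ⬝ᵥ sv x ∧ m ^ 2 ∣ B.det ∧
    |(B.det : ℝ)| ≤ Real.exp (c * Lg n) * (m : ℝ) ^ 2}

/-- singular with a nonsingular principal minor of corank one -/
def OneEv (n : ℕ) : Set (Om (n + 1)) :=
  {ω | (Mx ω).det = 0 ∧ ∃ i : Fin (n + 1), ((Mx ω).submatrix i.succAbove i.succAbove).det ≠ 0}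

theorem Mx_isSymm {n : ℕ} (ω : Om n) : (Mx ω).IsSymm := by
  ext i j
  simp [Mx, Sym2.eq_swap]

theorem Mx_res {m n : ℕ} (e : Fin m ↪ Fin n) (ω : Om n) :
    Mx (res e ω) = (Mx ω).submatrix e e := by
  ext i j
  simp [Mx, res]

theorem Mx_row {n : ℕ} (ω : Om n) (i : Fin n) : Mx ω i = sv (fun j => ω s(i, j)) := rfl

theorem singularProb_eq (n : ℕ) (p : ℝ) :
    Crest.ProbabilityR.SignMatrix.singularProb n p = Pr p {ω : Om n | (Mx ω).det = 0} := rfl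

end Crest.Agent.R152
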