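import Crest.Agent.R152.Iface

/-! Row 152, divisor families.  Recipe: `D` = divisors `≥ e^{c Lg}` of `m` that are `√n`-smooth (at most `(log₂ m + 1)^√n`) or products of at most `2cn+1` of the at most `2n`
prime factors `≥ √n` of `m` (with multiplicity; count `≤ x^{-t}(1+x)^{2n}`). -/

set_option autoImplicit false
open Matrix Filter

namespace Crest.Agent.R152

/-- number of prime factors `≥ s`, with multiplicity -/
def divOL (s k : ℕ) : ℕ := k.factorization.sum fun p e => if s ≤ p then e else 0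

theorem div_mul (s : ℕ) {p a : ℕ} (hp : p.Prime) (ha : a ≠ 0) :
    divOL s (p * a) = (if s ≤ p then 1 else 0) + divOL s a := by
  rw [divOL, Nat.factorization_mul hp.ne_zero ha, Finsupp.sum_add_index' (by simp) (fun _ _ _ => by split_ifs <;> rfl),
    hp.factorization, Finsupp.sum_single_index (by simp), divOL]

theorem div_pow_le (s : ℕ) {k : ℕ} (hk : k ≠ 0) : s ^ divOL s k ≤ k := by
  induction k using induction_on_primes with
  | zero => exact absurd rfl hk
  | one => simp [divOL]
  | prime_mul p a hp ih =>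
    have ha := right_ne_zero_of_mul hk
    rw [div_mul s hp ha, pow_add]
    refine Nat.mul_le_mul ?_ (ih ha)
    split_ifs with h
    · simpa using h
    · simpa using hp.one_le

theorem div_exists (s k : ℕ) : ∀ t, t ≤ divOL s k → ∃ k0, k0 ∣ k ∧ divOL s k0 = t := by
  induction k using induction_on_primes with
  | zero => exact fun t ht => ⟨0, dvd_rfl, le_antisymm (by simp [divOL]) ht⟩
  | one => exact fun t ht => ⟨1, dvd_rfl, le_antisymm (by simp [divOL]) ht⟩
  | prime_mul p a hp ih =>
    intro t ht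
    rcases le_or_gt t (divOL s a) with h | h
    · obtain ⟨k0, h1, h2⟩ := ih t h
      exact ⟨k0, h1.mul_left p, h2⟩
    · refine ⟨_, dvd_rfl, le_antisymm ?_ ht⟩
      rcases eq_or_ne a 0 with rfl | ha
      · simp [divOL]
      · rw [div_mul s hp ha]; split_ifs <;> omega

theorem div_sum {x : ℝ} (hx0 : 0 ≤ x) (hx1 : x ≤ 1) (s B m : ℕ) (hm : m ≠ 0) (hB : ∀ p, m.factorization p ≤ B) :
    ∑ k ∈ m.divisors, x ^ divOL s k ≤ (1 + x) ^ divOL s m * ((B : ℝ) + 1) ^ s := by
  induction m using Nat.strong_induction_on with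
  | _ m ih =>
  by_cases h : ∃ p, p.Prime ∧ p ∣ m ∧ s ≤ p
  · obtain ⟨p, hp, ⟨a, rfl⟩, hs⟩ := h
    have ha := right_ne_zero_of_mul hm
    have h1 := ih a (lt_mul_of_one_lt_left (Nat.pos_of_ne_zero ha) hp.one_lt) ha fun q =>
      ((Nat.factorization_le_iff_dvd ha hm).2 (dvd_mul_left a p) q).trans (hB q)
    have h2 : (p * a).divisors ⊆ a.divisors ∪ a.divisors.image (p * ·) := fun k hk => by
      obtain ⟨u, v, hu, hv, rfl⟩ := exists_dvd_and_dvd_of_dvd_mul (Nat.dvd_of_mem_divisors hk)
      have hv' := Nat.mem_divisors.2 ⟨hv, ha⟩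
      rcases (Nat.dvd_prime hp).1 hu with rfl | rfl
      · exact Finset.mem_union_left _ (by rwa [one_mul])
      · exact Finset.mem_union_right _ (Finset.mem_image_of_mem _ hv')
    have h3 := Finset.sum_union_inter (s₁ := a.divisors) (s₂ := a.divisors.image (p * ·))
      (f := fun k => x ^ divOL s k)
    have h4 : ∑ k ∈ a.divisors.image (p * ·), x ^ divOL s k = x * ∑ k ∈ a.divisors, x ^ divOL s k := by
      rw [Finset.sum_image fun u _ v _ h => Nat.eq_of_mul_eq_mul_left hp.pos h, Finset.mul_sum]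
      exact Finset.sum_congr rfl fun k hk => by
        rw [div_mul s hp (Nat.pos_of_mem_divisors hk).ne', if_pos hs, pow_add, pow_one]
    have h5 := Finset.sum_le_sum_of_subset_of_nonneg (f := fun k => x ^ divOL s k) h2 fun _ _ _ => by positivity
    have h6 : 0 ≤ ∑ k ∈ a.divisors ∩ a.divisors.image (p * ·), x ^ divOL s k :=
      Finset.sum_nonneg fun _ _ => by positivity
    rw [div_mul s hp ha, if_pos hs, pow_add, pow_one, mul_assoc]
    nlinarith [mul_le_mul_of_nonneg_left h1 (show 0 ≤ 1 + x by linarith)]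
  · push Not at h
    refine (Finset.sum_le_card_nsmul _ _ 1 fun k _ => pow_le_one₀ hx0 hx1).trans
      (le_trans ?_ (le_mul_of_one_le_left (by positivity) (one_le_pow₀ (by linarith))))
    have h1 : m.primeFactors.card ≤ s := by
      simpa using Finset.card_le_card (t := Finset.range s) fun p hp =>
        Finset.mem_range.2 (h p (Nat.prime_of_mem_primeFactors hp) (Nat.dvd_of_mem_primeFactors hp))
    rw [nsmul_one, Nat.card_divisors hm]
    exact_mod_cast (Finset.prod_le_pow_card _ _ (B + 1) fun p _ => Nat.succ_le_succ (hB p)).trans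
      (Nat.pow_le_pow_right B.succ_pos h1)

theorem stDiv : StDiv := by
  intro η hη
  set x := min (η / 8) (1 / 2) with hx
  have hx0 : 0 < x := lt_min (by linarith) (by norm_num)
  have hx1 : x < 1 := (min_le_right _ _).trans_lt (by norm_num)
  have hx8 : x ≤ η / 8 := min_le_left _ _
  have ha : 0 < -Real.log x := neg_pos.2 (Real.log_neg hx0 hx1)
  refine ⟨η / (8 * -Real.log x), by positivity, fun c hc hc0 => ?_⟩
  rw [le_div_iff₀ (by positivity)] at hc0
  have e1 := tendsto_natCast_atTop_atTop.eventually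
    ((isLittleO_log_rpow_atTop (show (0 : ℝ) < 1 / 2 by norm_num)).bound (show 0 < η / 24 by linarith))
  have e2 := (tendsto_natCast_atTop_atTop (R := ℝ)).eventually_ge_atTop (-Real.log x * 4 / η)
  filter_upwards [e1, e2, eventually_ge_atTop 2] with n h1 h2 hn m hm hm'
  have hn' : (2 : ℝ) ≤ n := by exact_mod_cast hn
  have hlog : 0 ≤ Real.log n := Real.log_natCast_nonneg n
  rw [Real.norm_of_nonneg hlog, Real.norm_of_nonneg (by positivity), ← Real.sqrt_eq_rpow] at h1
  rw [div_le_iff₀ hη] at h2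
  have hmn : m ≤ n ^ n := by
    rw [Lg, Real.exp_nat_mul, Real.exp_log (by linarith)] at hm'
    exact_mod_cast hm'
  set s := Nat.sqrt n + 1 with hs
  have hs2 : n ≤ s ^ 2 := (Nat.lt_succ_sqrt' n).le
  have hs1 : 2 ≤ s := by have := Nat.sqrt_pos.2 (show 0 < n by omega); omega
  have hO : divOL s m ≤ 2 * n := (Nat.pow_le_pow_iff_right hs1).1
    ((div_pow_le s (by omega)).trans (hmn.trans (by rw [pow_mul]; exact Nat.pow_le_pow_left hs2 n)))
  have hB : ∀ p, m.factorization p ≤ n ^ 2 := fun p => by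
    by_cases hp : p.Prime
    · refine (Nat.pow_le_pow_iff_right one_lt_two).1 ((Nat.pow_le_pow_left hp.two_le _).trans
        ((Nat.ordProj_le p (by omega)).trans (hmn.trans ?_)))
      rw [sq, pow_mul]
      exact Nat.pow_le_pow_left n.lt_two_pow_self.le n
    · simp [Nat.factorization_eq_zero_of_not_prime _ hp]
  set t := ⌈2 * c * n⌉₊ with ht
  refine ⟨m.divisors.filter fun k : ℕ => Real.exp (c * Lg n) ≤ (k : ℝ) ∧ divOL s k ≤ t, ?_,
    fun k hk => ⟨Nat.dvd_of_mem_divisors (Finset.mem_filter.1 hk).1, (Finset.mem_filter.1 hk).2.1⟩,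
    fun k hk hk' => ?_⟩
  · refine le_of_mul_le_mul_right ?_ (pow_pos hx0 t)
    have h3 := (Finset.card_nsmul_le_sum (m.divisors.filter fun k : ℕ => Real.exp (c * Lg n) ≤ (k : ℝ) ∧ divOL s k ≤ t)
      (fun k => x ^ divOL s k) (x ^ t) fun k hk =>
        pow_le_pow_of_le_one hx0.le hx1.le (Finset.mem_filter.1 hk).2.2).trans
      ((Finset.sum_le_sum_of_subset_of_nonneg (Finset.filter_subset _ _) fun _ _ _ => by positivity).trans
        (div_sum hx0.le hx1.le s (n ^ 2) m (by omega) hB))
    rw [nsmul_eq_mul] at h3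
    refine h3.trans ?_
    have h4 : (1 + x) ^ divOL s m ≤ Real.exp (2 * n * x) := by
      refine (pow_le_pow_right₀ (by linarith) hO).trans ?_
      rw [show 2 * (n : ℝ) * x = ((2 * n : ℕ) : ℝ) * x by push_cast; ring, Real.exp_nat_mul]
      exact pow_le_pow_left₀ (by linarith) (by linarith [Real.add_one_le_exp x]) _
    have h5 : (((n ^ 2 : ℕ) : ℝ) + 1) ^ s ≤ Real.exp (s * (3 * Real.log n)) := by
      rw [Real.exp_nat_mul, show 3 * Real.log n = ((3 : ℕ) : ℝ) * Real.log n by norm_num, Real.exp_nat_mul,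
        Real.exp_log (by linarith)]
      push_cast
      exact pow_le_pow_left₀ (by positivity) (by nlinarith) _
    refine (mul_le_mul h4 h5 (by positivity) (Real.exp_pos _).le).trans ?_
    rw [← Real.exp_log hx0, ← Real.exp_nat_mul, ← Real.exp_add, ← Real.exp_add, Real.exp_log hx0]
    refine Real.exp_le_exp.2 ?_
    have h6 : (t : ℝ) ≤ 2 * c * n + 1 := (Nat.ceil_lt_add_one (by positivity)).le
    have h7 : (s : ℝ) ≤ 2 * √(n : ℝ) := by
      have := Real.nat_sqrt_le_real_sqrt (a := n)
      have : 1 ≤ √(n : ℝ) := Real.one_le_sqrt.2 (by linarith)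
      rw [hs]; push_cast; linarith
    have h8 : (s : ℝ) * Real.log n ≤ η / 12 * n := by
      refine (mul_le_mul h7 h1 hlog (by positivity)).trans_eq ?_
      linear_combination η / 12 * Real.mul_self_sqrt (show (0 : ℝ) ≤ n by linarith)
    nlinarith [mul_le_mul_of_nonneg_right h6 ha.le, mul_le_mul_of_nonneg_right hc0 (show (0 : ℝ) ≤ n by linarith),
      mul_le_mul_of_nonneg_right hx8 (show (0 : ℝ) ≤ n by linarith)]
  · have hLg : 0 ≤ Lg n := mul_nonneg (Nat.cast_nonneg n) hlog
    rcases le_total (divOL s k) t with h | h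
    · exact ⟨k, Finset.mem_filter.2 ⟨Nat.mem_divisors.2 ⟨hk, by omega⟩,
        le_trans (Real.exp_le_exp.2 (by nlinarith [mul_nonneg hc.le hLg])) hk', h⟩, dvd_rfl⟩
    · obtain ⟨k0, h3, h4⟩ := div_exists s k t h
      have hk0 : k0 ≠ 0 := by rintro rfl; exact absurd (zero_dvd_iff.1 (h3.trans hk)) (by omega)
      refine ⟨k0, Finset.mem_filter.2 ⟨Nat.mem_divisors.2 ⟨h3.trans hk, by omega⟩, ?_, h4.le⟩, h3⟩
      have h5 : (s : ℝ) ^ t ≤ k0 := by rw [← h4]; exact_mod_cast div_pow_le s hk0
      refine le_trans ?_ h5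
      have hs0 : (0 : ℝ) < s := by positivity
      rw [← Real.exp_log hs0, ← Real.exp_nat_mul, Lg]
      refine Real.exp_le_exp.2 ?_
      have h6 : Real.log n ≤ 2 * Real.log s := by
        rw [show 2 * Real.log s = Real.log ((s : ℝ) ^ 2) by simp]
        exact Real.log_le_log (by linarith) (by exact_mod_cast hs2)
      have h7 : 2 * c * n ≤ t := Nat.le_ceil _
      nlinarith [mul_le_mul_of_nonneg_left h6 (show 0 ≤ c * n by positivity),
        mul_le_mul_of_nonneg_right h7 (Real.log_natCast_nonneg s)]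

end Crest.Agent.R152
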