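import Crest.Agent.R152.EA

/-! Row 152, block E (owner helper79): the conditioned law as a product of adapted kernels; relative entropy. -/

set_option autoImplicit false
open Function

namespace Crest.Agent.R152.E
open Crest.FinProb

variable {n : ℕ} {p : ℝ} {A : Set (Fin n → Bool)}

open Classical in
/-- mass of the points of `A` which agree with `x` before `i` -/
noncomputable def F (p : ℝ) (A : Set (Fin n → Bool)) (i : ℕ) (x : Fin n → Bool) : ℝ :=
  ∑ y, if y ∈ A ∧ ∀ j : Fin n, j.1 < i → y j = x j then bernoulliWeight p y else 0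

/-- conditional probability of `x i` given the past -/
noncomputable def ker (p : ℝ) (A : Set (Fin n → Bool)) (i : Fin n) (x : Fin n → Bool) : ℝ :=
  F p A (i + 1) x / F p A i x

/-- the conditioned law -/
noncomputable def nu (p : ℝ) (A : Set (Fin n → Bool)) (x : Fin n → Bool) : ℝ := ∏ i, ker p A i x

/-- conditional variance -/
noncomputable def vv (p : ℝ) (A : Set (Fin n → Bool)) (i : Fin n) (x : Fin n → Bool) : ℝ :=
  ker p A i (update x i true) * ker p A i (update x i false)

/-- relative entropy of one coordinate -/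
noncomputable def DD (p : ℝ) (A : Set (Fin n → Bool)) (i : Fin n) : ℝ :=
  ∑ x, nu p A x * (Real.log (ker p A i x) - Real.log (if x i then p else 1 - p))

theorem pb_pos (h0 : 0 < p) (h1 : p < 1) (b : Bool) : 0 < if b then p else 1 - p := by
  split_ifs <;> linarith

theorem wt_pos (h0 : 0 < p) (h1 : p < 1) (x : Fin n → Bool) : 0 < bernoulliWeight p x :=
  Finset.prod_pos fun _ _ => pb_pos h0 h1 _

theorem F_nonneg (h0 : 0 < p) (h1 : p < 1) (i : ℕ) (x : Fin n → Bool) : 0 ≤ F p A i x :=
  Finset.sum_nonneg fun y _ => by split_ifs; exacts [(wt_pos h0 h1 y).le, le_rfl]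

theorem F_congr {i : ℕ} {x x' : Fin n → Bool} (h : ∀ j : Fin n, j.1 < i → x j = x' j) : F p A i x = F p A i x' :=
  Finset.sum_congr rfl fun y _ => by
    have : (∀ j : Fin n, j.1 < i → y j = x j) ↔ ∀ j : Fin n, j.1 < i → y j = x' j :=
      forall₂_congr fun j hj => by rw [h j hj]
    classical
    exact if_congr (and_congr_right' this) rfl rfl

theorem F_split (i : Fin n) (x : Fin n → Bool) :
    F p A (i + 1) (update x i true) + F p A (i + 1) (update x i false) = F p A i x := by
  rw [F, F, ← Finset.sum_add_distrib]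
  refine Finset.sum_congr rfl fun y _ => ?_
  have key : ∀ b, (∀ j : Fin n, j.1 < i + 1 → y j = update x i b j) ↔
      (∀ j : Fin n, j.1 < i → y j = x j) ∧ y i = b := fun b => by
    refine ⟨fun h => ⟨fun j hj => ?_, by simpa using h i (Nat.lt_succ_self _)⟩, fun h j hj => ?_⟩
    · rw [h j (by omega), update_of_ne (Fin.ne_of_lt hj)]
    · by_cases e : j = i
      · rw [e, update_self, h.2]
      · rw [update_of_ne e, h.1 j (by have := Fin.val_ne_of_ne e; omega)]
  classical
  rw [if_congr (and_congr_right' (key true)) rfl rfl, if_congr (and_congr_right' (key false)) rfl rfl]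
  cases y i <;> simp

theorem F_mono (h0 : 0 < p) (h1 : p < 1) (i : ℕ) (x : Fin n → Bool) : F p A (i + 1) x ≤ F p A i x :=
  Finset.sum_le_sum fun y _ => by
    split_ifs with a b
    exacts [le_rfl, (b ⟨a.1, fun j hj => a.2 j (by omega)⟩).elim, (wt_pos h0 h1 y).le, le_rfl]

theorem F_zero (x : Fin n → Bool) : F p A 0 x = Pr p A := by
  classical
  simp only [F, Pr, bernoulliProb, Finset.sum_filter]
  exact Finset.sum_congr rfl fun y _ => if_congr (and_iff_left fun j hj => absurd hj (Nat.not_lt_zero _)) rfl rfl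

open Classical in
theorem F_top (x : Fin n → Bool) : F p A n x = if x ∈ A then bernoulliWeight p x else 0 := by
  rw [F, Finset.sum_eq_single x (fun y _ hy => if_neg fun h => hy (funext fun j => h.2 j j.2)) (by simp)]
  simp

theorem nu_eq (h0 : 0 < p) (h1 : p < 1) (hA : 0 < Pr p A) (x : Fin n → Bool) : nu p A x = F p A n x / Pr p A := by
  have key : ∀ m, ∏ i ∈ Finset.range m, F p A (i + 1) x / F p A i x = F p A m x / Pr p A := fun m => by
    induction m with
    | zero => rw [Finset.prod_range_zero, F_zero, div_self hA.ne']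
    | succ m ih =>
      rw [Finset.prod_range_succ, ih]
      by_cases e : F p A m x = 0
      · rw [le_antisymm ((F_mono h0 h1 m x).trans_eq e) (F_nonneg h0 h1 _ x)]; simp
      · field_simp
  rw [← key, Finset.prod_range]
  rfl

theorem ker_nonneg (h0 : 0 < p) (h1 : p < 1) (i : Fin n) (x : Fin n → Bool) : 0 ≤ ker p A i x :=
  div_nonneg (F_nonneg h0 h1 _ _) (F_nonneg h0 h1 _ _)

theorem ker_adapt : Adapt (ker p A) := fun i x y h => by
  rw [ker, ker, F_congr (x' := y) fun j hj => h j (Fin.le_def.2 (by omega)),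
    F_congr (x := x) (x' := y) fun j hj => h j (Fin.le_def.2 hj.le)]

theorem ker_sum (i : Fin n) (x : Fin n → Bool) : ker p A i (update x i true) + ker p A i (update x i false) = 1 ∨
    ker p A i (update x i true) = 0 ∧ ker p A i (update x i false) = 0 := by
  have e : ∀ b, F p A i (update x i b) = F p A i x := fun b => F_congr fun j hj => update_of_ne (Fin.ne_of_lt hj) _ _
  simp only [ker, e]
  by_cases h : F p A i x = 0
  · simp [h]
  · left; rw [← add_div, F_split, div_self h]

theorem ker_sum_le (i : Fin n) (x : Fin n → Bool) : ker p A i (update x i true) + ker p A i (update x i false) ≤ 1 := by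
  rcases ker_sum (p := p) (A := A) i x with h | h
  · exact h.le
  · simp [h]

theorem ker_le_one (h0 : 0 < p) (h1 : p < 1) (i : Fin n) (x : Fin n → Bool) : ker p A i x ≤ 1 :=
  div_le_one_of_le₀ (F_mono h0 h1 _ _) (F_nonneg h0 h1 _ _)

theorem nu_nonneg (h0 : 0 < p) (h1 : p < 1) (x : Fin n → Bool) : 0 ≤ nu p A x :=
  Finset.prod_nonneg fun _ _ => ker_nonneg h0 h1 _ _

theorem nu_sum (h0 : 0 < p) (h1 : p < 1) (hA : 0 < Pr p A) : ∑ x, nu p A x = 1 := by
  simp only [nu_eq h0 h1 hA, F_top, ← Finset.sum_div]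
  rw [div_eq_one_iff_eq hA.ne']
  simp only [Pr, bernoulliProb, Finset.sum_filter]

theorem nu_mem (h0 : 0 < p) (h1 : p < 1) (hA : 0 < Pr p A) {x : Fin n → Bool} (h : nu p A x ≠ 0) : x ∈ A := by
  by_contra hx
  exact h (by rw [nu_eq h0 h1 hA, F_top, if_neg hx, zero_div])

theorem vv_nonneg (h0 : 0 < p) (h1 : p < 1) (i : Fin n) (x : Fin n → Bool) : 0 ≤ vv p A i x :=
  mul_nonneg (ker_nonneg h0 h1 _ _) (ker_nonneg h0 h1 _ _)

theorem vv_le_one (h0 : 0 < p) (h1 : p < 1) (i : Fin n) (x : Fin n → Bool) : vv p A i x ≤ 1 :=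
  mul_le_one₀ (ker_le_one h0 h1 _ _) (ker_nonneg h0 h1 _ _) (ker_le_one h0 h1 _ _)

theorem vv_congr {i : Fin n} {x y : Fin n → Bool} (h : ∀ j, j < i → x j = y j) : vv p A i x = vv p A i y := by
  have : ∀ b, ker p A i (update x i b) = ker p A i (update y i b) := fun b => ker_adapt i _ _ fun j hj => by
    by_cases e : j = i
    · rw [e, update_self, update_self]
    · rw [update_of_ne e, update_of_ne e, h j (lt_of_le_of_ne hj e)]
  rw [vv, vv, this, this]

theorem sum_DD (h0 : 0 < p) (h1 : p < 1) (hA : 0 < Pr p A) : ∑ i, DD p A i = -Real.log (Pr p A) := by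
  simp only [DD]
  rw [Finset.sum_comm]
  refine Eq.trans (Finset.sum_congr rfl fun x _ => ?_)
    (by rw [← Finset.sum_mul, nu_sum h0 h1 hA, one_mul] : ∑ x, nu p A x * -Real.log (Pr p A) = _)
  rw [← Finset.mul_sum]
  by_cases h : nu p A x = 0
  · rw [h, zero_mul, zero_mul]
  congr 1
  rw [Finset.sum_sub_distrib, ← Real.log_prod fun i hi => Finset.prod_ne_zero_iff.1 h i hi,
    ← Real.log_prod fun i _ => (pb_pos h0 h1 (x i)).ne']
  change Real.log (nu p A x) - Real.log (bernoulliWeight p x) = _
  rw [nu_eq h0 h1 hA, F_top, if_pos (nu_mem h0 h1 hA h), Real.log_div (wt_pos h0 h1 x).ne' hA.ne']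
  ring

theorem DD_nonneg (h0 : 0 < p) (h1 : p < 1) (hA : 0 < Pr p A) (i : Fin n) : 0 ≤ DD p A i := by
  have h2 := seq1 (ker_nonneg (A := A) h0 h1) ker_adapt (fun i x => by simpa using ker_sum_le i x) i
    (g := fun x => (if x i then p else 1 - p) / ker p A i x) (c := 1)
    (fun x => div_nonneg (pb_pos h0 h1 _).le (ker_nonneg h0 h1 _ _))
    (fun x y h => by rw [h i le_rfl, ker_adapt i x y h]) zero_le_one fun x => by
      have key : ∀ t c : ℝ, 0 ≤ c → t * (c / t) ≤ c := fun t c hc => by
        by_cases e : t = 0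
        · simpa [e] using hc
        · rw [mul_div_cancel₀ _ e]
      simp only [Fintype.sum_bool, update_self, if_true, Bool.false_eq_true, if_false]
      linarith [key (ker p A i (update x i true)) p h0.le, key (ker p A i (update x i false)) (1 - p) (by linarith)]
  have h3 : ∑ x, nu p A x * (1 - (if x i then p else 1 - p) / ker p A i x) ≤ DD p A i :=
    Finset.sum_le_sum fun x _ => by
      by_cases h : nu p A x = 0
      · simp [h]
      refine mul_le_mul_of_nonneg_left ?_ (nu_nonneg h0 h1 x)
      have h4 := (ker_nonneg h0 h1 i x).lt_of_ne' (Finset.prod_ne_zero_iff.1 h i (Finset.mem_univ _))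
      have := Real.log_le_sub_one_of_pos (div_pos (pb_pos h0 h1 (x i)) h4)
      rw [Real.log_div (pb_pos h0 h1 _).ne' h4.ne'] at this
      linarith
  simp only [mul_sub _ (1 : ℝ), Finset.sum_sub_distrib, mul_one, nu_sum h0 h1 hA] at h3
  exact le_trans (sub_nonneg.2 h2) h3

theorem ent_le {t l : ℝ} (h0 : 0 ≤ t) (h1 : t ≤ 1) (hl : 1 ≤ l) :
    t * -Real.log t ≤ 1 / l + (Real.log l + 1) * (t * (1 - t)) := by
  rcases h0.eq_or_lt with rfl | h0
  · simp; positivity
  have a1 := Real.log_le_sub_one_of_pos (x := 1 / t) (by positivity)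
  have a2 := Real.log_le_sub_one_of_pos (x := 1 / l / t) (by positivity)
  have hl0 : l ≠ 0 := by positivity
  rw [Real.log_div one_ne_zero h0.ne'] at a1
  rw [Real.log_div (one_div_ne_zero hl0) h0.ne', Real.log_div one_ne_zero hl0] at a2
  rw [Real.log_one] at a1 a2
  have b1 : t * -Real.log t ≤ 1 - t := by
    have := mul_le_mul_of_nonneg_left a1 h0.le
    rw [mul_sub t (1 / t), mul_div_cancel₀ _ h0.ne'] at this
    linarith
  have b2 : t * -Real.log t ≤ 1 / l + t * Real.log l := by
    have := mul_le_mul_of_nonneg_left a2 h0.le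
    rw [mul_sub t (1 / l / t), mul_div_cancel₀ _ h0.ne'] at this
    linarith
  have b3 : 0 ≤ 1 / l := by positivity
  nlinarith [mul_le_mul_of_nonneg_left b1 h0.le, mul_le_mul_of_nonneg_left b2 (sub_nonneg.2 h1), mul_nonneg h0.le b3]

theorem DD_ge (h0 : 0 < p) (h1 : p < 1) (hA : 0 < Pr p A) (i : Fin n) {l : ℝ} (hl : 1 ≤ l) :
    -Real.log (pm p) - 2 / l - 2 * (Real.log l + 1) * ∑ x, nu p A x * vv p A i x ≤ DD p A i := by
  set C := 2 * (Real.log l + 1) with hC
  have hC0 : 0 ≤ C := by have := Real.log_nonneg hl; positivity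
  have h2 := seq1 (ker_nonneg (A := A) h0 h1) ker_adapt (fun i x => by simpa using ker_sum_le i x) i
    (g := fun x => -Real.log (ker p A i x) + C * (1 - vv p A i x)) (c := 2 / l + C)
    (fun x => add_nonneg (neg_nonneg.2 (Real.log_nonpos (ker_nonneg h0 h1 _ _) (ker_le_one h0 h1 _ _)))
      (mul_nonneg hC0 (sub_nonneg.2 (vv_le_one h0 h1 _ _))))
    (fun x y h => by rw [vv_congr fun j hj => h j hj.le, ker_adapt i x y h]) (by positivity) fun x => by
      have e : ∀ b, vv p A i (update x i b) = vv p A i x := fun b => vv_congr fun j hj => update_of_ne hj.ne _ _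
      simp only [Fintype.sum_bool, e]
      rcases ker_sum (p := p) (A := A) i x with h | h
      · have a1 := ent_le (ker_nonneg h0 h1 i (update x i true)) (ker_le_one (A := A) h0 h1 _ _) hl
        have a2 := ent_le (ker_nonneg h0 h1 i (update x i false)) (ker_le_one (A := A) h0 h1 _ _) hl
        rw [vv]
        generalize ker p A i (update x i true) = a at *
        generalize ker p A i (update x i false) = b at *
        obtain rfl : b = 1 - a := by linarith
        rw [hC, show 2 / l = 1 / l + 1 / l by ring]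
        linarith
      · rw [h.1, h.2, zero_mul, zero_add]; positivity
  have h3 : ∑ x, nu p A x * (-Real.log (pm p) + C - C * vv p A i x -
      (-Real.log (ker p A i x) + C * (1 - vv p A i x))) ≤ DD p A i :=
    Finset.sum_le_sum fun x _ => mul_le_mul_of_nonneg_left (by
      have : Real.log (if x i then p else 1 - p) ≤ Real.log (pm p) := Real.log_le_log (pb_pos h0 h1 _) (by
        split_ifs; exacts [le_max_left _ _, le_max_right _ _])
      linarith) (nu_nonneg h0 h1 x)
  simp only [mul_sub (nu p A _), Finset.sum_sub_distrib, ← Finset.sum_mul, nu_sum h0 h1 hA, mul_left_comm _ C,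
    ← Finset.mul_sum] at h3
  change ∑ x, nu p A x * _ ≤ _ at h2
  linarith

end Crest.Agent.R152.E
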