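import Crest.Agent.R152.Iface
import Crest.Agent.R152.EB

/-! Row 152, block E, notes152/H33.md 3E.  Recipe: `ν = μ(·|A)`, `S = ∑_{k<n} sv x_k`.  Lower bound: chain rule over coordinates, condition on the pasts of all samples;
given the pasts `S_i` is a sum of independent signs, max point probability `≤ C/√(1+V)` (Fourier on the circle), so entropy `≥ log(√(1+V)/C)`; `V` is a sum of `n` iid `[0,1]` variables
(Chebyshev); `KL(ν‖μ) ≤ θ n` and `kl(π‖p) ≥ -log pm - H(π)` bound the number of coordinates with `E π(1-π)` small.  Upper bound: Gibbs with weight `exp (-qf Q (s - E S)/2)`,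
`E qf Q (S - ES) ≤ n a`.  (Entropy toolkits: `R98.Ent`, `R55.Ent`; a martingale/min-entropy version is equally fine.) -/

set_option autoImplicit false
open Matrix Filter

namespace Crest.Agent.R152

namespace E
open Function

variable {n : ℕ} {p : ℝ} {A : Set (Fin n → Bool)}

/-- bound for the conditional point probabilities of the `i`-th coordinate of the sum -/
noncomputable def mm (p : ℝ) (A : Set (Fin n → Bool)) (i : Fin n) (X : Fin n → Fin n → Bool) : ℝ :=
  C0 / √(1 + ∑ k, vv p A i (X k))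

theorem mm_pos (h0 : 0 < p) (h1 : p < 1) (i : Fin n) (X : Fin n → Fin n → Bool) : 0 < mm p A i X := by
  have : 0 ≤ ∑ k, vv p A i (X k) := Finset.sum_nonneg fun _ _ => vv_nonneg h0 h1 _ _
  exact div_pos C0_pos (by positivity)

theorem mart (h0 : 0 < p) (h1 : p < 1) (s : Fin n → ℤ) : ∑ X : Fin n → Fin n → Bool,
    (∏ k, nu p A (X k)) * ((if ∑ k, sv (X k) = s then 1 else 0) * ∏ i, (mm p A i X)⁻¹) ≤ 1 := by
  have e : ∀ (Z : Fin n → Fin n → Bool) i y k, (fun j => update Z i y j k) = update (fun j => Z j k) i (y k) :=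
    fun Z i y k => funext fun j => by
      by_cases h : j = i
      · rw [h, update_self, update_self]
      · rw [update_of_ne h, update_of_ne h]
  have h := seq (c := fun _ => 1) (w := fun i (Z : Fin n → Fin n → Bool) => (∏ k, ker p A i fun j => Z j k) *
    ((if ∑ k, sg (Z i k) = s i then 1 else 0) * (mm p A i fun k j => Z j k)⁻¹))
    (fun i Z => mul_nonneg (Finset.prod_nonneg fun _ _ => ker_nonneg h0 h1 _ _)
      (mul_nonneg (by split_ifs <;> norm_num) (inv_nonneg.2 (mm_pos h0 h1 _ _).le)))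
    (fun _ => zero_le_one)
    (fun i Z Z' h => by
      have a1 : ∀ k, (ker p A i fun j => Z j k) = ker p A i fun j => Z' j k :=
        fun k => ker_adapt i _ _ fun j hj => by rw [h j hj]
      have a2 : ∀ k, (vv p A i fun j => Z j k) = vv p A i fun j => Z' j k :=
        fun k => vv_congr fun j hj => by rw [h j hj.le]
      simp only [mm, a1, a2, h i le_rfl])
    fun i Z => by
      have a2 : ∀ k b, vv p A i (update (fun j => Z j k) i b) = vv p A i fun j => Z j k :=
        fun k b => vv_congr fun j hj => update_of_ne hj.ne _ _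
      have a3 := anti (w := fun k b => ker p A i (update (fun j => Z j k) i b)) (fun _ _ => ker_nonneg h0 h1 _ _)
        (fun k => ker_sum_le i _) (s i)
      simp only [e, mm, a2, update_self, ← mul_assoc, ← Finset.sum_mul]
      exact mul_inv_le_one_of_le₀ a3 (mm_pos h0 h1 i fun k j => Z j k).le
  have hf : Involutive fun (Z : Fin n → Fin n → Bool) k j => Z j k := fun _ => rfl
  rw [← Equiv.sum_comp hf.toPerm, Finset.prod_const_one] at h
  refine le_of_eq_of_le (Finset.sum_congr rfl fun X _ => ?_) h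
  simp only [Involutive.coe_toPerm, Finset.prod_mul_distrib, nu]
  rw [Finset.prod_comm]
  congr 2
  simp only [funext_iff, sv, Finset.sum_apply]
  split_ifs with hs
  · simp [hs]
  · obtain ⟨i, hi⟩ := not_forall.1 hs
    exact (Finset.prod_eq_zero (Finset.mem_univ i) (if_neg hi)).symm

theorem qf_eq (Q : Matrix (Fin n) (Fin n) ℝ) (y : Fin n → ℝ) : qf Q y = ∑ i, ∑ j, Q i j * (y i * y j) := by
  simp only [qf, dotProduct, mulVec, Finset.mul_sum]
  exact Finset.sum_congr rfl fun i _ => Finset.sum_congr rfl fun j _ => by ring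

theorem quad (h0 : 0 < p) (h1 : p < 1) (hA : 0 < Pr p A) {Q : Matrix (Fin n) (Fin n) ℝ} (hQ : Q.PosSemidef) {a : ℝ}
    (ha : ∀ x ∈ A, qf Q (rc (sv x)) ≤ a) : ∑ X : Fin n → Fin n → Bool, (∏ k, nu p A (X k)) *
      qf Q (rc (∑ k, sv (X k)) - fun i => n * ∑ x, nu p A x * rc (sv x) i) ≤ n * a := by
  have e : ∀ (X : Fin n → Fin n → Bool) i, rc (∑ k, sv (X k)) i = ∑ k, rc (sv (X k)) i := fun X i => by
    simp [rc, Finset.sum_apply]
  have sw : ∀ {Ω : Type} [Fintype Ω] (w : Ω → ℝ) (y : Ω → Fin n → ℝ),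
      ∑ x, w x * qf Q (y x) = ∑ i, ∑ j, Q i j * ∑ x, w x * (y x i * y x j) := fun w y => by
    simp only [qf_eq, Finset.mul_sum]
    rw [Finset.sum_comm]
    refine Finset.sum_congr rfl fun i _ => ?_
    rw [Finset.sum_comm]
    exact Finset.sum_congr rfl fun j _ => Finset.sum_congr rfl fun x _ => by ring
  have h2 := fun i j => cov (κ := Fin n) (nu_sum h0 h1 hA) (fun x => rc (sv x) i) fun x => rc (sv x) j
  simp only [Fintype.card_fin] at h2
  have h3 : ∑ x, nu p A x * qf Q (rc (sv x)) ≤ a := by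
    refine le_trans (Finset.sum_le_sum (g := fun x => nu p A x * a) fun x _ => ?_) ?_
    · by_cases h : nu p A x = 0
      · simp [h]
      · exact mul_le_mul_of_nonneg_left (ha x (nu_mem h0 h1 hA h)) (nu_nonneg h0 h1 x)
    · rw [← Finset.sum_mul, nu_sum h0 h1 hA, one_mul]
  have h4 : 0 ≤ qf Q fun i => ∑ x, nu p A x * rc (sv x) i := hQ.dotProduct_mulVec_nonneg _
  rw [sw] at h3 ⊢
  rw [qf_eq] at h4
  simp only [Pi.sub_apply, e, h2, mul_left_comm _ (n : ℝ), ← Finset.mul_sum]
  refine mul_le_mul_of_nonneg_left ?_ n.cast_nonneg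
  simp only [mul_sub, Finset.sum_sub_distrib]
  linarith

theorem gibbs (h0 : 0 < p) (h1 : p < 1) (hA : 0 < Pr p A) (f : (Fin n → ℤ) → ℝ) {S : Set (Fin n → ℤ)} {Bd : ℝ}
    (hS : ∀ x : Fin n → Fin n → Bool, (∀ k, x k ∈ A) → (∑ k, sv (x k)) ∈ S)
    (hB : ∀ S' : Finset (Fin n → ℤ), (∀ s ∈ S', s ∈ S) → ∑ s ∈ S', Real.exp (f s) ≤ Bd) :
    ∑ X : Fin n → Fin n → Bool, (∏ k, nu p A (X k)) * (f (∑ k, sv (X k)) + ∑ i, -Real.log (mm p A i X)) ≤
      Real.log Bd := by
  classical
  have hW : ∀ X : Fin n → Fin n → Bool, 0 ≤ ∏ k, nu p A (X k) := fun X =>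
    Finset.prod_nonneg fun _ _ => nu_nonneg h0 h1 _
  refine (Real.log_exp _).symm.trans_le (Real.log_le_log (Real.exp_pos _) ?_)
  refine (convexOn_exp.map_sum_le (t := Finset.univ) (w := fun X : Fin n → Fin n → Bool => ∏ k, nu p A (X k))
    (p := fun X => f (∑ k, sv (X k)) + ∑ i, -Real.log (mm p A i X)) (fun X _ => hW X) (mom_one (nu_sum h0 h1 hA))
    fun _ _ => trivial).trans ?_
  set S' := (Finset.univ.filter fun X : Fin n → Fin n → Bool => ∀ k, X k ∈ A).image fun X => ∑ k, sv (X k) with hS'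
  refine le_trans ?_ (hB S' fun s hs => ?_)
  · refine le_of_eq_of_le ?_ (Finset.sum_le_sum fun s _ =>
      mul_le_of_le_one_right (Real.exp_pos (f s)).le (mart (A := A) h0 h1 s))
    simp only [Finset.mul_sum]
    rw [Finset.sum_comm]
    refine Finset.sum_congr rfl fun X _ => ?_
    by_cases h : ∏ k, nu p A (X k) = 0
    · simp [h]
    have hX : ∑ k, sv (X k) ∈ S' := Finset.mem_image_of_mem _ (Finset.mem_filter.2 ⟨Finset.mem_univ _, fun k =>
      nu_mem h0 h1 hA (Finset.prod_ne_zero_iff.1 h k (Finset.mem_univ _))⟩)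
    simp only [ite_mul, one_mul, zero_mul, mul_ite, mul_zero, Finset.sum_ite_eq, hX, if_true, smul_eq_mul,
      Real.exp_add, Real.exp_sum, Real.exp_neg, Real.exp_log (mm_pos h0 h1 _ _)]
    ring
  · obtain ⟨X, hX, rfl⟩ := Finset.mem_image.1 hs
    exact hS X (Finset.mem_filter.1 hX).2

end E

open E in
theorem stE : StE := by
  intro p η h0 h1 hη hη'
  set l : ℝ := 1 + 4 / η with hl
  have hl1 : 1 ≤ l := le_add_of_nonneg_right (by positivity)
  have hl2 : 2 / l ≤ η / 2 := by
    rw [div_le_div_iff₀ (by positivity) two_pos, hl, mul_add, mul_div_cancel₀ _ hη.ne']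
    linarith
  have hl3 := Real.log_nonneg hl1
  set κ : ℝ := η / (4 * (Real.log l + 1)) with hκ
  have hκ0 : 0 < κ := by positivity
  have hκ1 : 2 * (Real.log l + 1) * κ = η / 2 := by rw [hκ]; field_simp; norm_num
  refine ⟨Real.log C0 + |Real.log (κ / 6)| / 2, fun n hn A θ a Bd Q S hA hQ ha hS hB => ?_⟩
  have hA0 : 0 < Pr p A := (Real.exp_pos _).trans_le hA
  have : Nonempty (Fin n) := ⟨⟨0, hn⟩⟩
  have hn0 : (0 : ℝ) < n := by exact_mod_cast hn
  have hlog : 0 ≤ Real.log n := Real.log_nonneg (by exact_mod_cast hn)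
  set g := -Real.log (pm p) - η with hg
  have hg0 : 0 < g := sub_pos.2 hη'
  have hW : ∀ X : Fin n → Fin n → Bool, 0 ≤ ∏ k, nu p A (X k) := fun X =>
    Finset.prod_nonneg fun _ _ => nu_nonneg h0 h1 _
  have hV : ∀ i (X : Fin n → Fin n → Bool), 0 ≤ ∑ k, vv p A i (X k) := fun i X =>
    Finset.sum_nonneg fun _ _ => vv_nonneg h0 h1 _ _
  have h2 : ∀ i, Real.log n - |Real.log (κ / 6)| - Real.log n / g * DD p A i ≤
      ∑ X : Fin n → Fin n → Bool, (∏ k, nu p A (X k)) * Real.log (1 + ∑ k, vv p A i (X k)) := fun i => by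
    rcases le_total κ (∑ x, nu p A x * vv p A i x) with h | h
    · refine le_trans ?_ (elog (nu_nonneg h0 h1) (nu_sum h0 h1 hA0) (vv_nonneg h0 h1 i) (vv_le_one h0 h1 i)
        (hκ0.trans_le h))
      have a1 : Real.log (n * (κ / 6)) ≤ Real.log (Fintype.card (Fin n) * (∑ x, nu p A x * vv p A i x) / 6) :=
        Real.log_le_log (by positivity) (by rw [Fintype.card_fin, mul_div_assoc]; gcongr)
      rw [Real.log_mul hn0.ne' (by positivity)] at a1
      have a2 := mul_nonneg (div_nonneg hlog hg0.le) (DD_nonneg h0 h1 hA0 i)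
      linarith [neg_abs_le (Real.log (κ / 6))]
    · refine le_trans ?_ (Finset.sum_nonneg fun X _ => mul_nonneg (hW X) (Real.log_nonneg (by linarith [hV i X])))
      have a1 := DD_ge h0 h1 hA0 i hl1
      have a2 := mul_le_mul_of_nonneg_left h (by positivity : 0 ≤ 2 * (Real.log l + 1))
      have a3 := mul_le_mul_of_nonneg_left (by linarith : g ≤ DD p A i) (div_nonneg hlog hg0.le)
      rw [div_mul_cancel₀ _ hg0.ne'] at a3
      linarith [abs_nonneg (Real.log (κ / 6))]
  have h3 := Finset.sum_le_sum fun i (_ : i ∈ Finset.univ) => h2 i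
  simp only [Finset.sum_sub_distrib, Finset.sum_const, Finset.card_univ, Fintype.card_fin, nsmul_eq_mul,
    ← Finset.mul_sum, sum_DD h0 h1 hA0] at h3
  have h4 := quad h0 h1 hA0 hQ ha
  have h5 := gibbs h0 h1 hA0 (fun s => -(qf Q (rc s - fun i => n * ∑ x, nu p A x * rc (sv x) i)) / 2) hS (hB _)
  have e : ∀ i X, -Real.log (mm p A i X) = Real.log (1 + ∑ k, vv p A i (X k)) / 2 - Real.log C0 := fun i X => by
    have := hV i X
    rw [mm, Real.log_div C0_pos.ne' (by positivity), Real.log_sqrt (by positivity)]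
    ring
  simp only [e, mul_add, Finset.sum_add_distrib, Finset.sum_sub_distrib, mul_sub, ← Finset.sum_div, ← mul_div_assoc,
    mul_neg, Finset.sum_neg_distrib, ← Finset.sum_mul, mom_one (nu_sum h0 h1 hA0), Finset.sum_const, Finset.card_univ,
    Fintype.card_fin, nsmul_eq_mul] at h5
  rw [Finset.sum_comm] at h3
  simp only [← Finset.mul_sum] at h3
  have h6 : -Real.log (Pr p A) ≤ θ * n := by
    have := Real.log_le_log (Real.exp_pos _) hA
    rw [Real.log_exp] at this
    linarith
  have h7 := mul_le_mul_of_nonneg_left h6 (div_nonneg hlog hg0.le)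
  have e2 : (1 - θ / g) * (Lg n / 2) = (n * Real.log n - Real.log n / g * (θ * n)) / 2 := by rw [Lg]; ring
  rw [e2]
  linarith

end Crest.Agent.R152
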