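import Crest.Agent.R152.Defs

/-! Row 152, block E (owner helper79): sequential products, anti-concentration, moments of iid sums. -/

set_option autoImplicit false
open Function

namespace Crest.Agent.R152.E

/-- `w i` depends only on the coordinates `≤ i` -/
def Adapt {Y : Type} {d : ℕ} (w : Fin d → (Fin d → Y) → ℝ) : Prop :=
  ∀ i x y, (∀ j, j ≤ i → x j = y j) → w i x = w i y

theorem sum_update {Y : Type} [Fintype Y] {d : ℕ} (i : Fin d) (G : (Fin d → Y) → ℝ) :
    ∑ x, ∑ y, G (update x i y) = Fintype.card Y * ∑ x, G x := by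
  have hf : Involutive fun p : (Fin d → Y) × Y => (update p.1 i p.2, p.1 i) := fun p => by simp
  rw [← Fintype.sum_prod_type', ← Equiv.sum_comp hf.toPerm]
  simp [Fintype.sum_prod_type, Finset.mul_sum]

theorem seq {Y : Type} [Fintype Y] [Nonempty Y] {d : ℕ} {w : Fin d → (Fin d → Y) → ℝ} {c : Fin d → ℝ}
    (h0 : ∀ i x, 0 ≤ w i x) (hc0 : ∀ i, 0 ≤ c i) (ha : Adapt w) (hc : ∀ i x, ∑ y, w i (update x i y) ≤ c i) :
    ∑ x, ∏ i, w i x ≤ ∏ i, c i := by
  have hN : (0 : ℝ) < Fintype.card Y := by exact_mod_cast Fintype.card_pos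
  have key : ∀ m, m ≤ d → (Fintype.card Y : ℝ) ^ m * ∑ x, ∏ i : Fin d with i.1 < m, w i x ≤
      (Fintype.card Y : ℝ) ^ d * ∏ i : Fin d with i.1 < m, c i := by
    intro m
    induction m with
    | zero => intro _; simp
    | succ m ih =>
      intro hm
      have e : (Finset.univ.filter fun i : Fin d => i.1 < m + 1) =
          insert ⟨m, hm⟩ (Finset.univ.filter fun i : Fin d => i.1 < m) := by
        ext i; simp [Fin.ext_iff]; omega
      have hn : (⟨m, hm⟩ : Fin d) ∉ Finset.univ.filter fun i : Fin d => i.1 < m := by simp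
      simp only [e, Finset.prod_insert hn]
      rw [pow_succ, mul_assoc, ← sum_update ⟨m, hm⟩, mul_left_comm]
      refine le_trans ?_ (mul_le_mul_of_nonneg_left (ih (by omega)) (hc0 _))
      rw [mul_left_comm, Finset.mul_sum _ _ (c _)]
      refine mul_le_mul_of_nonneg_left (Finset.sum_le_sum fun x _ => ?_) (by positivity)
      refine le_of_eq_of_le ?_ (mul_le_mul_of_nonneg_right (hc ⟨m, hm⟩ x) (Finset.prod_nonneg fun i _ => h0 i x))
      rw [Finset.sum_mul]
      refine Finset.sum_congr rfl fun y _ => congrArg _ (Finset.prod_congr rfl fun i hi => ha i _ _ fun j hj => ?_)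
      refine update_of_ne (fun e => ?_) _ _
      have := (Finset.mem_filter.1 hi).2
      rw [e, Fin.le_def] at hj
      exact absurd this (not_lt.2 hj)
  have := key d le_rfl
  simp only [Fin.is_lt, Finset.filter_true] at this
  exact le_of_mul_le_mul_left this (by positivity)

/-- one factor is tilted -/
theorem seq1 {Y : Type} [Fintype Y] [Nonempty Y] {d : ℕ} {w : Fin d → (Fin d → Y) → ℝ}
    (h0 : ∀ i x, 0 ≤ w i x) (ha : Adapt w) (hc : ∀ i x, ∑ y, w i (update x i y) ≤ 1) (i : Fin d)
    {g : (Fin d → Y) → ℝ} {c : ℝ} (hg : ∀ x, 0 ≤ g x) (hga : ∀ x y, (∀ j, j ≤ i → x j = y j) → g x = g y)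
    (hc0 : 0 ≤ c) (hgc : ∀ x, ∑ y, w i (update x i y) * g (update x i y) ≤ c) : ∑ x, (∏ j, w j x) * g x ≤ c := by
  have := seq (w := fun j x => w j x * if j = i then g x else 1) (c := fun j => if j = i then c else 1)
    (fun j x => mul_nonneg (h0 j x) (by split_ifs; exacts [hg x, zero_le_one]))
    (fun j => by split_ifs; exacts [hc0, zero_le_one])
    (fun j x y h => by
      by_cases e : j = i
      · simp only [e, if_true] at h ⊢; rw [ha i x y h, hga x y h]
      · simp only [e, if_false]; rw [ha j x y h])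
    fun j x => by
      by_cases e : j = i
      · simp only [e, if_true]; exact hgc x
      · simp only [e, if_false, mul_one]; exact hc j x
  simpa only [Finset.prod_mul_distrib, Finset.prod_ite_eq', Finset.mem_univ, if_true] using this

theorem norm_coin {a b : ℝ} (ha : 0 ≤ a) (hb : 0 ≤ b) (h : a + b ≤ 1) (θ : ℝ) :
    ‖(a : ℂ) * Complex.exp (θ * Complex.I) + b‖ ≤ Real.exp (-(a * b * (1 - Real.cos θ))) := by
  refine abs_le_of_sq_le_sq' ?_ (Real.exp_pos _).le |>.2
  rw [← Real.exp_nat_mul, Complex.sq_norm, Complex.normSq_apply]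
  refine le_trans ?_ (Real.add_one_le_exp _)
  simp only [Complex.add_re, Complex.re_ofReal_mul, Complex.exp_ofReal_mul_I_re, Complex.ofReal_re, Complex.add_im,
    Complex.im_ofReal_mul, Complex.exp_ofReal_mul_I_im, Complex.ofReal_im]
  have := Real.sin_sq_add_cos_sq θ
  have e : (a * Real.cos θ + b) * (a * Real.cos θ + b) + (a * Real.sin θ + 0) * (a * Real.sin θ + 0) =
      a ^ 2 * (Real.sin θ ^ 2 + Real.cos θ ^ 2) + 2 * a * b * Real.cos θ + b ^ 2 := by ring
  rw [e, this]
  push_cast
  nlinarith [mul_le_one₀ h (add_nonneg ha hb) h]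

theorem int_exp (m : ℤ) : ∫ θ in (-Real.pi)..Real.pi, Complex.exp (m * (θ * Complex.I)) =
    if m = 0 then ((2 * Real.pi : ℝ) : ℂ) else 0 := by
  split_ifs with h
  · simp [h, two_mul]
  · have h1 : (m : ℂ) * Complex.I ≠ 0 := mul_ne_zero (by exact_mod_cast h) Complex.I_ne_zero
    have e : ∀ θ : ℝ, (m : ℂ) * (θ * Complex.I) = m * Complex.I * θ := fun θ => by ring
    simp only [e]
    rw [integral_exp_mul_complex h1, div_eq_zero_iff, sub_eq_zero]
    left
    rw [Complex.exp_eq_exp_iff_exists_int]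
    exact ⟨m, by push_cast; ring⟩

/-- the constant of the anti-concentration inequality -/
noncomputable def C0 : ℝ := Real.exp 2 * √(Real.pi / (2 / Real.pi ^ 2)) / (2 * Real.pi)

theorem C0_pos : 0 < C0 := by unfold C0; have := Real.pi_pos; positivity

theorem anti {κ : Type} [Fintype κ] [DecidableEq κ] {w : κ → Bool → ℝ} (h0 : ∀ k b, 0 ≤ w k b)
    (h1 : ∀ k, w k true + w k false ≤ 1) (j : ℤ) :
    ∑ y : κ → Bool, (∏ k, w k (y k)) * (if ∑ k, sg (y k) = j then 1 else 0) ≤
      C0 / √(1 + ∑ k, w k true * w k false) := by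
  set V := ∑ k, w k true * w k false with hV
  have hV0 : 0 ≤ V := Finset.sum_nonneg fun k _ => mul_nonneg (h0 _ _) (h0 _ _)
  have hπ := Real.pi_pos
  set j' : ℤ := (j + Fintype.card κ) / 2 with hj'
  set N : (κ → Bool) → ℤ := fun y => ∑ k, if y k then 1 else 0 with hN
  set P : ℝ := ∑ y : κ → Bool, (∏ k, w k (y k)) * (if N y - j' = 0 then 1 else 0) with hP
  have s1 : ∑ y : κ → Bool, (∏ k, w k (y k)) * (if ∑ k, sg (y k) = j then 1 else 0) ≤ P := by
    refine Finset.sum_le_sum fun y _ => mul_le_mul_of_nonneg_left ?_ (Finset.prod_nonneg fun k _ => h0 _ _)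
    have : ∑ k, sg (y k) + Fintype.card κ = 2 * N y := by
      rw [hN, Finset.mul_sum, ← Finset.card_univ, Finset.card_eq_sum_ones, Nat.cast_sum, ← Finset.sum_add_distrib]
      exact Finset.sum_congr rfl fun k _ => by unfold sg; split_ifs <;> simp
    by_cases h : ∑ k, sg (y k) = j
    · rw [if_pos h, if_pos (by omega)]
    · rw [if_neg h]; split_ifs <;> norm_num
  have s2 : ((2 * Real.pi * P : ℝ) : ℂ) = ∫ θ in (-Real.pi)..Real.pi, Complex.exp ((-j' * θ : ℝ) * Complex.I) *
      ∏ k, ((w k true : ℂ) * Complex.exp (θ * Complex.I) + w k false) := by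
    have e : ∀ θ : ℝ, Complex.exp ((-j' * θ : ℝ) * Complex.I) *
        ∏ k, ((w k true : ℂ) * Complex.exp (θ * Complex.I) + w k false) =
        ∑ y : κ → Bool, ((∏ k, w k (y k) : ℝ) : ℂ) * Complex.exp ((N y - j' : ℤ) * (θ * Complex.I)) := fun θ => by
      have := Finset.prod_univ_sum (fun _ : κ => (Finset.univ : Finset Bool))
        fun k b => (w k b : ℂ) * Complex.exp (((if b then 1 else 0 : ℤ) : ℂ) * (θ * Complex.I))
      simp only [Fintype.univ_bool, Finset.mem_singleton, Bool.true_eq_false, not_false_eq_true, Finset.sum_insert,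
        Finset.sum_singleton, if_true, Bool.false_eq_true, if_false, Int.cast_one, Int.cast_zero, one_mul, zero_mul,
        Complex.exp_zero, mul_one] at this
      rw [this, ← Fintype.univ_bool, Fintype.piFinset_univ, Finset.mul_sum]
      refine Finset.sum_congr rfl fun y _ => ?_
      rw [Finset.prod_mul_distrib, ← Complex.exp_sum, mul_left_comm, ← Complex.exp_add, ← Finset.sum_mul]
      push_cast [hN]
      congr 2
      ring
    simp only [e]
    rw [intervalIntegral.integral_finsetSum fun y _ => Continuous.intervalIntegrable (by fun_prop) _ _, hP,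
      Finset.mul_sum, Complex.ofReal_sum]
    refine Finset.sum_congr rfl fun y _ => ?_
    rw [intervalIntegral.integral_const_mul, int_exp]
    split_ifs <;> simp [mul_comm]
  set c : ℝ := 2 / Real.pi ^ 2 with hc
  have hc0 : 0 < c := by positivity
  have hb : 0 < (1 + V) * c := by positivity
  have s3 : 2 * Real.pi * P ≤ Real.exp 2 * √(Real.pi / ((1 + V) * c)) := by
    refine (le_abs_self _).trans ?_
    rw [← Real.norm_eq_abs, ← Complex.norm_real, s2, ← integral_gaussian, ← MeasureTheory.integral_const_mul]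
    have hi := (integrable_exp_neg_mul_sq hb).const_mul (Real.exp 2)
    refine (intervalIntegral.norm_integral_le_of_norm_le (by linarith) (Filter.Eventually.of_forall fun θ hθ => ?_)
      hi.intervalIntegrable).trans ?_
    · have h2 : |θ| ≤ Real.pi := abs_le.2 ⟨hθ.1.le, hθ.2⟩
      have h3 := Real.cos_le_one_sub_mul_cos_sq h2
      have h4 : c * θ ^ 2 ≤ 2 := by
        rw [hc, div_mul_eq_mul_div, div_le_iff₀ (by positivity)]
        have := sq_le_sq' (abs_le.1 h2).1 (abs_le.1 h2).2
        linarith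
      rw [norm_mul, Complex.norm_exp_ofReal_mul_I, one_mul, norm_prod, ← Real.exp_add]
      refine (Finset.prod_le_prod (fun _ _ => norm_nonneg _) fun k _ =>
        norm_coin (h0 k true) (h0 k false) (h1 k) θ).trans ?_
      rw [← Real.exp_sum, Finset.sum_neg_distrib, ← Finset.sum_mul]
      refine Real.exp_le_exp.2 ?_
      nlinarith [mul_le_mul_of_nonneg_left h3 hV0]
    · rw [intervalIntegral.integral_of_le (by linarith)]
      exact MeasureTheory.setIntegral_le_integral hi (Filter.Eventually.of_forall fun θ => by positivity)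
  refine s1.trans ?_
  rw [← le_div_iff₀' (by positivity)] at s3
  refine s3.trans_eq ?_
  rw [C0, ← hc, mul_comm (1 + V), ← div_div Real.pi, Real.sqrt_div' (Real.pi / c) (by positivity : 0 ≤ 1 + V)]
  ring

section mom
variable {κ Ω : Type} [Fintype κ] [DecidableEq κ] [Fintype Ω] {ν : Ω → ℝ}

theorem mom0 (ν : Ω → ℝ) (h : κ → Ω → ℝ) :
    ∑ X : κ → Ω, (∏ k, ν (X k)) * ∏ k, h k (X k) = ∏ k, ∑ x, ν x * h k x := by
  rw [Finset.prod_univ_sum, Fintype.piFinset_univ]
  simp only [Finset.prod_mul_distrib]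

theorem mom_one (h1 : ∑ x, ν x = 1) : ∑ X : κ → Ω, ∏ k, ν (X k) = 1 := by
  simpa [h1] using mom0 ν fun (_ : κ) _ => 1

theorem cov0 (h1 : ∑ x, ν x = 1) {f g : Ω → ℝ} (hf : ∑ x, ν x * f x = 0) :
    ∑ X : κ → Ω, (∏ k, ν (X k)) * ((∑ k, f (X k)) * ∑ k, g (X k)) = Fintype.card κ * ∑ x, ν x * (f x * g x) := by
  have key : ∀ k l : κ, ∑ X : κ → Ω, (∏ k, ν (X k)) * (f (X k) * g (X l)) =
      if k = l then ∑ x, ν x * (f x * g x) else 0 := fun k l => by
    have := mom0 ν fun j x => (if j = k then f x else 1) * if j = l then g x else 1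
    simp only [Finset.prod_mul_distrib, Finset.prod_ite_eq', Finset.mem_univ, if_true] at this
    rw [this]
    split_ifs with e
    · rw [Finset.prod_eq_single k (fun j _ hj => by simp [← e, hj, h1]) (by simp)]
      simp [e]
    · exact Finset.prod_eq_zero (Finset.mem_univ k) (by simp [e, hf])
  calc _ = ∑ X : κ → Ω, ∑ k, ∑ l, (∏ k, ν (X k)) * (f (X k) * g (X l)) := by
        refine Finset.sum_congr rfl fun X _ => ?_
        rw [Finset.sum_mul_sum, Finset.mul_sum]
        exact Finset.sum_congr rfl fun k _ => Finset.mul_sum _ _ _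
    _ = ∑ k, ∑ l, ∑ X : κ → Ω, (∏ k, ν (X k)) * (f (X k) * g (X l)) := by
        rw [Finset.sum_comm]
        exact Finset.sum_congr rfl fun k _ => Finset.sum_comm
    _ = _ := by simp [key]

theorem cov (h1 : ∑ x, ν x = 1) (f g : Ω → ℝ) :
    ∑ X : κ → Ω, (∏ k, ν (X k)) * ((∑ k, f (X k) - Fintype.card κ * ∑ x, ν x * f x) *
      (∑ k, g (X k) - Fintype.card κ * ∑ x, ν x * g x)) =
      Fintype.card κ * (∑ x, ν x * (f x * g x) - (∑ x, ν x * f x) * ∑ x, ν x * g x) := by
  set a := ∑ x, ν x * f x with ha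
  set b := ∑ x, ν x * g x with hb
  have := cov0 (κ := κ) h1 (f := fun x => f x - a) (g := fun x => g x - b) (by
    simp only [mul_sub, Finset.sum_sub_distrib, ← Finset.sum_mul, h1, ← ha]; ring)
  simp only [Finset.sum_sub_distrib, Finset.sum_const, Finset.card_univ, nsmul_eq_mul] at this
  rw [this]
  congr 1
  have e : ∀ x, ν x * ((f x - a) * (g x - b)) = ν x * (f x * g x) - ν x * f x * b - a * (ν x * g x) + ν x * (a * b) :=
    fun x => by ring
  simp only [e, Finset.sum_add_distrib, Finset.sum_sub_distrib, ← Finset.sum_mul, ← Finset.mul_sum, h1, ← ha, ← hb]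
  ring

theorem elog [Nonempty κ] (h0 : ∀ x, 0 ≤ ν x) (h1 : ∑ x, ν x = 1) {v : Ω → ℝ} (hv0 : ∀ x, 0 ≤ v x) (hv1 : ∀ x, v x ≤ 1)
    (hu : 0 < ∑ x, ν x * v x) : Real.log (Fintype.card κ * (∑ x, ν x * v x) / 6) ≤
      ∑ X : κ → Ω, (∏ k, ν (X k)) * Real.log (1 + ∑ k, v (X k)) := by
  have hN : (0 : ℝ) < Fintype.card κ := by exact_mod_cast Fintype.card_pos
  have h2 := cov (κ := κ) h1 v v
  set u := ∑ x, ν x * v x with hu'
  set M := Fintype.card κ * u with hM
  have hM0 : 0 < M := by positivity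
  have h3 : ∑ X : κ → Ω, (∏ k, ν (X k)) * ((∑ k, v (X k) - M) * (∑ k, v (X k) - M)) ≤ M := by
    rw [h2]
    refine mul_le_mul_of_nonneg_left ((sub_le_self _ (mul_self_nonneg _)).trans
      (Finset.sum_le_sum fun x _ => ?_)) hN.le
    exact mul_le_mul_of_nonneg_left (mul_le_of_le_one_left (hv0 x) (hv1 x)) (h0 x)
  have h4 : ∀ V : ℝ, 0 ≤ V → Real.log (M / 6) + 2 / 3 - 2 / (3 * M) * ((V - M) * (V - M)) ≤ Real.log (1 + V) := by
    intro V hV
    have a1 := Real.log_le_sub_one_of_pos (x := M / 6 / (1 + V)) (by positivity)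
    rw [Real.log_div (by positivity) (by positivity)] at a1
    have a2 : M / 6 / (1 + V) ≤ 1 / 3 + 2 / (3 * M) * ((V - M) * (V - M)) := by
      have a3 : 0 ≤ 2 / (3 * M) * ((V - M) * (V - M)) := mul_nonneg (by positivity) (mul_self_nonneg _)
      rcases le_total M (2 * V) with h | h
      · have : M / 6 / (1 + V) ≤ 1 / 3 := by rw [div_le_iff₀ (by positivity)]; linarith
        linarith
      · have b1 : M / 6 / (1 + V) ≤ M / 6 := div_le_self (by positivity) (by linarith)
        have b2 : M / 6 ≤ 2 / (3 * M) * ((V - M) * (V - M)) := by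
          rw [div_mul_eq_mul_div, div_le_div_iff₀ (by positivity) (by positivity)]
          nlinarith
        linarith
    linarith
  refine le_trans ?_ (Finset.sum_le_sum fun X _ => mul_le_mul_of_nonneg_left
    (h4 _ (Finset.sum_nonneg fun k _ => hv0 _)) (Finset.prod_nonneg fun k _ => h0 _))
  simp only [mul_sub _ (_ + _), Finset.sum_sub_distrib, ← Finset.sum_mul, mom_one h1, mul_left_comm _ (2 / (3 * M)),
    ← Finset.mul_sum]
  have h5 : 2 / (3 * M) * M = 2 / 3 := by field_simp
  nlinarith [mul_le_mul_of_nonneg_left h3 (by positivity : 0 ≤ 2 / (3 * M))]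

end mom

end Crest.Agent.R152.E
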