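import Crest.Agent.R152.Iface
import Crest.Agent.R152.P
import Crest.Agent.R152.LA

/-! Row 152, block G1.  Recipe: `det (BᵀB + w) ≥ ∏ (w + dist_j²)` (`dist_j` = distance of column `j` to the span of the earlier ones; Gram determinant of the vectors `(b_j, √w e_j)`).
If more than `δ' n` of the `j ≤ (1-δ') n` have `dist_j² ≤ p(1-p) δ' n`, take a subset `𝒥` of size `≈ δ' n/2`; on the rows outside `𝒥` the columns of `𝒥` are fresh (`fresh`, increasing order) and close to a
subspace of codimension `≥ δ' n/2`; add the all-ones vector to the subspace; Chebyshev for `‖P ξ‖²` (`E = 4p(1-p) q`, `Var ≤ C q`) gives probability `O(1/n)` per column; union over `𝒥`. -/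

set_option autoImplicit false
open Matrix Filter

namespace Crest.Agent.R152

open Crest.FinProb

theorem g1_gram {E : Type} [NormedAddCommGroup E] [InnerProductSpace ℝ E] [FiniteDimensional ℝ E] :
    ∀ (n : ℕ) (c : Fin n → E) (m : Fin n → ℝ), (∀ j, 0 ≤ m j) →
      (∀ j (a : Fin n → ℝ), (∀ i, j ≤ i → a i = 0) → m j ≤ ‖c j - ∑ i, a i • c i‖ ^ 2) → ∏ j, m j ≤ SL.gd c
  | 0, c, m, _, _ => by simp [SL.gd_empty]
  | n + 1, c, m, h0, h => by
    have e : SL.gd c = SL.gd (Sum.elim (fun j : Fin n => c j.castSucc) fun _ : Unit => c (Fin.last n)) := by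
      let e : Fin n ⊕ Unit ≃ Fin (n + 1) := (Equiv.optionEquivSumPUnit (Fin n)).symm.trans finSuccEquivLast.symm
      rw [← SL.gd_equiv e c]
      congr 1
      funext a
      rcases a with u | j <;> simp [e]
    rw [e, SL.gd_elim, SL.gd_unique (ι := Unit), Fin.prod_univ_castSucc]
    refine mul_le_mul (g1_gram n _ _ (fun j => h0 _) fun j a ha => ?_) ?_ (h0 _) (SL.gd_nonneg _)
    · have := h j.castSucc (Fin.snoc (α := fun _ => ℝ) a 0) fun i hi => by
        induction i using Fin.lastCases with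
        | last => simp
        | cast i => simpa using ha i (by simpa using hi)
      simpa [Fin.sum_univ_castSucc] using this
    · obtain ⟨a, ha⟩ := (Submodule.mem_span_range_iff_exists_fun ℝ).1
        (SL.sub_pr_mem (Submodule.span ℝ (Set.range fun j : Fin n => c j.castSucc)) (c (Fin.last n)))
      have := h (Fin.last n) (Fin.snoc (α := fun _ => ℝ) a 0) fun i hi => by
        rw [Fin.last_le_iff.1 hi]; simp
      simpa [Fin.sum_univ_castSucc, ha] using this

/-- row `j` is close to the span of the earlier rows -/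
def g1_Bad {n : ℕ} (θ : ℝ) (ω : Om n) (j : Fin n) : Prop :=
  ∃ a : Fin n → ℝ, (∀ i, j ≤ i → a i = 0) ∧ ∑ l, ((sg (ω s(j, l)) : ℝ) - ∑ i, a i * sg (ω s(i, l))) ^ 2 ≤ θ

open Classical in
theorem g1_det {n : ℕ} {θ w : ℝ} (hθ : 0 ≤ θ) (hw : 0 ≤ w) (ω : Om n) :
    ∏ j, (if g1_Bad θ ω j then w else θ) ≤ (rm (Mx ω) * rm (Mx ω) + w • (1 : Matrix (Fin n) (Fin n) ℝ)).det := by
  let c : Fin n → EuclideanSpace ℝ (Fin n ⊕ Fin n) := fun j =>
    WithLp.toLp 2 (Sum.elim (fun l => (sg (ω s(j, l)) : ℝ)) fun l => if l = j then √w else 0)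
  have e : Matrix.gram ℝ c = rm (Mx ω) * rm (Mx ω) + w • (1 : Matrix (Fin n) (Fin n) ℝ) := by
    ext i j
    simp only [gram_apply, PiLp.inner_apply, c, Fintype.sum_sum_type, Sum.elim_inl, Sum.elim_inr, Matrix.add_apply,
      Matrix.mul_apply, rm, Mx, map_apply, of_apply, Matrix.smul_apply, one_apply, RCLike.inner_apply, conj_trivial]
    congr 1
    · exact Finset.sum_congr rfl fun l _ => by rw [mul_comm, Sym2.eq_swap (a := j)]
    · by_cases h : i = j
      · simp [h, hw]
      · simp [h]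
  rw [← e]
  refine g1_gram n c _ (fun j => by split_ifs <;> assumption) fun j a ha => ?_
  rw [EuclideanSpace.real_norm_sq_eq, Fintype.sum_sum_type]
  simp only [c, PiLp.sub_apply, WithLp.ofLp_sum, Finset.sum_apply, WithLp.ofLp_smul, Pi.smul_apply, Sum.elim_inl,
    Sum.elim_inr, smul_eq_mul]
  split_ifs with hb
  · refine le_add_of_nonneg_of_le (Finset.sum_nonneg fun _ _ => sq_nonneg _) ?_
    refine le_of_eq_of_le ?_ (Finset.single_le_sum (fun _ _ => sq_nonneg _) (Finset.mem_univ j))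
    simp [ha j le_rfl, hw]
  · refine le_add_of_le_of_nonneg (le_of_not_ge fun h => hb ⟨a, ha, h⟩) (Finset.sum_nonneg fun _ _ => sq_nonneg _)

section prob
variable {ι : Type} [Fintype ι] [DecidableEq ι] {p : ℝ}

/-- centred sign -/
def g1_eta (p : ℝ) (b : Bool) : ℝ := sg b - (2 * p - 1)

theorem g1_eta_sq (p : ℝ) (b : Bool) : g1_eta p b * g1_eta p b = 4 * p * (1 - p) - 2 * (2 * p - 1) * g1_eta p b := by
  cases b <;> simp [g1_eta, sg] <;> ring

theorem g1_eta_le (hp0 : 0 ≤ p) (hp1 : p ≤ 1) (b : Bool) : g1_eta p b ^ 2 ≤ 4 := by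
  cases b <;> simp [g1_eta, sg] <;> nlinarith

theorem g1_flip (p : ℝ) (i : ι) (F : (ι → Bool) → ℝ) (hF : ∀ x b, F (Function.update x i b) = F x) :
    ∑ x, bernoulliWeight p x * (g1_eta p (x i) * F x) = 0 := by
  have hT : Function.Involutive fun x : ι → Bool => Function.update x i (!x i) := fun x => by simp
  have h := Equiv.sum_comp hT.toPerm fun x => bernoulliWeight p x * (g1_eta p (x i) * F x)
  have e : ∀ x : ι → Bool, bernoulliWeight p (hT.toPerm _ x) * (g1_eta p (hT.toPerm _ x i) * F (hT.toPerm _ x)) =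
      -(bernoulliWeight p x * (g1_eta p (x i) * F x)) := fun x => by
    have h0 : hT.toPerm _ x = Function.update x i (!x i) := rfl
    have h1 : ∏ j ∈ Finset.univ.erase i, (if Function.update x i (!x i) j then p else 1 - p) =
        ∏ j ∈ Finset.univ.erase i, (if x j then p else 1 - p) :=
      Finset.prod_congr rfl fun j hj => by rw [Function.update_of_ne (Finset.ne_of_mem_erase hj)]
    rw [h0, hF, bernoulliWeight, bernoulliWeight, ← Finset.mul_prod_erase _ _ (Finset.mem_univ i), h1,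
      ← Finset.mul_prod_erase _ _ (Finset.mem_univ i), Function.update_self]
    cases x i <;> simp [g1_eta, sg] <;> ring
  simp only [e, Finset.sum_neg_distrib] at h
  linarith

theorem g1_orth (hp0 : 0 ≤ p) (hp1 : p ≤ 1) {α : Type} (s : Finset α) (φ : α → (ι → Bool) → ℝ) (c : α → ℝ) {M : ℝ}
    (hM : ∀ a x, φ a x ^ 2 ≤ M)
    (h : ∀ a ∈ s, ∀ b ∈ s, b ≠ a → ∑ x, bernoulliWeight p x * (φ a x * φ b x) = 0) :
    ∑ x, bernoulliWeight p x * (∑ a ∈ s, c a * φ a x) ^ 2 ≤ M * ∑ a ∈ s, c a ^ 2 := by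
  have e : ∀ x, bernoulliWeight p x * (∑ a ∈ s, c a * φ a x) ^ 2 =
      ∑ a ∈ s, ∑ b ∈ s, c a * c b * (bernoulliWeight p x * (φ a x * φ b x)) := fun x => by
    rw [sq, Finset.sum_mul_sum, Finset.mul_sum]
    refine Finset.sum_congr rfl fun a _ => ?_
    rw [Finset.mul_sum]
    exact Finset.sum_congr rfl fun b _ => by ring
  simp only [e]
  rw [Finset.sum_comm, Finset.mul_sum]
  refine Finset.sum_le_sum fun a ha => ?_
  rw [Finset.sum_comm, Finset.sum_eq_single a (fun b hb hba => by rw [← Finset.mul_sum, h a ha b hb hba, mul_zero])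
    (fun h => (h ha).elim), ← Finset.mul_sum, ← sq, mul_comm]
  refine mul_le_mul_of_nonneg_right ?_ (sq_nonneg _)
  calc ∑ x, bernoulliWeight p x * (φ a x * φ a x) ≤ ∑ x : ι → Bool, bernoulliWeight p x * M :=
        Finset.sum_le_sum fun x _ => mul_le_mul_of_nonneg_left (by rw [← sq]; exact hM a x) (wt_nonneg hp0 hp1 x)
    _ = M := by rw [← Finset.sum_mul, sum_wt, one_mul]

theorem g1_four (p : ℝ) {i j k l : ι} (hij : i ≠ j) (h1 : (k, l) ≠ (i, j)) (h2 : (l, k) ≠ (i, j)) :
    ∑ x : ι → Bool, bernoulliWeight p x * (g1_eta p (x i) * g1_eta p (x j) * (g1_eta p (x k) * g1_eta p (x l))) = 0 := by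
  by_cases h : k = i ∨ l = i
  · have hk : k ≠ j := by rintro rfl; rcases h with h | h <;> simp_all
    have hl : l ≠ j := by rintro rfl; rcases h with h | h <;> simp_all
    rw [← g1_flip p j (fun x => g1_eta p (x i) * (g1_eta p (x k) * g1_eta p (x l))) fun x b => by
      simp only [Function.update_of_ne hij, Function.update_of_ne hk, Function.update_of_ne hl]]
    exact Finset.sum_congr rfl fun x _ => by ring
  · push Not at h
    rw [← g1_flip p i (fun x => g1_eta p (x j) * (g1_eta p (x k) * g1_eta p (x l))) fun x b => by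
      simp only [Function.update_of_ne hij.symm, Function.update_of_ne h.1, Function.update_of_ne h.2]]
    exact Finset.sum_congr rfl fun x _ => by ring

theorem g1_var [LinearOrder ι] (hp0 : 0 ≤ p) (hp1 : p ≤ 1) (P : ι → ι → ℝ) :
    ∑ x : ι → Bool, bernoulliWeight p x * (∑ i, ∑ j, P i j * (g1_eta p (x i) * g1_eta p (x j)) -
      4 * p * (1 - p) * ∑ i, P i i) ^ 2 ≤ 144 * ∑ i, ∑ j, P i j ^ 2 := by
  have hM : ∀ (a : ι × ι) (x : ι → Bool), (g1_eta p (x a.1) * g1_eta p (x a.2)) ^ 2 ≤ 16 := fun a x => by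
    rw [mul_pow]
    nlinarith [g1_eta_le hp0 hp1 (x a.1), g1_eta_le hp0 hp1 (x a.2), sq_nonneg (g1_eta p (x a.1)),
      sq_nonneg (g1_eta p (x a.2))]
  have hS : ∀ s : Finset (ι × ι), ∑ a ∈ s, P a.1 a.2 ^ 2 ≤ ∑ i, ∑ j, P i j ^ 2 := fun s => by
    rw [← Fintype.sum_prod_type']
    exact Finset.sum_le_sum_of_subset_of_nonneg (Finset.subset_univ _) fun _ _ _ => sq_nonneg _
  have h1 := g1_orth hp0 hp1 (Finset.univ.filter fun a : ι × ι => a.1 < a.2) _ (fun a => P a.1 a.2) hM
    fun a ha b hb hba => by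
      simp only [Finset.mem_filter, Finset.mem_univ, true_and] at ha hb
      exact g1_four p ha.ne hba fun h => by
        rw [← (Prod.mk.inj h).1, ← (Prod.mk.inj h).2] at ha; exact lt_asymm ha hb
  have h2 := g1_orth hp0 hp1 (Finset.univ.filter fun a : ι × ι => a.2 < a.1) _ (fun a => P a.1 a.2) hM
    fun a ha b hb hba => by
      simp only [Finset.mem_filter, Finset.mem_univ, true_and] at ha hb
      exact g1_four p ha.ne' hba fun h => by
        rw [← (Prod.mk.inj h).1, ← (Prod.mk.inj h).2] at ha; exact lt_asymm ha hb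
  have h3 := g1_orth hp0 hp1 Finset.univ (fun (i : ι) (x : ι → Bool) => g1_eta p (x i))
    (fun i => -(2 * (2 * p - 1)) * P i i) (fun i x => g1_eta_le hp0 hp1 (x i))
    fun a _ b _ hba => g1_flip p a _ fun x c => by rw [Function.update_of_ne hba]
  have h4 : ∑ i, (-(2 * (2 * p - 1)) * P i i) ^ 2 ≤ 4 * ∑ i, ∑ j, P i j ^ 2 := by
    rw [Finset.mul_sum]
    refine Finset.sum_le_sum fun i _ => ?_
    have := Finset.single_le_sum (f := fun j => P i j ^ 2) (fun _ _ => sq_nonneg _) (Finset.mem_univ i)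
    have h5 : (2 * p - 1) ^ 2 ≤ 1 := by nlinarith
    nlinarith [mul_le_mul_of_nonneg_right h5 (sq_nonneg (P i i))]
  have e : ∀ x : ι → Bool, ∑ i, ∑ j, P i j * (g1_eta p (x i) * g1_eta p (x j)) - 4 * p * (1 - p) * ∑ i, P i i =
      ∑ a ∈ Finset.univ.filter fun a : ι × ι => a.1 < a.2, P a.1 a.2 * (g1_eta p (x a.1) * g1_eta p (x a.2)) +
      ∑ a ∈ Finset.univ.filter fun a : ι × ι => a.2 < a.1, P a.1 a.2 * (g1_eta p (x a.1) * g1_eta p (x a.2)) +
      ∑ i, -(2 * (2 * p - 1)) * P i i * g1_eta p (x i) := fun x => by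
    simp only [Finset.sum_filter, Fintype.sum_prod_type, Finset.mul_sum, ← Finset.sum_add_distrib,
      ← Finset.sum_sub_distrib]
    refine Finset.sum_congr rfl fun i _ => ?_
    have h5 : -(2 * (2 * p - 1)) * P i i * g1_eta p (x i) + 4 * p * (1 - p) * P i i =
        ∑ j, if i = j then P i j * (g1_eta p (x i) * g1_eta p (x j)) else 0 := by
      rw [Finset.sum_ite_eq, if_pos (Finset.mem_univ _), g1_eta_sq]
      ring
    rw [sub_eq_iff_eq_add, add_assoc, h5, ← Finset.sum_add_distrib]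
    refine Finset.sum_congr rfl fun j _ => ?_
    rcases lt_trichotomy i j with h | h | h
    · simp [h, h.ne, h.not_gt]
    · simp [h]
    · simp [h, h.ne', h.not_gt]
  simp only [e]
  refine (Finset.sum_le_sum (g := fun x => 3 * (bernoulliWeight p x * _ + bernoulliWeight p x * _ +
    bernoulliWeight p x * _)) fun x _ => ?_).trans (by
      rw [← Finset.mul_sum, Finset.sum_add_distrib, Finset.sum_add_distrib]
      refine (mul_le_mul_of_nonneg_left (add_le_add (add_le_add h1 h2) h3) (by norm_num)).trans ?_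
      linarith [hS (Finset.univ.filter fun a : ι × ι => a.1 < a.2), hS (Finset.univ.filter fun a : ι × ι => a.2 < a.1)])
  rw [← mul_add, ← mul_add, mul_left_comm]
  refine mul_le_mul_of_nonneg_left ?_ (wt_nonneg hp0 hp1 x)
  have key : ∀ A B C : ℝ, (A + B + C) ^ 2 ≤ 3 * (A ^ 2 + B ^ 2 + C ^ 2) := fun A B C => by
    nlinarith [sq_nonneg (A - B), sq_nonneg (A - C), sq_nonneg (B - C)]
  exact key _ _ _

theorem g1_markov (hp0 : 0 ≤ p) (hp1 : p ≤ 1) (E : Set (ι → Bool)) (f : (ι → Bool) → ℝ) {t : ℝ}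
    (hf : ∀ x, 0 ≤ f x) (h : ∀ x ∈ E, t ≤ f x) : Pr p E * t ≤ ∑ x, bernoulliWeight p x * f x := by
  classical
  rw [Pr_eq_sum, Finset.sum_mul]
  refine Finset.sum_le_sum fun x _ => ?_
  split_ifs with hx
  · exact mul_le_mul_of_nonneg_left (h x hx) (wt_nonneg hp0 hp1 x)
  · rw [zero_mul]
    exact mul_nonneg (wt_nonneg hp0 hp1 x) (hf x)

/-- small ball estimate for the distance to a subspace -/
theorem g1_sb [LinearOrder ι] (hp0 : 0 < p) (hp1 : p < 1) (W : Submodule ℝ (EuclideanSpace ℝ ι)) {k : ℕ}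
    (hk : 0 < k) (hW : Module.finrank ℝ W + 1 + k ≤ Fintype.card ι) :
    Pr p {y : ι → Bool | ∃ v ∈ W, ∑ c, ((sg (y c) : ℝ) - v c) ^ 2 ≤ 2 * p * (1 - p) * k} ≤
      36 / ((p * (1 - p)) ^ 2 * k) := by
  set o : EuclideanSpace ℝ ι := WithLp.toLp 2 fun _ => 1 with ho
  set U := (W ⊔ Submodule.span ℝ {o})ᗮ with hU
  have hk' : k ≤ Module.finrank ℝ U := by
    have h1 := Submodule.finrank_add_finrank_orthogonal (W ⊔ Submodule.span ℝ {o})
    have h2 := Submodule.finrank_add_le_finrank_add_finrank W (Submodule.span ℝ {o})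
    have h3 : Module.finrank ℝ (Submodule.span ℝ {o}) ≤ 1 := by
      simpa using finrank_span_le_card (R := ℝ) ({o} : Set (EuclideanSpace ℝ ι))
    rw [finrank_euclideanSpace, ← hU] at h1
    omega
  obtain ⟨u, hu, hu2⟩ : ∃ u : Fin k → EuclideanSpace ℝ ι, Orthonormal ℝ u ∧
      ∀ m, ∀ v ∈ W ⊔ Submodule.span ℝ {o}, inner ℝ (u m) v = 0 :=
    ⟨fun m => (stdOrthonormalBasis ℝ U (Fin.castLE hk' m) : U), U.subtypeₗᵢ.orthonormal_comp_iff.2
      ((stdOrthonormalBasis ℝ U).orthonormal.comp _ (Fin.castLE_injective hk')), fun m v hv =>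
      Submodule.inner_left_of_mem_orthogonal hv (stdOrthonormalBasis ℝ U (Fin.castLE hk' m)).2⟩
  have hu1 : ∀ m m', ∑ i, u m i * u m' i = if m = m' then 1 else 0 := fun m m' => by
    rw [← orthonormal_iff_ite.1 hu m m', PiLp.inner_apply]
    exact Finset.sum_congr rfl fun i _ => by simp [mul_comm]
  have e1 : ∑ i, ∑ m, u m i * u m i = k := by
    rw [Finset.sum_comm]
    simp [hu1]
  have e2 : ∑ i, ∑ j, (∑ m, u m i * u m j) ^ 2 = k := by
    have : ∀ i j, (∑ m, u m i * u m j) ^ 2 = ∑ m, ∑ m', u m i * u m' i * (u m j * u m' j) := fun i j => by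
      rw [sq, Finset.sum_mul_sum]
      exact Finset.sum_congr rfl fun _ _ => Finset.sum_congr rfl fun _ _ => by ring
    rw [← e1]
    refine Finset.sum_congr rfl fun i _ => ?_
    simp only [this]
    rw [Finset.sum_comm]
    refine Finset.sum_congr rfl fun m _ => ?_
    rw [Finset.sum_comm]
    simp [← Finset.mul_sum, hu1]
  have h1 := g1_var hp0.le hp1.le fun i j => ∑ m, u m i * u m j
  rw [e1, e2] at h1
  have hq : 0 < 1 - p := by linarith
  have hk0 : (0 : ℝ) < k := by exact_mod_cast hk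
  have h2 := (g1_markov hp0.le hp1.le {y : ι → Bool | ∃ v ∈ W, ∑ c, ((sg (y c) : ℝ) - v c) ^ 2 ≤ 2 * p * (1 - p) * k}
    _ (t := (2 * p * (1 - p) * k) ^ 2) (fun x => sq_nonneg _) fun y ⟨v, hv, hy⟩ => ?_).trans h1
  · rw [le_div_iff₀ (by positivity)]
    nlinarith
  have h3 := hu.sum_inner_products_le (s := Finset.univ) (WithLp.toLp 2 (fun c => (sg (y c) : ℝ)) - v)
  rw [EuclideanSpace.real_norm_sq_eq] at h3
  have h4 : ∀ m, inner ℝ (u m) (WithLp.toLp 2 (fun c => (sg (y c) : ℝ)) - v) = ∑ i, u m i * g1_eta p (y i) :=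
    fun m => by
      have h5 := hu2 m (v - (2 * p - 1) • o) (Submodule.sub_mem _ (Submodule.mem_sup_left hv)
        (Submodule.mem_sup_right (Submodule.smul_mem _ _ (Submodule.mem_span_singleton_self o))))
      rw [← add_zero (inner ℝ _ _), ← h5, ← inner_add_right, PiLp.inner_apply]
      exact Finset.sum_congr rfl fun i _ => by simp [ho, g1_eta, mul_comm]
  have h5 : ∑ i, ∑ j, (∑ m, u m i * u m j) * (g1_eta p (y i) * g1_eta p (y j)) =
      ∑ m, (∑ i, u m i * g1_eta p (y i)) ^ 2 := by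
    simp only [sq, Finset.sum_mul_sum]
    simp only [Finset.sum_mul]
    rw [Finset.sum_comm (s := (Finset.univ : Finset (Fin k)))]
    refine Finset.sum_congr rfl fun i _ => ?_
    rw [Finset.sum_comm (s := (Finset.univ : Finset (Fin k)))]
    exact Finset.sum_congr rfl fun _ _ => Finset.sum_congr rfl fun _ _ => by ring
  simp only [h4, Real.norm_eq_abs, sq_abs, PiLp.sub_apply] at h3
  rw [h5, sub_sq_comm]
  exact pow_le_pow_left₀ (by positivity) (by linarith) 2

end prob

theorem g1_cols {p : ℝ} (hp0 : 0 < p) (hp1 : p < 1) {n k : ℕ} (hk : 0 < k) (J : Finset (Fin n)) (hJ : J.card = k)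
    (hJ' : ∀ j ∈ J, (j : ℕ) + 3 * k ≤ n) :
    Pr p {ω : Om n | ∀ j ∈ J, g1_Bad (2 * p * (1 - p) * k) ω j} ≤ (36 / ((p * (1 - p)) ^ 2 * k)) ^ k := by
  let r := J.orderEmbOfFin hJ
  have hr : ∀ j, r.toEmbedding j ∉ Jᶜ := fun j => by simp [r]
  let W : Fin k → Om n → Submodule ℝ (EuclideanSpace ℝ (Jᶜ : Finset (Fin n))) := fun j ω =>
    Submodule.span ℝ (Set.range fun i : Finset.Iio (r j) => WithLp.toLp 2 fun c => (sg (ω s(i.1, c.1)) : ℝ))
  have h := fresh hp0.le hp1.le r.toEmbedding Jᶜ hr Set.univ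
    (fun j ω => {y | ∃ v ∈ W j ω, ∑ c, ((sg (y c) : ℝ) - v c) ^ 2 ≤ 2 * p * (1 - p) * k})
    (b := 36 / ((p * (1 - p)) ^ 2 * k)) (by positivity) (fun _ _ _ h => h) fun j ω ω' h => by
      have : W j ω = W j ω' := by
        refine congrArg (fun f => Submodule.span ℝ (Set.range f)) (funext fun i => ?_)
        refine congrArg (WithLp.toLp 2) (funext fun c => ?_)
        rw [h i.1 c.1]
        · rintro ⟨j', h1, h2, -⟩
          exact (Finset.mem_Iio.1 i.2).not_ge ((r.monotone h1).trans_eq h2.symm)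
        · rintro ⟨j', -, h2, -⟩
          exact hr j' (h2 ▸ c.2)
      rw [this]
  rw [Pr_univ, one_mul] at h
  refine le_trans (Pr_mono hp0.le hp1.le fun ω hω => ?_) h
  refine ⟨trivial, fun j => ⟨g1_sb hp0 hp1 _ hk ?_, ?_⟩⟩
  · have h1 := finrank_range_le_card (R := ℝ)
      fun i : Finset.Iio (r j) => (WithLp.toLp 2 fun c => (sg (ω s(i.1, c.1)) : ℝ) : EuclideanSpace ℝ (Jᶜ : Finset (Fin n)))
    have h2 := hJ' (r j) (J.orderEmbOfFin_mem hJ j)
    rw [Fintype.card_coe, Fin.card_Iio] at h1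
    rw [Fintype.card_coe, Finset.card_compl, Fintype.card_fin, hJ]
    change Module.finrank ℝ (W j ω) ≤ _ at h1
    omega
  · obtain ⟨a, ha, h1⟩ := hω (r j) (J.orderEmbOfFin_mem hJ j)
    refine ⟨∑ i : Finset.Iio (r j), a i • WithLp.toLp 2 fun c => (sg (ω s(i.1, c.1)) : ℝ),
      Submodule.sum_mem _ fun i _ => Submodule.smul_mem _ _ (Submodule.subset_span ⟨i, rfl⟩), le_trans ?_ h1⟩
    refine le_of_eq_of_le ?_ (Finset.sum_le_sum_of_subset_of_nonneg (Finset.subset_univ Jᶜ) fun _ _ _ => sq_nonneg _)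
    rw [← Finset.sum_coe_sort Jᶜ]
    refine Finset.sum_congr rfl fun c _ => ?_
    congr 2
    simp only [WithLp.ofLp_sum, Finset.sum_apply, WithLp.ofLp_smul, Pi.smul_apply, smul_eq_mul]
    rw [Finset.sum_coe_sort (Finset.Iio (r j)) fun i => a i * (sg (ω s(i, c.1)) : ℝ)]
    exact Finset.sum_subset (Finset.subset_univ _) fun i _ hi => by rw [ha i (by simpa using hi), zero_mul]

open Classical in
theorem g1_good {n k : ℕ} {θ : ℝ} (hθ : 0 < θ) (hθn : θ ≤ n) (hn : 1 ≤ n) (ω : Om n)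
    (h : ∀ J ∈ (Finset.univ.filter fun j : Fin n => (j : ℕ) + 3 * k ≤ n).powersetCard k, ¬ ∀ j ∈ J, g1_Bad θ ω j) :
    Real.exp (n * Real.log θ - 16 * k * Real.log n) ≤
      (rm (Mx ω) * rm (Mx ω) + ((n : ℝ) ^ 3)⁻¹ • (1 : Matrix (Fin n) (Fin n) ℝ)).det := by
  have hn' : (1 : ℝ) ≤ n := by exact_mod_cast hn
  have hl := Real.log_nonneg hn'
  have h1 : (Finset.univ.filter fun j : Fin n => g1_Bad θ ω j ∧ (j : ℕ) + 3 * k ≤ n).card ≤ k := by
    by_contra h2
    obtain ⟨J, hJ, hc⟩ := Finset.exists_subset_card_eq (not_le.1 h2).le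
    exact h J (Finset.mem_powersetCard.2 ⟨fun j hj => by simpa using (Finset.mem_filter.1 (hJ hj)).2.2, hc⟩)
      fun j hj => (Finset.mem_filter.1 (hJ hj)).2.1
  have h2 : (Finset.univ.filter fun j : Fin n => ¬ (j : ℕ) + 3 * k ≤ n).card ≤ 3 * k := by
    refine le_of_le_of_eq (Finset.card_le_card_of_injOn (fun j => n - 1 - (j : ℕ)) (t := Finset.range (3 * k))
      (fun j hj => ?_) fun j _ j' _ h => Fin.ext ?_) (Finset.card_range _)
    · have := j.2
      simp only [Finset.coe_filter, Finset.mem_univ, true_and, Set.mem_ofPred_eq, Finset.coe_range, Set.mem_Iio] at hj ⊢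
      omega
    · have := j.2
      have := j'.2
      simp only at h
      omega
  have h3 : (Finset.univ.filter fun j : Fin n => g1_Bad θ ω j).card ≤ 4 * k := by
    refine (Finset.card_le_card fun j hj => ?_).trans ((Finset.card_union_le _ _).trans
      ((add_le_add h1 h2).trans_eq (by ring)))
    simp only [Finset.mem_union, Finset.mem_filter, Finset.mem_univ, true_and] at hj ⊢
    tauto
  have h3' : ((Finset.univ.filter fun j : Fin n => g1_Bad θ ω j).card : ℝ) ≤ 4 * k := by exact_mod_cast h3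
  refine le_trans ?_ (g1_det hθ.le (by positivity) ω)
  calc Real.exp (n * Real.log θ - 16 * k * Real.log n)
      ≤ Real.exp (∑ j : Fin n, (Real.log θ - if g1_Bad θ ω j then 4 * Real.log n else 0)) := by
        rw [Finset.sum_sub_distrib, ← Finset.sum_filter]
        simp only [Finset.sum_const, Finset.card_univ, Fintype.card_fin, nsmul_eq_mul]
        exact Real.exp_le_exp.2 (by nlinarith)
    _ ≤ _ := by
        rw [Real.exp_sum]
        refine Finset.prod_le_prod (fun _ _ => (Real.exp_pos _).le) fun j _ => ?_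
        split_ifs
        · rw [← Real.exp_log (show 0 < ((n : ℝ) ^ 3)⁻¹ by positivity), Real.log_inv, Real.log_pow]
          exact Real.exp_le_exp.2 (by push_cast; linarith [Real.log_le_log hθ hθn])
        · rw [sub_zero, Real.exp_log hθ]

theorem stG1 : StG1 := by
  intro p δ C hp0 hp1 hδ
  have hq : 0 < 1 - p := by linarith
  obtain ⟨d, hd0, hd1, hdδ⟩ : ∃ d : ℝ, 0 < d ∧ d ≤ 1 ∧ 32 * d ≤ δ :=
    ⟨min 1 (δ / 32), by positivity, min_le_left _ _, by linarith [min_le_right 1 (δ / 32)]⟩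
  set M := 2 * (|C| + 1) / d with hM
  have hT := tendsto_natCast_atTop_atTop (R := ℝ)
  filter_upwards [hT.eventually_ge_atTop (2 / d), hT.eventually_ge_atTop (72 * Real.exp M / ((p * (1 - p)) ^ 2 * d)),
    (Real.tendsto_log_atTop.comp hT).eventually_ge_atTop (-2 * Real.log (p * (1 - p) * d) / δ),
    eventually_ge_atTop 1] with n h1 h2 h3 hn
  have hn' : (1 : ℝ) ≤ n := by exact_mod_cast hn
  set k := ⌊d * n⌋₊ with hk
  have k1 : (k : ℝ) ≤ d * n := Nat.floor_le (by positivity)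
  have k2 : d * n / 2 ≤ k := by
    rw [div_le_iff₀ hd0] at h1
    linarith [Nat.lt_floor_add_one (d * n)]
  have k0 : (0 : ℝ) < k := lt_of_lt_of_le (by positivity) k2
  have hθ : 0 < 2 * p * (1 - p) * k := by positivity
  have hθn : 2 * p * (1 - p) * k ≤ n := by
    have : 2 * p * (1 - p) ≤ 1 := by nlinarith [sq_nonneg (p - 1 / 2)]
    nlinarith [mul_le_mul_of_nonneg_right hd1 (n.cast_nonneg (α := ℝ))]
  have hl := Real.log_nonneg hn'
  set s := (Finset.univ.filter fun j : Fin n => (j : ℕ) + 3 * k ≤ n).powersetCard k with hs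
  calc Pr p (BadG n δ) ≤ Pr p {ω | ∃ J ∈ s, ω ∈ {ω : Om n | ∀ j ∈ J, g1_Bad (2 * p * (1 - p) * k) ω j}} := by
        refine Pr_mono hp0.le hp1.le fun ω hω => ?_
        by_contra h
        refine (lt_of_le_of_lt (g1_good hθ hθn hn ω fun J hJ h' => h ⟨J, hJ, h'⟩) hω).not_ge (Real.exp_le_exp.2 ?_)
        have h4 : Real.log (p * (1 - p) * d) + Real.log n ≤ Real.log (2 * p * (1 - p) * k) := by
          rw [← Real.log_mul (by positivity) (by positivity)]
          exact Real.log_le_log (by positivity) (by nlinarith [mul_le_mul_of_nonneg_left k2 (mul_pos hp0 hq).le])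
        rw [Function.comp, div_le_iff₀ hδ] at h3
        have h5 := mul_le_mul_of_nonneg_left h4 (n.cast_nonneg (α := ℝ))
        have h6 := mul_le_mul_of_nonneg_left h3 (n.cast_nonneg (α := ℝ))
        have h7 := mul_le_mul_of_nonneg_right k1 hl
        have h8 := mul_le_mul_of_nonneg_right hdδ (mul_nonneg (n.cast_nonneg (α := ℝ)) hl)
        rw [Lg]
        linarith
    _ ≤ s.card * (36 / ((p * (1 - p)) ^ 2 * k)) ^ k := Pr_exists_le hp0.le hp1.le s _ fun J hJ =>
        g1_cols hp0 hp1 (by exact_mod_cast k0) J (Finset.mem_powersetCard.1 hJ).2 fun j hj =>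
          (Finset.mem_filter.1 ((Finset.mem_powersetCard.1 hJ).1 hj)).2
    _ ≤ Real.exp 1 ^ n * Real.exp (-M) ^ k := by
        gcongr
        · have h4 : s.card ≤ 2 ^ n := by simpa using Finset.card_le_univ s
          calc (s.card : ℝ) ≤ 2 ^ n := by exact_mod_cast h4
            _ ≤ _ := pow_le_pow_left₀ zero_le_two (by linarith [Real.add_one_le_exp (1 : ℝ)]) n
        · rw [div_le_iff₀ (by positivity)] at h2
          rw [Real.exp_neg, div_le_iff₀ (by positivity), inv_mul_eq_div, le_div_iff₀ (Real.exp_pos _)]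
          nlinarith [mul_le_mul_of_nonneg_left k2 (sq_nonneg (p * (1 - p)))]
    _ ≤ Real.exp (-C * n) := by
        rw [← Real.exp_nat_mul, ← Real.exp_nat_mul, ← Real.exp_add]
        refine Real.exp_le_exp.2 ?_
        have h4 : M * (d * n / 2) = (|C| + 1) * n := by rw [hM]; field_simp
        have h5 := mul_le_mul_of_nonneg_left k2 (show 0 ≤ M by positivity)
        nlinarith [mul_le_mul_of_nonneg_right (le_abs_self C) (n.cast_nonneg (α := ℝ))]

end Crest.Agent.R152
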