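import Crest.Agent.R152.Defs

/-! Row 152: statements of the blocks.  Blueprint: `notes152/H33.md`. -/

set_option autoImplicit false
open Matrix Filter

namespace Crest.Agent.R152

/-- Hermite basis: a lattice with slopes `≥ s` and small covolume has a short basis. -/
def StHB : Prop :=
  ∀ d : ℕ, ∃ C : ℝ, 0 < C ∧ ∀ (Q : Matrix (Fin d) (Fin d) ℝ) (s T : ℝ), 0 < s → 0 < T → Q.PosDef →
    Slope Q s → (∀ i < d, Q.det ≤ s ^ (2 * i) * T ^ (2 * (d - i))) →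
    ∃ U : Matrix (Fin d) (Fin d) ℤ, IsUnit U.det ∧ ∀ j, ((rm U)ᵀ * Q * rm U) j j ≤ C * T ^ 2

/-- cosh lemma -/
def StCosh : Prop :=
  ∀ (d : ℕ) (Q : Matrix (Fin d) (Fin d) ℝ), Q.PosDef → ∀ (θ : Fin d → ℝ) (Y : Finset (Fin d → ℤ)),
    ∑ y ∈ Y, Real.exp (-(qf Q (θ + rc y)) / 2) ≤
      Real.sqrt (2 * Real.pi) ^ d / Real.sqrt Q.det * Real.exp (gq Q / 2)

/-- trace bound for the mean square distance -/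
def StGtr : Prop :=
  ∀ (d : ℕ) (Q : Matrix (Fin d) (Fin d) ℝ), Q.PosDef → gq Q ≤ Q.trace / 12

/-- mean square covering radius of the dual of a lattice with slopes `≥ 1` (uses S0390) -/
def StGle : Prop :=
  ∀ (d : ℕ) (Q : Matrix (Fin d) (Fin d) ℝ), Q.PosDef → Slope Q 1 → gq Q⁻¹ ≤ d

/-- unimodular invariance -/
def StGinv : Prop :=
  ∀ (d : ℕ) (Q : Matrix (Fin d) (Fin d) ℝ), Q.PosDef → ∀ U : Matrix (Fin d) (Fin d) ℤ,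
    IsUnit U.det → gq ((rm U)ᵀ * Q * rm U) = gq Q

/-- sub-additivity along a sublattice -/
def StGblock : Prop :=
  ∀ (k m : ℕ) (A : Matrix (Fin k) (Fin k) ℝ) (S : Matrix (Fin m) (Fin m) ℝ)
    (C : Matrix (Fin m) (Fin k) ℝ) (Q : Matrix (Fin (k + m)) (Fin (k + m)) ℝ),
    A.PosDef → S.PosDef → Q.PosDef →
    (∀ x : Fin (k + m) → ℝ, qf Q x = qf A (fun i => x (Fin.castAdd m i)) +
      qf S ((fun j => x (Fin.natAdd k j)) - C *ᵥ (fun i => x (Fin.castAdd m i)))) →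
    gq Q ≤ gq A + gq S

/-- at an interior maximum the Voronoi cell is isotropic; S0390 -/
def StGcrit : Prop :=
  ∀ (d : ℕ) (Q : Matrix (Fin d) (Fin d) ℝ), 1 ≤ d → Q.PosDef → Q.det = 1 →
    (∀ H : Matrix (Fin d) (Fin d) ℝ, H.IsSymm → ∀ᶠ e : ℝ in nhdsWithin 0 (Set.Ioi 0),
      gq (Q + e • H) ≤ gq Q * (Q + e • H).det ^ (1 / (d : ℝ))) → gq Q ≤ d

/-- weak reverse Minkowski -/
def StWRM : Prop :=
  ∀ (E : Type) [NormedAddCommGroup E] [InnerProductSpace ℝ E] [FiniteDimensional ℝ E]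
    (L : AddSubgroup E) (s R : ℝ), 0 < s → 0 ≤ R →
    (∀ (k : ℕ) (y : Fin k → E), (∀ i, y i ∈ L) → LinearIndependent ℝ y →
      s ^ (2 * k) ≤ (Matrix.gram ℝ y).det) →
    ∀ Y : Finset E, (∀ y ∈ Y, y ∈ L ∧ ‖y‖ ≤ R) →
      (Y.card : ℝ) ≤ Real.exp (13 * R * Real.sqrt (Module.finrank ℝ E) / s)

/-- structure lemma -/
def StSL : Prop :=
  ∀ ε δ γ K : ℝ, 0 < ε → 0 < δ → 0 < γ → 0 < K → ∀ᶠ n : ℕ in atTop,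
    ∃ F : Finset (Fin ⌊ε * n⌋₊ → Fin n → ℤ), (F.card : ℝ) ≤ Real.exp (δ * (n : ℝ) ^ 2) ∧
      (∀ Z ∈ F, GoodZ Z) ∧
      ∀ G : AddSubgroup (Fin n → T1), Finite G →
        Real.exp (ε * n) ≤ ((ann (G : Set (Fin n → T1))).ncard : ℝ) →
        ∃ Z ∈ F, ∃ G1 : Finset (Fin n → T1), (∀ u ∈ G1, u ∈ G) ∧
          (Nat.card G : ℝ) ≤ Real.exp (γ * Lg n) * G1.card ∧
          ∀ u ∈ G1, ∀ u' ∈ G1, ∀ k, ‖pr (Z k) (u - u')‖ ≤ (n : ℝ) ^ (-K)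

/-- conditioning -/
def StC : Prop :=
  ∀ p : ℝ, 0 < p → p < 1 → ∀ (n t : ℕ) (Z : Fin t → Fin n → ℤ), GoodZ Z →
    ∀ J : Finset (Fin n), J.card ≤ t → ∀ s : ℕ,
      Pr p {ω : Om n | ¬ ∃ I : Finset (Fin n), I.card ≤ s ∧ CondI Z J (Mx ω) I} ≤
        4 ^ n * pm p ^ ((s / 2) ^ 2)

/-- little small torsion -/
def StR : Prop :=
  ∀ p δ K C : ℝ, 0 < p → p < 1 → 0 < δ → 0 < K → ∀ᶠ n : ℕ in atTop,
    Pr p (BadR n δ K) ≤ Real.exp (-C * n)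

/-- entropy of a sum of `n` samples against a Gaussian weight -/
def StE : Prop :=
  ∀ p η : ℝ, 0 < p → p < 1 → 0 < η → η < -Real.log (pm p) → ∃ C : ℝ, ∀ n : ℕ, 1 ≤ n →
    ∀ (A : Set (Fin n → Bool)) (θ a Bd : ℝ) (Q : Matrix (Fin n) (Fin n) ℝ) (S : Set (Fin n → ℤ)),
      Real.exp (-θ * n) ≤ Pr p A → Q.PosSemidef → (∀ x ∈ A, qf Q (rc (sv x)) ≤ a) →
      (∀ x : Fin n → Fin n → Bool, (∀ k, x k ∈ A) → (∑ k, sv (x k)) ∈ S) →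
      (∀ (c : Fin n → ℝ) (S' : Finset (Fin n → ℤ)), (∀ s ∈ S', s ∈ S) →
        ∑ s ∈ S', Real.exp (-(qf Q (rc s - c)) / 2) ≤ Bd) →
      (1 - θ / (-Real.log (pm p) - η)) * (Lg n / 2) - C * n ≤ n * a / 2 + Real.log Bd

/-- Gaussian sum over finitely many classes modulo `B ℤ^n` -/
def StG : Prop :=
  ∀ (n : ℕ) (B : Matrix (Fin n) (Fin n) ℤ), B.det ≠ 0 → ∀ Q : Matrix (Fin n) (Fin n) ℝ, Q.PosDef →
    ∀ (R : Finset (Fin n → ℤ)) (c : Fin n → ℝ) (S' : Finset (Fin n → ℤ)),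
      (∀ s ∈ S', ∃ r ∈ R, ∃ a : Fin n → ℤ, s = r + B *ᵥ a) →
      ∑ s ∈ S', Real.exp (-(qf Q (rc s - c)) / 2) ≤
        R.card * (Real.sqrt (2 * Real.pi) ^ n / Real.sqrt ((rm B)ᵀ * Q * rm B).det *
          Real.exp (((rm B)ᵀ * Q * rm B).trace / 24))

/-- approximate annihilators of many dual points are small -/
def StL3 : Prop :=
  ∀ p c : ℝ, 0 < p → p < 1 → 0 < c → ∃ θ : ℝ, 0 < θ ∧ ∀ᶠ n : ℕ in atTop, ∀ ω : Om n,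
    (Mx ω).det ≠ 0 → ∀ G : Finset (Fin n → T1), (∀ g ∈ G, g ∈ Td (Mx ω)) →
    Real.exp (c * Lg n) ≤ G.card → ∀ (A : Set (Fin n → Bool)) (y0 : Fin n → Bool),
    (∀ x ∈ A, ∀ g ∈ G, ‖pr (sv x - sv y0) g‖ ≤ 1 / (12 * n)) → Pr p A ≤ Real.exp (-θ * n)

/-- rationality lemma -/
def StRat : Prop :=
  ∀ (G : Type) [AddCommGroup G] [DecidableEq G] (Bo : ℝ → Finset G) (χ : G →+ T1) (N : ℕ)
    (τ r η : ℝ), 1 ≤ N → 0 ≤ τ → 0 ≤ r → 0 ≤ η → 4 * (N : ℝ) ^ 5 * η < 1 →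
    (∀ a, 0 ≤ a → (0 : G) ∈ Bo a) → (∀ a b u v, u ∈ Bo a → v ∈ Bo b → u + v ∈ Bo (a + b)) →
    (∀ a b, a ≤ b → Bo a ⊆ Bo b) →
    (Bo (τ + r)).card ≤ 2 * (Bo τ).card →
    2 * (Bo τ).card ≤ N * ((Bo τ).filter (fun g => ‖χ g‖ ≤ η)).card →
    ∃ D : ℕ, 1 ≤ D ∧ D ≤ N ∧ ∀ g ∈ Bo (r / (N : ℝ) ^ 3), ‖D • χ g‖ ≤ 2 * N * η

/-- Theorem L -/
def StL : Prop :=
  ∀ p c ε C : ℝ, 0 < p → p < 1 → 0 < c → 0 < ε → ∀ᶠ n : ℕ in atTop,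
    Pr p (BadL n c ε) ≤ Real.exp (-C * n)

/-- regularised determinant -/
def StG1 : Prop :=
  ∀ p δ C : ℝ, 0 < p → p < 1 → 0 < δ → ∀ᶠ n : ℕ in atTop, Pr p (BadG n δ) ≤ Real.exp (-C * n)

/-- small families of divisors -/
def StDiv : Prop :=
  ∀ η : ℝ, 0 < η → ∃ c0 : ℝ, 0 < c0 ∧ ∀ c : ℝ, 0 < c → c ≤ c0 → ∀ᶠ n : ℕ in atTop,
    ∀ m : ℕ, 1 ≤ m → (m : ℝ) ≤ Real.exp (Lg n) → ∃ D : Finset ℕ,
      (D.card : ℝ) ≤ Real.exp (η * n) ∧ (∀ k ∈ D, k ∣ m ∧ Real.exp (c * Lg n) ≤ (k : ℝ)) ∧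
      ∀ k : ℕ, k ∣ m → Real.exp (2 * c * Lg n) ≤ (k : ℝ) → ∃ k0 ∈ D, k0 ∣ k

def StY1 : Prop :=
  ∀ c ε : ℝ, 0 < c → 0 < ε → ∃ c' ε' : ℝ, 0 < c' ∧ 0 < ε' ∧ ∀ᶠ n : ℕ in atTop, ∀ ω : Om n,
    (Mx ω).det ≠ 0 → ω ∉ BadL n c' ε' → ((Y1 (Mx ω) c).ncard : ℝ) ≤ Real.exp (ε * n)

def StY2 : Prop :=
  ∀ ε : ℝ, 0 < ε → ∃ c c' ε' δ : ℝ, 0 < c ∧ 0 < c' ∧ 0 < ε' ∧ 0 < δ ∧ ∀ᶠ n : ℕ in atTop,
    ∀ ω : Om n, (Mx ω).det ≠ 0 → ω ∉ BadL n c' ε' → ω ∉ BadG n δ →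
      ((Y2 (Mx ω) c).ncard : ℝ) ≤ Real.exp (ε * n)

/-- sparse kernel vectors modulo primes -/
def StSp : Prop :=
  ∀ p ε : ℝ, 0 < p → p < 1 → 0 < ε → ∃ β : ℝ, 0 < β ∧ ∀ᶠ n : ℕ in atTop,
    Pr p (BadS n β) ≤ (rho p + ε) ^ n

/-- corank one -/
def StOne : Prop :=
  ∀ p ε : ℝ, 0 < p → p < 1 → 0 < ε → ∃ C : ℝ, ∀ n : ℕ, Pr p (OneEv n) ≤ C * (rho p + ε) ^ n

/-- the theorem -/
def StMain : Prop :=
  ∀ p : ℝ, 0 < p → p < 1 →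
    Tendsto (fun n : ℕ => Crest.ProbabilityR.SignMatrix.singularProb n p ^ (1 / (n : ℝ))) atTop
      (nhds (rho p))

end Crest.Agent.R152
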