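/-
R152/SLLat (helper92): covolumes of sublattices of `ℤ^n`, submodularity, Hermite reduction.
-/
import Crest.Agent.R152.SLGram

set_option autoImplicit false
set_option linter.unusedSectionVars false

namespace Crest.Agent.R152.SL

open Matrix Module
open scoped InnerProductSpace

abbrev Zn (n : ℕ) := Fin n → ℤ
abbrev En (n : ℕ) := EuclideanSpace ℝ (Fin n)

variable {n : ℕ}

/-- integer vectors as Euclidean vectors. -/
def cz : Zn n →ₗ[ℤ] En n where
  toFun y := WithLp.toLp 2 fun i => (y i : ℝ)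
  map_add' x y := by ext i; simp
  map_smul' c x := by ext i; simp

@[simp] theorem cz_apply (y : Zn n) (i : Fin n) : cz y i = (y i : ℝ) := rfl

theorem cz_inj {y : Zn n} (h : cz y = 0) : y = 0 := by
  funext i
  have := congrArg (fun v : En n => v i) h
  simpa using this

theorem cz_smul (c : ℤ) (y : Zn n) : cz (c • y) = (c : ℝ) • cz y := by
  ext i; simp

theorem cz_sum {ι : Type*} [Fintype ι] (c : ι → ℤ) (w : ι → Zn n) :
    cz (∑ i, c i • w i) = ∑ i, (c i : ℝ) • cz (w i) := by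
  rw [map_sum]; simp only [cz_smul]

theorem inner_cz (x y : Zn n) : ⟪cz x, cz y⟫_ℝ = ((x ⬝ᵥ y : ℤ) : ℝ) := by
  simp [PiLp.inner_apply, dotProduct, mul_comm]

variable {ι κ : Type*} [Fintype ι] [DecidableEq ι] [Fintype κ] [DecidableEq κ]

theorem gd_int (w : ι → Zn n) :
    gd (fun i => cz (w i)) = (((Matrix.of fun i j => w i ⬝ᵥ w j).det : ℤ) : ℝ) := by
  unfold gd
  rw [Int.cast_det]
  congr 1
  ext i j
  simp [inner_cz]

theorem li_iff (w : ι → Zn n) : LinearIndependent ℝ (fun i => cz (w i)) ↔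
    ∀ c : ι → ℤ, ∑ i, c i • w i = 0 → ∀ i, c i = 0 := by
  constructor
  · intro h c hc i
    have := Fintype.linearIndependent_iff.1 h (fun i => (c i : ℝ)) (by rw [← cz_sum, hc, map_zero]) i
    exact_mod_cast this
  · intro h
    rw [← gd_ne_zero, gd_int]
    intro h0
    have h0' : (Matrix.of fun i j => w i ⬝ᵥ w j).det = 0 := by exact_mod_cast h0
    obtain ⟨c, hc0, hc⟩ := Matrix.exists_mulVec_eq_zero_iff.2 h0'
    apply hc0
    funext i
    refine h c ?_ i
    have h1 : (∑ i, c i • w i) ⬝ᵥ (∑ i, c i • w i) = 0 := by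
      have : ∀ i, w i ⬝ᵥ (∑ j, c j • w j) = 0 := fun i => by
        have := congrFun hc i
        simp only [mulVec, dotProduct, of_apply, Pi.zero_apply] at this
        rw [dotProduct_sum]
        simp only [dotProduct_smul, smul_eq_mul]
        rw [← this]
        exact Finset.sum_congr rfl fun j _ => by simp [dotProduct, mul_comm]
      rw [sum_dotProduct]
      simp only [smul_dotProduct, this, smul_zero, Finset.sum_const_zero]
    exact dotProduct_self_eq_zero.1 h1

theorem one_le_gd {w : ι → Zn n} (h : LinearIndependent ℝ (fun i => cz (w i))) :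
    1 ≤ gd (fun i => cz (w i)) := by
  have := gd_pos h
  rw [gd_int] at this ⊢
  have : 0 < (Matrix.of fun i j => w i ⬝ᵥ w j).det := by exact_mod_cast this
  exact_mod_cast this

theorem gd_le_of_comb {v w : ι → Zn n} (h : ∀ i, ∃ c : ι → ℤ, w i = ∑ j, c j • v j)
    (hw : LinearIndependent ℝ (fun i => cz (w i))) :
    gd (fun i => cz (v i)) ≤ gd (fun i => cz (w i)) := by
  choose C hC using h
  have h1 : (fun i => cz (w i)) = fun i => ∑ j, ((Matrix.of C).map (Int.cast : ℤ → ℝ)) i j • cz (v j) := by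
    funext i; rw [hC i, cz_sum]; simp
  have h2 := gd_ne_zero.2 hw
  rw [h1, gd_lin] at h2 ⊢
  have h3 : ((Matrix.of C).map (Int.cast : ℤ → ℝ)).det = ((Matrix.of C).det : ℤ) := by
    rw [Int.cast_det]
  rw [h3] at h2 ⊢
  have h4 : (Matrix.of C).det ≠ 0 := by
    intro h; apply h2; simp [h]
  have h5 : (1 : ℝ) ≤ (((Matrix.of C).det : ℤ) : ℝ) ^ 2 := by
    have : 1 ≤ (Matrix.of C).det ^ 2 := by
      have := Int.one_le_abs h4
      nlinarith [sq_abs (Matrix.of C).det]
    exact_mod_cast this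
  nlinarith [gd_nonneg (fun i => cz (v i))]

/-- real span of a sublattice. -/
def rsp (M : Submodule ℤ (Zn n)) : Submodule ℝ (En n) := Submodule.span ℝ (cz '' (M : Set (Zn n)))
/-- rank. -/
noncomputable def rk (M : Submodule ℤ (Zn n)) : ℕ := finrank ℤ M
/-- a basis. -/
noncomputable def bs (M : Submodule ℤ (Zn n)) (i : Fin (rk M)) : Zn n := (Module.finBasis ℤ M i : Zn n)
/-- squared covolume. -/
noncomputable def H (M : Submodule ℤ (Zn n)) : ℝ := gd fun i => cz (bs M i)
/-- integer points of a subspace. -/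
def sr (U : Submodule ℝ (En n)) : Submodule ℤ (Zn n) := (U.restrictScalars ℤ).comap cz
/-- saturated sublattice. -/
def Sat (M : Submodule ℤ (Zn n)) : Prop := ∀ (c : ℤ) (y : Zn n), c ≠ 0 → c • y ∈ M → y ∈ M

theorem mem_sr {U : Submodule ℝ (En n)} {y : Zn n} : y ∈ sr U ↔ cz y ∈ U := Iff.rfl

theorem sat_sr (U : Submodule ℝ (En n)) : Sat (sr U) := by
  intro c y hc h
  rw [mem_sr, cz_smul] at h
  have hc' : (c : ℝ) ≠ 0 := by exact_mod_cast hc
  exact (U.smul_mem_iff hc').1 h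

theorem Sat.inf {M M' : Submodule ℤ (Zn n)} (h : Sat M) (h' : Sat M') : Sat (M ⊓ M') :=
  fun c y hc hy => ⟨h c y hc hy.1, h' c y hc hy.2⟩

theorem sat_top : Sat (⊤ : Submodule ℤ (Zn n)) := fun _ _ _ _ => trivial

theorem cz_mem_rsp {M : Submodule ℤ (Zn n)} {y : Zn n} (h : y ∈ M) : cz y ∈ rsp M :=
  Submodule.subset_span ⟨y, h, rfl⟩

theorem rsp_le {M : Submodule ℤ (Zn n)} {U : Submodule ℝ (En n)} (h : ∀ y ∈ M, cz y ∈ U) :
    rsp M ≤ U := Submodule.span_le.2 (by rintro _ ⟨y, hy, rfl⟩; exact h y hy)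

theorem rsp_mono {M M' : Submodule ℤ (Zn n)} (h : M ≤ M') : rsp M ≤ rsp M' :=
  rsp_le fun _ hy => cz_mem_rsp (h hy)

theorem rsp_sr_le (U : Submodule ℝ (En n)) : rsp (sr U) ≤ U := rsp_le fun _ h => h

theorem bs_mem (M : Submodule ℤ (Zn n)) (i : Fin (rk M)) : bs M i ∈ M := Subtype.prop _

theorem bs_comb {M : Submodule ℤ (Zn n)} {y : Zn n} (h : y ∈ M) :
    ∃ c : Fin (rk M) → ℤ, y = ∑ i, c i • bs M i := by
  refine ⟨fun i => (Module.finBasis ℤ M).repr ⟨y, h⟩ i, ?_⟩
  have := congrArg Subtype.val ((Module.finBasis ℤ M).sum_repr ⟨y, h⟩)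
  simp only [Submodule.coe_sum, Submodule.coe_smul_of_tower] at this
  exact this.symm

theorem basis_li {M : Submodule ℤ (Zn n)} (b : Basis ι ℤ M) :
    LinearIndependent ℝ (fun i => cz (b i : Zn n)) := by
  rw [li_iff]
  intro c hc
  refine Fintype.linearIndependent_iff.1 b.linearIndependent c ?_
  apply Subtype.ext
  simpa using hc

theorem bs_li (M : Submodule ℤ (Zn n)) : LinearIndependent ℝ (fun i => cz (bs M i)) :=
  basis_li (Module.finBasis ℤ M)

theorem rsp_eq_of_comb {M : Submodule ℤ (Zn n)} {w : ι → Zn n} (h1 : ∀ i, w i ∈ M)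
    (h2 : ∀ y ∈ M, ∃ c : ι → ℤ, y = ∑ i, c i • w i) :
    rsp M = Submodule.span ℝ (Set.range fun i => cz (w i)) := by
  apply le_antisymm
  · refine rsp_le fun y hy => ?_
    obtain ⟨c, rfl⟩ := h2 y hy
    rw [cz_sum]
    exact Submodule.sum_mem _ fun i _ => Submodule.smul_mem _ _
      (Submodule.subset_span (Set.mem_range_self i))
  · exact Submodule.span_le.2 (by rintro _ ⟨i, rfl⟩; exact cz_mem_rsp (h1 i))

theorem rsp_eq (M : Submodule ℤ (Zn n)) : rsp M = Submodule.span ℝ (Set.range fun i => cz (bs M i)) :=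
  rsp_eq_of_comb (bs_mem M) fun _ hy => bs_comb hy

theorem finrank_rsp (M : Submodule ℤ (Zn n)) : finrank ℝ (rsp M) = rk M := by
  rw [rsp_eq, finrank_span_eq_card (bs_li M), Fintype.card_fin]

theorem rk_le (M : Submodule ℤ (Zn n)) : rk M ≤ n := by
  rw [← finrank_rsp]
  exact (Submodule.finrank_le _).trans (by simp)

theorem one_le_H (M : Submodule ℤ (Zn n)) : 1 ≤ H M := one_le_gd (bs_li M)

theorem H_pos (M : Submodule ℤ (Zn n)) : 0 < H M := lt_of_lt_of_le one_pos (one_le_H M)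

theorem H_nat (M : Submodule ℤ (Zn n)) : ∃ m : ℕ, H M = m := by
  have h := one_le_H M
  unfold H at *
  rw [gd_int] at *
  refine ⟨((Matrix.of fun i j => bs M i ⬝ᵥ bs M j).det).toNat, ?_⟩
  have : 0 ≤ (Matrix.of fun i j => bs M i ⬝ᵥ bs M j).det := by
    have : (1 : ℤ) ≤ (Matrix.of fun i j => bs M i ⬝ᵥ bs M j).det := by exact_mod_cast h
    omega
  rw [← Int.cast_natCast, Int.toNat_of_nonneg this]

theorem H_le {M : Submodule ℤ (Zn n)} {w : ι → Zn n} (h1 : ∀ i, w i ∈ M)
    (hc : Fintype.card ι = rk M) (hw : LinearIndependent ℝ (fun i => cz (w i))) :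
    H M ≤ gd fun i => cz (w i) := by
  let e : Fin (rk M) ≃ ι := (Fintype.equivFinOfCardEq hc).symm
  rw [← gd_equiv e]
  exact gd_le_of_comb (w := fun i => w (e i)) (fun i => bs_comb (h1 _)) (hw.comp e e.injective)

theorem H_eq {M : Submodule ℤ (Zn n)} {w : ι → Zn n} (h1 : ∀ i, w i ∈ M)
    (h2 : ∀ y ∈ M, ∃ c : ι → ℤ, y = ∑ i, c i • w i) (hw : LinearIndependent ℝ (fun i => cz (w i))) :
    Fintype.card ι = rk M ∧ H M = gd fun i => cz (w i) := by
  have hc : Fintype.card ι = rk M := by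
    rw [← finrank_rsp, rsp_eq_of_comb h1 h2, finrank_span_eq_card hw]
  refine ⟨hc, le_antisymm (H_le h1 hc hw) ?_⟩
  let e : ι ≃ Fin (rk M) := Fintype.equivFinOfCardEq hc
  unfold H
  rw [← gd_equiv e]
  exact gd_le_of_comb (w := fun i => bs M (e i)) (fun i => h2 _ (bs_mem M _))
    ((bs_li M).comp e e.injective)

theorem gd_bs_elim (N : Submodule ℤ (Zn n)) (y : κ → Zn n) :
    gd (fun a => cz (Sum.elim (bs N) y a)) = H N * gd fun j => pr (rsp N) (cz (y j)) := by
  have : (fun a => cz (Sum.elim (bs N) y a)) =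
      Sum.elim (fun i => cz (bs N i)) (fun j => cz (y j)) := by
    funext a; rcases a with i | j <;> rfl
  rw [this, gd_elim, ← rsp_eq]; rfl

theorem elim_li {N : Submodule ℤ (Zn n)} {y : κ → Zn n}
    (hy : LinearIndependent ℝ fun j => pr (rsp N) (cz (y j))) :
    LinearIndependent ℝ (fun a => cz (Sum.elim (bs N) y a)) := by
  rw [← gd_ne_zero, gd_bs_elim]
  exact mul_ne_zero (H_pos N).ne' (gd_ne_zero.2 hy)

theorem one_le_H_mul {N : Submodule ℤ (Zn n)} {y : κ → Zn n}
    (hy : LinearIndependent ℝ fun j => pr (rsp N) (cz (y j))) :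
    1 ≤ H N * gd fun j => pr (rsp N) (cz (y j)) := by
  rw [← gd_bs_elim]; exact one_le_gd (elim_li hy)

theorem span_elim (N : Submodule ℤ (Zn n)) (y : κ → Zn n) :
    Submodule.span ℝ (Set.range fun a => cz (Sum.elim (bs N) y a)) =
      rsp N ⊔ Submodule.span ℝ (Set.range fun j => cz (y j)) := by
  have : (fun a => cz (Sum.elim (bs N) y a)) =
      Sum.elim (fun i => cz (bs N i)) (fun j => cz (y j)) := by
    funext a; rcases a with i | j <;> rfl
  rw [this, Set.Sum.elim_range, Submodule.span_union, ← rsp_eq]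

/-- upper bound for the covolume of an extension. -/
theorem H_up {N M : Submodule ℤ (Zn n)} {y : κ → Zn n}
    (hy : LinearIndependent ℝ fun j => pr (rsp N) (cz (y j))) (hN : N ≤ M) (hyM : ∀ j, y j ∈ M)
    (hM : rsp M ≤ rsp N ⊔ Submodule.span ℝ (Set.range fun j => cz (y j))) :
    rk M = rk N + Fintype.card κ ∧ H M ≤ H N * gd fun j => pr (rsp N) (cz (y j)) := by
  have hmem : ∀ a, Sum.elim (bs N) y a ∈ M := by
    rintro (i | j)
    · exact hN (bs_mem N i)
    · exact hyM j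
  have he : rsp M = Submodule.span ℝ (Set.range fun a => cz (Sum.elim (bs N) y a)) := by
    apply le_antisymm
    · rwa [span_elim]
    · exact Submodule.span_le.2 (by rintro _ ⟨a, rfl⟩; exact cz_mem_rsp (hmem a))
  have hc : Fintype.card (Fin (rk N) ⊕ κ) = rk M := by
    rw [← finrank_rsp M, he, finrank_span_eq_card (elim_li hy)]
  refine ⟨by simpa using hc.symm, ?_⟩
  rw [← gd_bs_elim]
  exact H_le hmem hc (elim_li hy)

theorem Sat.mem_of_rsp {M : Submodule ℤ (Zn n)} (hM : Sat M) {y : Zn n} (h : cz y ∈ rsp M) :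
    y ∈ M := by
  have h0 : ¬ LinearIndependent ℝ (fun a => cz (Sum.elim (bs M) (fun _ : Unit => y) a)) := by
    rw [← gd_ne_zero, gd_bs_elim, gd_unique, pr_eq_zero.2 h]; simp
  rw [li_iff] at h0
  push Not at h0
  obtain ⟨c, hc, a, ha⟩ := h0
  rw [Fintype.sum_sum_type] at hc
  simp only [Sum.elim_inl, Sum.elim_inr, Finset.univ_unique, Finset.sum_singleton] at hc
  by_cases h1 : c (Sum.inr default) = 0
  · exfalso
    rw [h1, zero_smul, add_zero] at hc
    have := (li_iff _).1 (bs_li M) _ hc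
    rcases a with i | u
    · exact ha (this i)
    · exact ha h1
  · refine hM _ y h1 ?_
    rw [eq_neg_of_add_eq_zero_right hc]
    exact M.neg_mem (M.sum_mem fun i _ => M.smul_mem _ (bs_mem M i))

/-- extension of a basis of a saturated sublattice. -/
theorem H_ext {N M : Submodule ℤ (Zn n)} (hN : Sat N) (hNM : N ≤ M) :
    ∃ (k : ℕ) (a : Fin k → Zn n), (∀ j, a j ∈ M) ∧ rk M = rk N + k ∧
      H M = H N * gd (fun j => pr (rsp N) (cz (a j))) ∧
      ∀ y ∈ M, ∃ c : Fin k → ℤ, y - ∑ j, c j • a j ∈ N := by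
  obtain ⟨r, o, hro, bO, bN, d, hd⟩ :=
    N.exists_smith_normal_form_of_le (Pi.basisFun ℤ (Fin n)) M hNM
  obtain ⟨k, rfl⟩ := Nat.exists_eq_add_of_le hro
  have hd0 : ∀ i, d i ≠ 0 := fun i h => by
    have := hd i
    rw [h, zero_smul] at this
    exact bN.ne_zero i (Subtype.ext this)
  let a0 : Fin r → Zn n := fun i => (bO (Fin.castAdd k i) : Zn n)
  let a : Fin k → Zn n := fun j => (bO (Fin.natAdd r j) : Zn n)
  have ha0 : ∀ i, a0 i ∈ N := fun i => by
    refine hN (d i) _ (hd0 i) ?_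
    have : d i • a0 i = (bN i : Zn n) := (hd i).symm
    rw [this]; exact (bN i).2
  have hli : LinearIndependent ℝ fun a' : Fin r ⊕ Fin k => cz (Sum.elim a0 a a') := by
    have := (basis_li bO).comp _ (finSumFinEquiv (m := r) (n := k)).injective
    convert this using 1
    funext a'; rcases a' with i | j <;> simp [a0, a]
  have hM : ∀ y ∈ M, ∃ c : Fin r ⊕ Fin k → ℤ, y = ∑ i, c i • Sum.elim a0 a i := fun y hy => by
    refine ⟨fun a' => bO.repr ⟨y, hy⟩ (finSumFinEquiv a'), ?_⟩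
    have := congrArg Subtype.val (bO.sum_repr ⟨y, hy⟩)
    rw [← Equiv.sum_comp finSumFinEquiv] at this
    simp only [Submodule.coe_sum, Submodule.coe_smul_of_tower] at this
    refine this.symm.trans (Finset.sum_congr rfl fun a' _ => ?_)
    rcases a' with i | j <;> simp [a0, a]
  have hN' : ∀ y ∈ N, ∃ c : Fin r → ℤ, y = ∑ i, c i • a0 i := fun y hy => by
    refine ⟨fun i => bN.repr ⟨y, hy⟩ i * d i, ?_⟩
    have := congrArg Subtype.val (bN.sum_repr ⟨y, hy⟩)
    simp only [Submodule.coe_sum, Submodule.coe_smul_of_tower] at this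
    refine this.symm.trans (Finset.sum_congr rfl fun i _ => ?_)
    rw [mul_smul, hd i]; rfl
  have hli0 : LinearIndependent ℝ fun i => cz (a0 i) := hli.comp Sum.inl Sum.inl_injective
  obtain ⟨c0, e0⟩ := H_eq ha0 hN' hli0
  obtain ⟨c1, e1⟩ := H_eq (M := M) (w := Sum.elim a0 a)
    (by rintro (i | j) <;> exact Subtype.prop _) hM hli
  refine ⟨k, a, fun j => Subtype.prop _, ?_, ?_, fun y hy => ?_⟩
  · simp at c0 c1; omega
  · have : (fun a' => cz (Sum.elim a0 a a')) =
        Sum.elim (fun i => cz (a0 i)) (fun j => cz (a j)) := by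
      funext a'; rcases a' with i | j <;> rfl
    rw [e1, e0, this, gd_elim, ← rsp_eq_of_comb ha0 hN']
  · obtain ⟨c, rfl⟩ := hM y hy
    refine ⟨fun j => c (Sum.inr j), ?_⟩
    rw [Fintype.sum_sum_type]
    simp only [Sum.elim_inl, Sum.elim_inr, add_sub_cancel_right]
    exact N.sum_mem fun i _ => N.smul_mem _ (ha0 i)

/-- saturated join. -/
def jn (M M' : Submodule ℤ (Zn n)) : Submodule ℤ (Zn n) := sr (rsp M ⊔ rsp M')

theorem le_jn_left (M M' : Submodule ℤ (Zn n)) : M ≤ jn M M' :=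
  fun _ h => mem_sr.2 (Submodule.mem_sup_left (cz_mem_rsp h))
theorem le_jn_right (M M' : Submodule ℤ (Zn n)) : M' ≤ jn M M' :=
  fun _ h => mem_sr.2 (Submodule.mem_sup_right (cz_mem_rsp h))
theorem rsp_jn (M M' : Submodule ℤ (Zn n)) : rsp (jn M M') = rsp M ⊔ rsp M' :=
  le_antisymm (rsp_sr_le _) (sup_le (rsp_mono (le_jn_left _ _)) (rsp_mono (le_jn_right _ _)))

/-- submodularity of the covolume. -/
theorem submod {M M' : Submodule ℤ (Zn n)} (hM : Sat M) (hM' : Sat M') :
    rk (M ⊓ M') + rk (jn M M') = rk M + rk M' ∧ H (M ⊓ M') * H (jn M M') ≤ H M * H M' := by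
  obtain ⟨k, a, ha, hrk, hH, hsp⟩ := H_ext (hM.inf hM') (inf_le_right : M ⊓ M' ≤ M')
  have hli : LinearIndependent ℝ fun j => pr (rsp (M ⊓ M')) (cz (a j)) := by
    rw [← gd_ne_zero]
    intro h
    rw [h, mul_zero] at hH
    exact (H_pos M').ne' hH
  have hli2 : LinearIndependent ℝ fun j => pr (rsp M) (cz (a j)) := by
    have : LinearIndependent ℝ (fun a' => cz (Sum.elim (bs M) a a')) := by
      rw [li_iff]
      intro c hc
      rw [Fintype.sum_sum_type] at hc
      simp only [Sum.elim_inl, Sum.elim_inr] at hc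
      have h1 : ∑ j, c (Sum.inr j) • a j ∈ M ⊓ M' := by
        refine ⟨?_, M'.sum_mem fun j _ => M'.smul_mem _ (ha j)⟩
        rw [eq_neg_of_add_eq_zero_right hc]
        exact M.neg_mem (M.sum_mem fun i _ => M.smul_mem _ (bs_mem M i))
      have h2 := pr_eq_zero.2 (cz_mem_rsp h1)
      rw [cz_sum, map_sum] at h2
      simp only [map_smul] at h2
      have h3 : ∀ j, c (Sum.inr j) = 0 := fun j => by
        exact_mod_cast Fintype.linearIndependent_iff.1 hli _ h2 j
      simp only [h3, zero_smul, Finset.sum_const_zero, add_zero] at hc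
      have h4 := (li_iff _).1 (bs_li M) _ hc
      rintro (i | j)
      · exact h4 i
      · exact h3 j
    rw [← gd_ne_zero, gd_bs_elim] at this
    exact gd_ne_zero.1 (right_ne_zero_of_mul this)
  obtain ⟨h1, h2⟩ := H_up (M := jn M M') hli2 (le_jn_left _ _) (fun j => le_jn_right _ _ (ha j)) (by
    rw [rsp_jn]
    refine sup_le le_sup_left (rsp_le fun y hy => ?_)
    obtain ⟨c, hc⟩ := hsp y hy
    have : cz y = cz (y - ∑ j, c j • a j) + ∑ j, (c j : ℝ) • cz (a j) := by
      rw [map_sub, cz_sum]; abel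
    rw [this]
    exact Submodule.add_mem_sup (cz_mem_rsp hc.1) (Submodule.sum_mem _ fun j _ =>
      Submodule.smul_mem _ _ (Submodule.subset_span (Set.mem_range_self j))))
  refine ⟨by simp at h1; omega, ?_⟩
  have h3 := gd_pr_mono (rsp_mono (inf_le_left : M ⊓ M' ≤ M)) (fun j => cz (a j))
  have h4 := H_pos M
  have h5 := H_pos (M ⊓ M')
  calc H (M ⊓ M') * H (jn M M') ≤ H (M ⊓ M') * (H M * gd fun j => pr (rsp (M ⊓ M')) (cz (a j))) :=
        mul_le_mul_of_nonneg_left (h2.trans (mul_le_mul_of_nonneg_left h3 h4.le)) h5.le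
    _ = H M * H M' := by rw [hH]; ring

/-- passing to the saturation. -/
theorem H_sat (M : Submodule ℤ (Zn n)) :
    rsp (sr (rsp M)) = rsp M ∧ rk (sr (rsp M)) = rk M ∧ H (sr (rsp M)) ≤ H M := by
  have h1 : rsp (sr (rsp M)) = rsp M :=
    le_antisymm (rsp_sr_le _) (rsp_mono fun _ h => mem_sr.2 (cz_mem_rsp h))
  have h2 : rk (sr (rsp M)) = rk M := by rw [← finrank_rsp, h1, finrank_rsp]
  exact ⟨h1, h2, H_le (fun i => mem_sr.2 (cz_mem_rsp (bs_mem M i))) (by simp [h2]) (bs_li M)⟩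

theorem H_bot : H (⊥ : Submodule ℤ (Zn n)) = 1 ∧ rk (⊥ : Submodule ℤ (Zn n)) = 0 := by
  have h : rk (⊥ : Submodule ℤ (Zn n)) = 0 := by simp [rk]
  refine ⟨?_, h⟩
  have : IsEmpty (Fin (rk (⊥ : Submodule ℤ (Zn n)))) := by rw [h]; infer_instance
  exact gd_empty _

/-- existence of minimisers of `log H / 2 + l * rk`. -/
theorem exists_min (P : Submodule ℤ (Zn n) → Prop) (hP : ∃ M, P M) (l : ℝ) :
    ∃ M, P M ∧ ∀ M', P M' → Real.log (H M) / 2 + l * rk M ≤ Real.log (H M') / 2 + l * rk M' := by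
  classical
  choose hn hhn using H_nat (n := n)
  have h1 : ∀ r : ℕ, (∃ M, P M ∧ rk M = r) → ∃ M, (P M ∧ rk M = r) ∧
      ∀ M', P M' ∧ rk M' = r → hn M ≤ hn M' := fun r hr =>
    ⟨Function.argminOn hn {M | P M ∧ rk M = r} hr,
      Function.argminOn_mem hn {M | P M ∧ rk M = r} hr,
      fun M' hM' => Function.argminOn_le hn {M | P M ∧ rk M = r} hM'⟩
  choose! f hf using h1
  obtain ⟨M0, hM0⟩ := hP
  obtain ⟨r, hr, hmin⟩ := Finset.exists_min_image
    ((Finset.range (n + 1)).filter fun r => ∃ M, P M ∧ rk M = r)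
    (fun r => Real.log (H (f r)) / 2 + l * r)
    ⟨rk M0, by simp only [Finset.mem_filter, Finset.mem_range]; exact ⟨Nat.lt_succ_of_le (rk_le M0), M0, hM0, rfl⟩⟩
  have hr' := (Finset.mem_filter.1 hr).2
  refine ⟨f r, (hf r hr').1.1, fun M' hM' => ?_⟩
  have h2 := hmin (rk M') (by
    simp only [Finset.mem_filter, Finset.mem_range]
    exact ⟨Nat.lt_succ_of_le (rk_le M'), M', hM', rfl⟩)
  rw [(hf r hr').1.2]
  refine h2.trans ?_
  have h3 := (hf (rk M') ⟨M', hM', rfl⟩).2 M' ⟨hM', rfl⟩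
  have h4 : H (f (rk M')) ≤ H M' := by rw [hhn, hhn]; exact_mod_cast h3
  have := Real.log_le_log (H_pos _) h4
  linarith

end Crest.Agent.R152.SL
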