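/-
R152/SLHerm (helper92): Hermite reduction in a quotient of `ℤ^n`.
-/
import Crest.Agent.R152.SLLat

set_option autoImplicit false
set_option linter.unusedSectionVars false

namespace Crest.Agent.R152.SL

open Matrix Module
open scoped InnerProductSpace

variable {n : ℕ}

theorem li_unit {E : Type*} [AddCommGroup E] [Module ℝ E] {x : E} (h : x ≠ 0) :
    LinearIndependent ℝ (fun _ : Unit => x) := linearIndependent_unique_iff.2 h

theorem one_le_H_mul_sq {N : Submodule ℤ (Zn n)} {y : Zn n} (h : pr (rsp N) (cz y) ≠ 0) :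
    1 ≤ H N * ‖pr (rsp N) (cz y)‖ ^ 2 := by
  have := one_le_H_mul (N := N) (y := fun _ : Unit => y) (li_unit h)
  rwa [gd_unique] at this

/-- one-dimensional extension. -/
theorem step_one {M M'' : Submodule ℤ (Zn n)} (hM : Sat M) (hM'' : Sat M'') (hle : M ≤ M'')
    {y : Zn n} (hy : y ∈ M'') (h0 : pr (rsp M) (cz y) ≠ 0) :
    ∃ M1 : Submodule ℤ (Zn n), Sat M1 ∧ M1 ≤ M'' ∧ rk M1 = rk M + 1 ∧
      rsp M1 = rsp M ⊔ Submodule.span ℝ {cz y} ∧
      ∃ a ∈ M'', pr (rsp M) (cz a) ≠ 0 ∧ H M1 = H M * ‖pr (rsp M) (cz a)‖ ^ 2 := by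
  set U := rsp M ⊔ Submodule.span ℝ {cz y} with hU
  have h1 : M ≤ sr U := fun _ h => mem_sr.2 (Submodule.mem_sup_left (cz_mem_rsp h))
  have h2 : y ∈ sr U := mem_sr.2 (Submodule.mem_sup_right (Submodule.mem_span_singleton_self _))
  have h3 : rsp (sr U) = U := le_antisymm (rsp_sr_le _)
    (sup_le (rsp_mono h1) (Submodule.span_le.2 (by simpa using cz_mem_rsp h2)))
  have h4 : sr U ≤ M'' := fun z hz => hM''.mem_of_rsp
    ((sup_le (rsp_mono hle) (Submodule.span_le.2 (by simpa using cz_mem_rsp hy)) : U ≤ _) hz)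
  have h5 := (H_up (M := sr U) (y := fun _ : Unit => y) (li_unit h0) h1 (fun _ => h2) (by
    rw [h3, hU]; simp)).1
  obtain ⟨k, a, ha, hk, hH, -⟩ := H_ext hM h1
  have hk1 : k = 1 := by simp at h5; omega
  subst hk1
  rw [gd_unique] at hH
  refine ⟨sr U, sat_sr U, h4, by simpa using h5, h3, a default, h4 (ha _), fun h => ?_, hH⟩
  rw [h] at hH
  exact (H_pos (sr U)).ne' (by simpa using hH)

theorem pr_decomp {E : Type*} [NormedAddCommGroup E] [InnerProductSpace ℝ E] [FiniteDimensional ℝ E]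
    (U : Submodule ℝ E) (y x : E) : ∃ α : ℝ,
      pr U x = pr (U ⊔ Submodule.span ℝ {y}) x + α • pr U y ∧
      ⟪pr (U ⊔ Submodule.span ℝ {y}) x, pr U y⟫_ℝ = 0 := by
  set U1 := U ⊔ Submodule.span ℝ {y}
  obtain ⟨u, hu, v, hv, huv⟩ := Submodule.mem_sup.1 (sub_pr_mem U1 x)
  obtain ⟨α, rfl⟩ := Submodule.mem_span_singleton.1 hv
  refine ⟨α, ?_, ?_⟩
  · have h1 := congrArg (pr U) huv
    have h2 : pr U (pr U1 x) = pr U1 x :=
      pr_of_mem (Submodule.orthogonal_le (le_sup_left : U ≤ U1) (pr_mem U1 x))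
    rw [map_add, map_smul, map_sub, pr_eq_zero.2 hu, zero_add, h2] at h1
    rw [h1]; abel
  · have : pr U y ∈ U1 := by
      have : pr U y = y - (y - pr U y) := by abel
      rw [this]
      exact U1.sub_mem (Submodule.mem_sup_right (Submodule.mem_span_singleton_self _))
        (Submodule.mem_sup_left (sub_pr_mem U y))
    exact Submodule.inner_left_of_mem_orthogonal this (pr_mem U1 x)

theorem hermite : ∀ (k : ℕ) (M M'' : Submodule ℤ (Zn n)), Sat M → Sat M'' → M ≤ M'' →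
    rk M'' = rk M + k → ∃ y : Fin k → Zn n, (∀ j, y j ∈ M'') ∧
      LinearIndependent ℝ (fun j => pr (rsp M) (cz (y j))) ∧
      H M * ∏ j, ‖pr (rsp M) (cz (y j))‖ ^ 2 ≤ 2 ^ (k ^ 2) * H M''
  | 0, M, M'', _, _, hle, hrk => by
    refine ⟨Fin.elim0, fun j => j.elim0, linearIndependent_empty_type, ?_⟩
    have h1 : rsp M = rsp M'' := Submodule.eq_of_le_of_finrank_eq (rsp_mono hle)
      (by rw [finrank_rsp, finrank_rsp, hrk]; rfl)
    rename_i hM _
    have h2 : M = M'' := le_antisymm hle fun z hz => hM.mem_of_rsp (h1 ▸ cz_mem_rsp hz)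
    simp [h2]
  | k + 1, M, M'', hM, hM'', hle, hrk => by
    let S : Set ℝ := {t | ∃ y ∈ M'', pr (rsp M) (cz y) ≠ 0 ∧ t = ‖pr (rsp M) (cz y)‖ ^ 2}
    have hSne : S.Nonempty := by
      by_contra hS
      have : rsp M'' ≤ rsp M := rsp_le fun y hy => by
        by_contra h
        exact hS ⟨_, y, hy, fun h' => h (pr_eq_zero.1 h'), rfl⟩
      have := Submodule.finrank_mono this
      rw [finrank_rsp, finrank_rsp] at this
      omega
    have hHM := H_pos M
    have hlb : ∀ t ∈ S, (H M)⁻¹ ≤ t := by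
      rintro _ ⟨y, -, h, rfl⟩
      have := one_le_H_mul_sq h
      rw [inv_le_iff_one_le_mul₀' hHM]; exact this
    have hbdd : BddBelow S := ⟨_, hlb⟩
    set m := sInf S with hm
    have hm0 : 0 < m := lt_of_lt_of_le (inv_pos.2 hHM) (le_csInf hSne hlb)
    obtain ⟨_, ⟨y1, hy1, h1, rfl⟩, hlt⟩ := exists_lt_of_csInf_lt hSne (by linarith : m < 9 / 8 * m)
    obtain ⟨M1, hS1, hle1, hrk1, hrsp, a, ha, ha0, hH1⟩ := step_one hM hM'' hle hy1 h1
    have ham : m ≤ ‖pr (rsp M) (cz a)‖ ^ 2 := csInf_le hbdd ⟨a, ha, ha0, rfl⟩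
    obtain ⟨y', hy', hli, hpr⟩ := hermite k M1 M'' hS1 hM'' hle1 (by omega)
    have hdec := fun j => pr_decomp (rsp M) (cz y1) (cz (y' j))
    rw [← hrsp] at hdec
    choose α hα hort using hdec
    let y2 : Fin k → Zn n := fun j => y' j - round (α j) • y1
    have hy2 : ∀ j, pr (rsp M) (cz (y2 j)) =
        pr (rsp M1) (cz (y' j)) + (α j - round (α j)) • pr (rsp M) (cz y1) := fun j => by
      simp only [y2]
      rw [map_sub, cz_smul, map_sub, map_smul, hα j, sub_smul]; abel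
    have hy2M : ∀ j, y2 j ∈ M'' := fun j => M''.sub_mem (hy' j) (M''.smul_mem _ hy1)
    have hy1M1 : pr (rsp M1) (pr (rsp M) (cz y1)) = 0 := by
      rw [pr_pr (by rw [hrsp]; exact le_sup_left), pr_eq_zero, hrsp]
      exact Submodule.mem_sup_right (Submodule.mem_span_singleton_self _)
    have hpp : ∀ j, pr (rsp M1) (pr (rsp M) (cz (y2 j))) = pr (rsp M1) (cz (y' j)) := fun j => by
      rw [hy2, map_add, map_smul, hy1M1, smul_zero, add_zero, pr_pr le_rfl]
    have hnz : ∀ j, pr (rsp M) (cz (y2 j)) ≠ 0 := fun j h => by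
      have := hpp j
      rw [h, map_zero] at this
      exact hli.ne_zero j this.symm
    have hbd : ∀ j, ‖pr (rsp M) (cz (y2 j))‖ ^ 2 ≤ 2 * ‖pr (rsp M1) (cz (y' j))‖ ^ 2 := fun j => by
      have e1 : m ≤ ‖pr (rsp M) (cz (y2 j))‖ ^ 2 := csInf_le hbdd ⟨_, hy2M j, hnz j, rfl⟩
      have e2 : ‖pr (rsp M) (cz (y2 j))‖ ^ 2 = ‖pr (rsp M1) (cz (y' j))‖ ^ 2 +
          (α j - round (α j)) ^ 2 * ‖pr (rsp M) (cz y1)‖ ^ 2 := by
        rw [hy2, norm_add_sq_real, inner_smul_right, hort, norm_smul, mul_pow, Real.norm_eq_abs,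
          sq_abs]; ring
      have e3 : (α j - round (α j)) ^ 2 ≤ 1 / 4 := by
        have := abs_sub_round (α j)
        have h' := abs_nonneg (α j - round (α j))
        nlinarith [sq_abs (α j - round (α j))]
      have e4 : (α j - round (α j)) ^ 2 * ‖pr (rsp M) (cz y1)‖ ^ 2 ≤ 1 / 4 * (9 / 8 * m) :=
        mul_le_mul e3 hlt.le (by positivity) (by norm_num)
      linarith
    refine ⟨Fin.cons y1 y2, fun j => Fin.cases hy1 hy2M j, ?_, ?_⟩
    · rw [Fintype.linearIndependent_iff]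
      intro c hc
      rw [Fin.sum_univ_succ] at hc
      simp only [Fin.cons_zero, Fin.cons_succ] at hc
      have e1 := congrArg (pr (rsp M1)) hc
      simp only [map_add, map_smul, map_sum, hy1M1, smul_zero, zero_add, hpp, map_zero] at e1
      have e2 := Fintype.linearIndependent_iff.1 hli _ e1
      simp only [e2, zero_smul, Finset.sum_const_zero, add_zero, smul_eq_zero, h1, or_false] at hc
      exact fun j => Fin.cases hc e2 j
    · rw [Fin.prod_univ_succ]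
      simp only [Fin.cons_zero, Fin.cons_succ]
      have e1 : ∏ j, ‖pr (rsp M) (cz (y2 j))‖ ^ 2 ≤ 2 ^ k * ∏ j, ‖pr (rsp M1) (cz (y' j))‖ ^ 2 := by
        have : (2 : ℝ) ^ k = ∏ _j : Fin k, 2 := by simp
        rw [this, ← Finset.prod_mul_distrib]
        exact Finset.prod_le_prod (fun _ _ => sq_nonneg _) fun j _ => hbd j
      have e2 : H M * ‖pr (rsp M) (cz y1)‖ ^ 2 ≤ 2 * H M1 := by
        rw [hH1]
        have : ‖pr (rsp M) (cz y1)‖ ^ 2 ≤ 2 * ‖pr (rsp M) (cz a)‖ ^ 2 := by linarith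
        have := mul_le_mul_of_nonneg_left this hHM.le
        linarith
      have e4 : (2 : ℝ) * 2 ^ k * 2 ^ (k ^ 2) ≤ 2 ^ ((k + 1) ^ 2) := by
        rw [← pow_succ', ← pow_add]
        exact pow_le_pow_right₀ (by norm_num) (by nlinarith)
      have e5 := H_pos M''
      calc H M * (‖pr (rsp M) (cz y1)‖ ^ 2 * ∏ j, ‖pr (rsp M) (cz (y2 j))‖ ^ 2)
          = (H M * ‖pr (rsp M) (cz y1)‖ ^ 2) * ∏ j, ‖pr (rsp M) (cz (y2 j))‖ ^ 2 := by ring
        _ ≤ (2 * H M1) * (2 ^ k * ∏ j, ‖pr (rsp M1) (cz (y' j))‖ ^ 2) :=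
          mul_le_mul e2 e1 (Finset.prod_nonneg fun _ _ => sq_nonneg _) (by have := H_pos M1; linarith)
        _ = 2 * 2 ^ k * (H M1 * ∏ j, ‖pr (rsp M1) (cz (y' j))‖ ^ 2) := by ring
        _ ≤ 2 * 2 ^ k * (2 ^ (k ^ 2) * H M'') := mul_le_mul_of_nonneg_left hpr (by positivity)
        _ ≤ _ := by rw [← mul_assoc]; exact mul_le_mul_of_nonneg_right e4 e5.le

end Crest.Agent.R152.SL
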