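/-
R152/SLCov (helper92): parts A and B of the structure lemma.
-/
import Crest.Agent.R152.SLHerm
import Crest.Agent.R152.Iface

set_option autoImplicit false
set_option linter.unusedSectionVars false

namespace Crest.Agent.R152.SL

open Matrix Module
open scoped InnerProductSpace

variable {n : ℕ}

/-- all slopes of `Λ / M` are at least `s`. -/
def SlopeGe (M Λ : Submodule ℤ (Zn n)) (s : ℝ) : Prop :=
  ∀ (k : ℕ) (y : Fin k → Zn n), (∀ j, y j ∈ Λ) →
    LinearIndependent ℝ (fun j => pr (rsp M) (cz (y j))) →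
    s ^ (2 * k) ≤ gd fun j => pr (rsp M) (cz (y j))

/-- the potential -/
noncomputable def Phi (l : ℝ) (M : Submodule ℤ (Zn n)) : ℝ := Real.log (H M) / 2 + l * rk M

theorem log_H_nonneg (M : Submodule ℤ (Zn n)) : 0 ≤ Real.log (H M) := Real.log_nonneg (one_le_H M)

theorem slope_of_min {M Λ : Submodule ℤ (Zn n)} {l : ℝ} (hMΛ : M ≤ Λ)
    (h : ∀ U : Submodule ℝ (En n), rsp M ≤ U → Phi l M ≤ Phi l (sr U ⊓ Λ)) :
    SlopeGe M Λ (Real.exp (-l)) := by
  intro k y hy hli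
  set U := rsp M ⊔ Submodule.span ℝ (Set.range fun j => cz (y j))
  have h1 := h U le_sup_left
  obtain ⟨h2, h3⟩ := H_up (M := sr U ⊓ Λ) hli
    (le_inf (fun _ hx => mem_sr.2 (Submodule.mem_sup_left (cz_mem_rsp hx))) hMΛ)
    (fun j => ⟨mem_sr.2 (Submodule.mem_sup_right (Submodule.subset_span ⟨j, rfl⟩)), hy j⟩)
    (rsp_le fun _ hx => hx.1)
  have hg := gd_pos hli
  have h4 := Real.log_le_log (H_pos _) h3
  rw [Real.log_mul (H_pos M).ne' hg.ne'] at h4
  unfold Phi at h1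
  rw [h2, Fintype.card_fin] at h1
  push_cast at h1
  rw [← Real.exp_nat_mul, ← Real.exp_log hg]
  apply Real.exp_le_exp.2
  push_cast
  linarith

theorem count (hW : StWRM) {M Λ : Submodule ℤ (Zn n)} {s R : ℝ} (hs : 0 < s) (hR : 0 ≤ R)
    (hsl : SlopeGe M Λ s) (V : Submodule ℝ (En n)) (d : ℕ) (hd : finrank ℝ V ≤ d)
    (Y : Finset (En n))
    (hY : ∀ y ∈ Y, y ∈ V ∧ ‖y‖ ≤ R ∧ ∃ x ∈ Λ, y = pr (rsp M) (cz x)) :
    (Y.card : ℝ) ≤ Real.exp (13 * R * √d / s) := by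
  classical
  let L : AddSubgroup V :=
    { carrier := {v | ∃ x ∈ Λ, (v : En n) = pr (rsp M) (cz x)}
      zero_mem' := ⟨0, Λ.zero_mem, by simp⟩
      add_mem' := by
        rintro a b ⟨x, hx, ha⟩ ⟨y, hy, hb⟩
        exact ⟨x + y, Λ.add_mem hx hy, by simp [ha, hb]⟩
      neg_mem' := by
        rintro a ⟨x, hx, ha⟩
        exact ⟨-x, Λ.neg_mem hx, by simp [ha]⟩ }
  have h := hW V L s R hs hR (fun k y hy hli => by
    choose x hx hxy using hy
    have e : (fun j => pr (rsp M) (cz (x j))) = fun j => (y j : En n) := funext fun j => (hxy j).symm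
    have h1 := hsl k x hx (by rw [e]; exact hli.map' V.subtype (Submodule.ker_subtype V))
    rw [e] at h1
    exact h1) (Y.subtype (· ∈ V)) (fun y hy => by
      obtain ⟨-, h1, h2⟩ := hY y (Finset.mem_subtype.1 hy)
      exact ⟨h2, h1⟩)
  rw [Finset.card_subtype, Finset.filter_true_of_mem fun y hy => (hY y hy).1] at h
  refine h.trans (Real.exp_le_exp.2 ?_)
  gcongr

theorem card_le_mul {α β : Type*} [DecidableEq β] (s : Finset α) (t : Finset β) (f : α → β)
    (hf : ∀ a ∈ s, f a ∈ t) {N : ℝ} (h : ∀ b ∈ t, ((s.filter fun a => f a = b).card : ℝ) ≤ N) :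
    (s.card : ℝ) ≤ t.card * N := by
  rw [Finset.card_eq_sum_card_fiberwise hf]
  push_cast
  exact (Finset.sum_le_card_nsmul _ _ _ h).trans (by simp)

theorem exists_fiber {α β : Type*} [DecidableEq β] (s : Finset α) (hs : s.Nonempty) (f : α → β)
    {N : ℝ} (h : ((s.image f).card : ℝ) ≤ N) :
    ∃ a ∈ s, (s.card : ℝ) ≤ N * (s.filter fun x => f x = f a).card := by
  obtain ⟨a, ha, hmax⟩ := Finset.exists_max_image s (fun a => (s.filter fun x => f x = f a).card) hs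
  refine ⟨a, ha, (card_le_mul s (s.image f) f (fun a ha => Finset.mem_image_of_mem f ha)
    (N := (s.filter fun x => f x = f a).card) fun b hb => ?_).trans ?_⟩
  · obtain ⟨a', ha', rfl⟩ := Finset.mem_image.1 hb
    exact_mod_cast hmax a' ha'
  · exact mul_le_mul_of_nonneg_right h (Nat.cast_nonneg _)

/-- Part A. -/
theorem partA (hW : StWRM) (Λ : Submodule ℤ (Zn n)) {g R : ℝ} (hg : 0 ≤ g) (hR : 0 ≤ R) :
    ∃ W : Submodule ℤ (Zn n), W ≤ Λ ∧ Real.log (H W) / 2 ≤ g * n ∧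
      ∀ Y : Finset (En n), (∀ y ∈ Y, ‖y‖ ≤ R ∧ ∃ x ∈ Λ, y = pr (rsp W) (cz x)) →
        (Y.card : ℝ) ≤ Real.exp (13 * R * √n / Real.exp g) := by
  obtain ⟨W, hW1, hW2⟩ := exists_min (fun M => M ≤ Λ) ⟨⊥, bot_le⟩ (-g)
  refine ⟨W, hW1, ?_, fun Y hY => ?_⟩
  · have h := hW2 ⊥ bot_le
    rw [H_bot.1, H_bot.2] at h
    have h2 : (rk W : ℝ) ≤ n := by exact_mod_cast rk_le W
    simp only [Real.log_one, zero_div, Nat.cast_zero, mul_zero, add_zero] at h
    nlinarith
  · have hs := slope_of_min (l := -g) hW1 fun U _ => hW2 _ inf_le_right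
    rw [neg_neg] at hs
    exact count hW (Real.exp_pos g) hR hs ⊤ n (by simp) Y fun y hy => ⟨trivial, hY y hy⟩

theorem exists_cl (l : ℝ) (T : Set (Zn n)) : ∃ M : Submodule ℤ (Zn n),
    (Sat M ∧ T ⊆ (M : Set (Zn n))) ∧
      ∀ M' : Submodule ℤ (Zn n), Sat M' ∧ T ⊆ (M' : Set (Zn n)) → Phi l M ≤ Phi l M' :=
  exists_min (fun M : Submodule ℤ (Zn n) => Sat M ∧ T ⊆ (M : Set (Zn n)))
    ⟨⊤, sat_top, fun _ _ => Submodule.mem_top⟩ l

/-- closure operator -/
noncomputable def cl (l : ℝ) (T : Set (Zn n)) : Submodule ℤ (Zn n) := (exists_cl l T).choose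

theorem cl_sat (l : ℝ) (T : Set (Zn n)) : Sat (cl l T) := (exists_cl l T).choose_spec.1.1

theorem sub_cl (l : ℝ) (T : Set (Zn n)) : T ⊆ cl l T := (exists_cl l T).choose_spec.1.2

theorem cl_min (l : ℝ) (T : Set (Zn n)) {M : Submodule ℤ (Zn n)} (h : Sat M) (hT : T ⊆ M) :
    Phi l (cl l T) ≤ Phi l M := (exists_cl l T).choose_spec.2 M ⟨h, hT⟩

theorem Phi_submod (l : ℝ) {M M' : Submodule ℤ (Zn n)} (hM : Sat M) (hM' : Sat M') :
    Phi l (M ⊓ M') + Phi l (jn M M') ≤ Phi l M + Phi l M' := by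
  obtain ⟨h1, h2⟩ := submod hM hM'
  have h3 := Real.log_le_log (mul_pos (H_pos _) (H_pos _)) h2
  rw [Real.log_mul (H_pos _).ne' (H_pos _).ne', Real.log_mul (H_pos _).ne' (H_pos _).ne'] at h3
  have h4 : (rk (M ⊓ M') : ℝ) + rk (jn M M') = rk M + rk M' := by exact_mod_cast h1
  unfold Phi
  have : l * rk (M ⊓ M') + l * rk (jn M M') = l * rk M + l * rk M' := by
    rw [← mul_add, h4, mul_add]
  linarith

theorem cl_slope (l : ℝ) (T : Set (Zn n)) : SlopeGe (cl l T) ⊤ (Real.exp (-l)) :=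
  slope_of_min le_top fun U hU => cl_min l T ((sat_sr U).inf sat_top)
    fun _ hx => ⟨mem_sr.2 (hU (cz_mem_rsp (sub_cl l T hx))), trivial⟩

/-- the greedy sample -/
theorem greedy {l q : ℝ} (hl : 0 ≤ l) (D : Set (Zn n)) (h0 : 0 ∈ D) : ∀ j : ℕ,
    ∃ S : Fin j → Zn n, (∀ i, S i ∈ D) ∧ (j * q ≤ Phi l (cl l (Set.range S)) ∨
      ∀ z ∈ D, Phi l (cl l (insert z (Set.range S))) < Phi l (cl l (Set.range S)) + q)
  | 0 => ⟨Fin.elim0, fun i => i.elim0, Or.inl (by
      have := log_H_nonneg (cl l (Set.range (Fin.elim0 : Fin 0 → Zn n)))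
      unfold Phi
      simp only [Nat.cast_zero, zero_mul]
      positivity)⟩
  | j + 1 => by
    obtain ⟨S, hS, h⟩ := greedy (q := q) hl D h0 j
    by_cases hgood : ∀ z ∈ D, Phi l (cl l (insert z (Set.range S))) < Phi l (cl l (Set.range S)) + q
    · refine ⟨Fin.cons 0 S, fun i => Fin.cases h0 hS i, Or.inr fun z hz => ?_⟩
      rw [Fin.range_cons]
      have e1 : Phi l (cl l (insert z (insert 0 (Set.range S)))) ≤
          Phi l (cl l (insert z (Set.range S))) := cl_min _ _ (cl_sat _ _) (by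
        rintro x (rfl | rfl | hx)
        · exact sub_cl _ _ (Or.inl rfl)
        · exact Submodule.zero_mem _
        · exact sub_cl _ _ (Or.inr hx))
      have e2 : Phi l (cl l (Set.range S)) ≤ Phi l (cl l (insert 0 (Set.range S))) :=
        cl_min _ _ (cl_sat _ _) fun x hx => sub_cl _ _ (Or.inr hx)
      linarith [hgood z hz]
    · have h1 := h.resolve_right hgood
      push Not at hgood
      obtain ⟨z, hz, hz'⟩ := hgood
      refine ⟨Fin.cons z S, fun i => Fin.cases hz hS i, Or.inl ?_⟩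
      rw [Fin.range_cons]
      push_cast
      linarith

/-- a point whose addition does not increase the potential lies in the span of few short vectors -/
theorem short_span {l q : ℝ} (hl : 0 < l) (hq : 0 ≤ q) {k0 : ℕ} (hk0 : q ≤ l * k0) (T : Set (Zn n))
    {z : Zn n} (hz : Phi (2 * l) (cl (2 * l) (insert z T)) < Phi (2 * l) (cl (2 * l) T) + q) :
    ∃ b : Fin k0 → En n, (∀ j, ‖b j‖ ≤ 2 ^ (k0 ^ 2) * Real.exp q ∧
      ∃ x, b j = pr (rsp (cl l T)) (cz x)) ∧
      pr (rsp (cl l T)) (cz z) ∈ Submodule.span ℝ (Set.range b) := by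
  set U1 := cl l T with hU1
  set U' := cl (2 * l) (insert z T)
  have hs1 : Sat U1 := cl_sat _ _
  have hs' : Sat U' := cl_sat _ _
  have h1 := Phi_submod (2 * l) hs1 hs'
  have h2 : Phi (2 * l) (cl (2 * l) T) ≤ Phi (2 * l) (U1 ⊓ U') := cl_min _ _ (hs1.inf hs')
    fun x hx => ⟨sub_cl _ _ hx, sub_cl _ _ (Or.inr hx)⟩
  have h3 : Phi l U1 ≤ Phi l (jn U1 U') := cl_min _ _ (sat_sr _)
    fun x hx => le_jn_left _ _ (sub_cl _ _ hx)
  have hle : rk U1 ≤ rk (jn U1 U') := by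
    rw [← finrank_rsp, ← finrank_rsp]; exact Submodule.finrank_mono (rsp_mono (le_jn_left _ _))
  obtain ⟨k, hk⟩ := Nat.exists_eq_add_of_le hle
  have h4 : Phi (2 * l) (jn U1 U') < Phi (2 * l) U1 + q := by linarith
  unfold Phi at h3 h4
  rw [hk] at h3 h4
  push_cast at h3 h4
  have hkk : k ≤ k0 := by
    have : l * k < l * k0 := by linarith
    have := lt_of_mul_lt_mul_left this hl.le
    exact_mod_cast this.le
  obtain ⟨y, hy, hli, hpr⟩ := hermite k U1 (jn U1 U') hs1 (sat_sr _) (le_jn_left _ _) hk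
  have hsl := cl_slope l T
  have hlow : ∀ j, Real.exp (-(2 * l)) ≤ ‖pr (rsp U1) (cz (y j))‖ ^ 2 := fun j => by
    have := hsl 1 (fun _ => y j) (fun _ => trivial) (linearIndependent_unique_iff.2 (hli.ne_zero j))
    rw [gd_unique, ← Real.exp_nat_mul] at this
    convert this using 2; push_cast; ring
  have hprod : ∏ j, ‖pr (rsp U1) (cz (y j))‖ ^ 2 ≤ 2 ^ (k ^ 2) * Real.exp (2 * q - 4 * l * k) := by
    have e1 : H (jn U1 U') ≤ H U1 * Real.exp (2 * q - 4 * l * k) := by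
      rw [← Real.exp_log (H_pos (jn U1 U')), ← Real.exp_log (H_pos U1), ← Real.exp_add]
      exact Real.exp_le_exp.2 (by linarith)
    have e2 := hpr.trans (mul_le_mul_of_nonneg_left e1 (by positivity))
    rw [mul_left_comm] at e2
    exact le_of_mul_le_mul_left e2 (H_pos U1)
  have hup : ∀ j, ‖pr (rsp U1) (cz (y j))‖ ≤ 2 ^ (k0 ^ 2) * Real.exp q := fun j => by
    have e1 := Finset.mul_prod_erase Finset.univ (fun j => ‖pr (rsp U1) (cz (y j))‖ ^ 2)
      (Finset.mem_univ j)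
    have e2 : Real.exp (-(2 * l)) ^ (k - 1) ≤
        ∏ i ∈ Finset.univ.erase j, ‖pr (rsp U1) (cz (y i))‖ ^ 2 := by
      have := Finset.prod_le_prod (s := Finset.univ.erase j) (f := fun _ => Real.exp (-(2 * l)))
        (fun _ _ => (Real.exp_pos _).le) fun i _ => hlow i
      simpa using this
    have hk1 : 1 ≤ k := by have := j.2; omega
    have e3 : Real.exp (-(4 * l * k)) ≤ Real.exp (-(2 * l)) ^ (k - 1) := by
      rw [← Real.exp_nat_mul]
      apply Real.exp_le_exp.2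
      rw [Nat.cast_sub hk1]
      have : (0 : ℝ) ≤ k := Nat.cast_nonneg k
      push_cast
      nlinarith
    have e4 : ‖pr (rsp U1) (cz (y j))‖ ^ 2 * Real.exp (-(4 * l * k)) ≤
        2 ^ (k ^ 2) * Real.exp (2 * q) * Real.exp (-(4 * l * k)) := by
      calc _ ≤ ‖pr (rsp U1) (cz (y j))‖ ^ 2 * ∏ i ∈ Finset.univ.erase j, ‖pr (rsp U1) (cz (y i))‖ ^ 2 :=
            mul_le_mul_of_nonneg_left (e3.trans e2) (sq_nonneg _)
        _ ≤ _ := by rw [e1, mul_assoc, ← Real.exp_add, ← sub_eq_add_neg]; exact hprod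
    have e5 := le_of_mul_le_mul_right e4 (Real.exp_pos _)
    have e6 : (2 : ℝ) ^ (k ^ 2) * Real.exp (2 * q) ≤ (2 ^ (k0 ^ 2) * Real.exp q) ^ 2 := by
      rw [mul_pow, ← Real.exp_nat_mul, ← pow_mul]
      push_cast
      refine mul_le_mul_of_nonneg_right (pow_le_pow_right₀ (by norm_num) ?_) (Real.exp_pos _).le
      nlinarith
    exact (abs_le_of_sq_le_sq' (e5.trans e6) (by positivity)).2
  have hspan : rsp (jn U1 U') = rsp U1 ⊔ Submodule.span ℝ (Set.range fun j => cz (y j)) := by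
    symm
    refine Submodule.eq_of_le_of_finrank_eq (sup_le (rsp_mono (le_jn_left _ _))
      (Submodule.span_le.2 (by rintro _ ⟨j, rfl⟩; exact cz_mem_rsp (hy j)))) ?_
    rw [← span_elim, finrank_span_eq_card (elim_li hli), finrank_rsp, hk]; simp
  refine ⟨fun j => if h : (j : ℕ) < k then pr (rsp U1) (cz (y ⟨j, h⟩)) else 0, fun j => ?_, ?_⟩
  · by_cases h : (j : ℕ) < k
    · simp only [h, dif_pos]; exact ⟨hup _, _, rfl⟩
    · simp only [h, dif_neg, not_false_eq_true, norm_zero]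
      exact ⟨by positivity, 0, by simp⟩
  · have hz' : cz z ∈ rsp (jn U1 U') :=
      cz_mem_rsp (le_jn_right _ _ (sub_cl _ _ (Or.inl rfl)))
    rw [hspan] at hz'
    obtain ⟨u, hu, v, hv, huv⟩ := Submodule.mem_sup.1 hz'
    obtain ⟨c, rfl⟩ := (Submodule.mem_span_range_iff_exists_fun ℝ).1 hv
    rw [← huv, map_add, pr_eq_zero.2 hu, zero_add, map_sum]
    refine Submodule.sum_mem _ fun j _ => ?_
    rw [map_smul]
    refine Submodule.smul_mem _ _ (Submodule.subset_span ⟨Fin.castLE hkk j, ?_⟩)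
    simp

/-- few cosets of the closure meet `D` -/
theorem cover (hW : StWRM) {l q R : ℝ} (hl : 0 < l) (hq : 0 ≤ q) (hR : 0 ≤ R) {k0 : ℕ}
    (hk0 : q ≤ l * k0) (T : Set (Zn n)) (D : Finset (Zn n)) (hD : ∀ z ∈ D, ‖cz z‖ ≤ R)
    (hz : ∀ z ∈ D, Phi (2 * l) (cl (2 * l) (insert z T)) < Phi (2 * l) (cl (2 * l) T) + q)
    [DecidableEq (En n)] :
    ((D.image fun z => pr (rsp (cl l T)) (cz z)).card : ℝ) ≤
      Real.exp (13 * (2 ^ (k0 ^ 2) * Real.exp q) * √n / Real.exp (-l)) ^ k0 *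
        Real.exp (13 * R * √k0 / Real.exp (-l)) := by
  classical
  set Y := D.image fun z => pr (rsp (cl l T)) (cz z)
  have h : ∀ y ∈ Y, ∃ b : Fin k0 → En n, (∀ j, ‖b j‖ ≤ 2 ^ (k0 ^ 2) * Real.exp q ∧
      ∃ x, b j = pr (rsp (cl l T)) (cz x)) ∧ y ∈ Submodule.span ℝ (Set.range b) := fun y hy => by
    obtain ⟨z, hz', rfl⟩ := Finset.mem_image.1 hy
    exact short_span hl hq hk0 T (hz z hz')
  choose! b hb hb' using h
  let B : Finset (En n) := Y.biUnion fun y => Finset.univ.image (b y)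
  have hB : (B.card : ℝ) ≤ Real.exp (13 * (2 ^ (k0 ^ 2) * Real.exp q) * √n / Real.exp (-l)) :=
    count hW (Real.exp_pos _) (by positivity) (cl_slope l T) ⊤ n (by simp) B fun y hy => by
      obtain ⟨y', hy', h⟩ := Finset.mem_biUnion.1 hy
      obtain ⟨j, -, rfl⟩ := Finset.mem_image.1 h
      obtain ⟨h1, x, h2⟩ := hb y' hy' j
      exact ⟨trivial, h1, x, trivial, h2⟩
  refine (card_le_mul Y (Fintype.piFinset fun _ : Fin k0 => B) b (fun y hy => ?_)
    (N := Real.exp (13 * R * √k0 / Real.exp (-l))) fun c _ => ?_).trans ?_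
  · exact Fintype.mem_piFinset.2 fun j => Finset.mem_biUnion.2
      ⟨y, hy, Finset.mem_image_of_mem _ (Finset.mem_univ j)⟩
  · refine count hW (Real.exp_pos _) hR (cl_slope l T) (Submodule.span ℝ (Set.range c)) k0
      ((finrank_range_le_card c).trans (by simp)) _ fun y hy => ?_
    obtain ⟨hy1, hy2⟩ := Finset.mem_filter.1 hy
    refine ⟨hy2 ▸ hb' y hy1, ?_⟩
    obtain ⟨z, hz', rfl⟩ := Finset.mem_image.1 hy1
    exact ⟨(norm_pr_le _ _).trans (hD z hz'), z, trivial, rfl⟩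
  · refine mul_le_mul_of_nonneg_right ?_ (Real.exp_pos _).le
    rw [Fintype.card_piFinset]
    simp only [Finset.prod_const, Finset.card_univ, Fintype.card_fin, Nat.cast_pow]
    exact pow_le_pow_left₀ (Nat.cast_nonneg _) hB _

/-- the closure is mostly inside `W` -/
theorem cl_dim {l : ℝ} (T : Set (Zn n)) {W : Submodule ℤ (Zn n)} (hW : Sat W) (hT : T ⊆ W) :
    l * ((rk (jn (cl l T) W) : ℝ) - rk W) ≤ Real.log (H W) / 2 := by
  obtain ⟨h1, h2⟩ := submod (cl_sat l T) hW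
  have h3 := Real.log_le_log (mul_pos (H_pos _) (H_pos _)) h2
  rw [Real.log_mul (H_pos _).ne' (H_pos _).ne', Real.log_mul (H_pos _).ne' (H_pos _).ne'] at h3
  have h4 : (rk (cl l T ⊓ W) : ℝ) + rk (jn (cl l T) W) = rk (cl l T) + rk W := by exact_mod_cast h1
  have h5 : Phi l (cl l T) ≤ Phi l (cl l T ⊓ W) := cl_min _ _ ((cl_sat l T).inf hW)
    fun x hx => ⟨sub_cl _ _ hx, hT hx⟩
  have h6 := log_H_nonneg (jn (cl l T) W)
  unfold Phi at h5
  have : (rk (jn (cl l T) W) : ℝ) - rk W = rk (cl l T) - rk (cl l T ⊓ W) := by linarith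
  rw [this, mul_sub]
  linarith

end Crest.Agent.R152.SL
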