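/-
R152/SLBohr (helper92): Stage 1 and the Bohr pigeonhole of the structure lemma.
-/
import Crest.Agent.R152.SLCov
import Crest.Agent.R152.SLMV

set_option autoImplicit false
set_option linter.unusedSectionVars false

namespace Crest.Agent.R152.SL

open Matrix Module
open scoped InnerProductSpace

variable {n : ℕ}

theorem goodZ_castLE {A t : ℕ} {Z : Fin A → Zn n} (h : GoodZ Z) (ht : t ≤ A) :
    GoodZ fun k : Fin t => Z (Fin.castLE ht k) := by
  refine ⟨fun k l => h.1 _ l, fun c m hm k => ?_⟩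
  have hinj := Fin.castLE_injective ht
  have := h.2 (Function.extend (Fin.castLE ht) c 0) m (fun l => by
    have e : ∑ k, Function.extend (Fin.castLE ht) c 0 k * (Z k l : ℝ) =
        ∑ k, c k * (Z (Fin.castLE ht k) l : ℝ) := by
      symm
      refine Finset.sum_of_injOn (Fin.castLE ht) hinj.injOn (fun _ _ => Finset.mem_coe.2 (Finset.mem_univ _))
        (fun a _ ha => ?_) fun k _ => by rw [hinj.extend_apply]
      rw [Function.extend_apply' _ _ _ (by rintro ⟨x, rfl⟩; exact ha ⟨x, by simp, rfl⟩)]; simp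
    rw [e]; exact hm l) (Fin.castLE ht k)
  rwa [hinj.extend_apply] at this

/-- half the difference of two sign vectors -/
def hd (x x' : Fin n → Bool) : Fin n → SignType :=
  fun l => if x l = x' l then 0 else if x l then 1 else -1

theorem two_hd (x x' : Fin n → Bool) (l : Fin n) :
    sv x l - sv x' l = 2 * ((hd x x' l : SignType) : ℤ) := by
  simp only [sv, sg, hd]
  cases x l <;> cases x' l <;> simp

theorem stage1 (U : Submodule ℝ (En n)) : ∃ (A : ℕ) (Z : Fin A → Zn n), GoodZ Z ∧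
    (∀ k, cz (Z k) ∈ U) ∧ ∀ X : Finset (Fin n → Bool),
      (∀ x ∈ X, ∀ x' ∈ X, cz (sv x - sv x') ∈ U) → X.card ≤ 2 ^ A := by
  classical
  let α := {z : Fin n → SignType // cz (fun i => (z i : ℤ)) ∈ U} ⊕ Fin n
  let v : α → En n := Sum.elim (fun z => (2 : ℝ) • cz (fun i => (z.1 i : ℤ)))
    (fun l => EuclideanSpace.single l (1 : ℝ))
  obtain ⟨k, b, hli, hc⟩ := maxvol_inner v
  have hbinj : Function.Injective b := fun i j h => hli.injective (by simp only [h])
  have huniq : ∀ c c' : Fin k → ℝ, ∑ i, c i • v (b i) = ∑ i, c' i • v (b i) → ∀ i, c i = c' i :=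
    fun c c' h i => by
      have := Fintype.linearIndependent_iff.1 hli (fun i => c i - c' i)
        (by simp only [sub_smul, Finset.sum_sub_distrib, h, sub_self]) i
      linarith
  let τ := (Fintype.equivFin {i // (b i).isLeft}).symm
  let Z : Fin (Fintype.card {i // (b i).isLeft}) → Zn n :=
    fun a l => (((b (τ a).1).getLeft (τ a).2).1 l : ℤ)
  have hvZ : ∀ a, v (b (τ a).1) = (2 : ℝ) • cz (Z a) := fun a => by
    conv_lhs => rw [← Sum.inl_getLeft (b (τ a).1) (τ a).2]
    rfl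
  choose γ hγ hγ' using fun l => hc (Sum.inr l)
  have hexp : ∀ y : En n, y = ∑ i, (∑ l, y l * γ l i) • v (b i) := fun y => by
    have h1 : y = ∑ l, y l • v (Sum.inr l) := by
      ext j; simp [v, Pi.single_apply]
    conv_lhs => rw [h1]
    simp only [hγ', Finset.smul_sum, Finset.sum_smul, smul_smul]
    exact Finset.sum_comm
  refine ⟨_, Z, ⟨fun a l => ?_, fun c m hm a => ?_⟩, fun a => ((b (τ a).1).getLeft (τ a).2).2,
    fun X hX => ?_⟩
  · simp only [Z]
    generalize ((b (τ a).1).getLeft (τ a).2).1 l = s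
    cases s <;> simp
  · let y : En n := ∑ a, c a • cz (Z a)
    let c' : Fin k → ℝ := fun i => if h : (b i).isLeft then c (τ.symm ⟨i, h⟩) / 2 else 0
    have h1 : ∑ i, c' i • v (b i) = y := by
      rw [← Fintype.sum_subtype_add_sum_subtype (fun i => (b i).isLeft = true)]
      have e1 : ∑ i : {i // ¬ (b i).isLeft = true}, c' i • v (b i) = 0 :=
        Finset.sum_eq_zero fun i _ => by simp only [c', dif_neg i.2, zero_smul]
      rw [e1, add_zero, ← Equiv.sum_comp τ]
      refine Finset.sum_congr rfl fun a _ => ?_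
      rw [hvZ, smul_smul]
      simp only [c', dif_pos (τ a).2, Subtype.coe_eta, Equiv.symm_apply_apply]
      congr 1; ring
    have h2 := huniq _ _ (h1.trans (hexp y)) (τ a).1
    simp only [c', dif_pos (τ a).2, Subtype.coe_eta, Equiv.symm_apply_apply] at h2
    have h3 : ∀ l, |y l| ≤ m := fun l => by
      have : y l = ∑ k, c k * (Z k l : ℝ) := by simp [y]
      rw [this]; exact hm l
    have h4 : |∑ l, y l * γ l (τ a).1| ≤ n * m := by
      refine (Finset.abs_sum_le_sum_abs _ _).trans ?_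
      refine (Finset.sum_le_card_nsmul _ _ m fun l _ => ?_).trans (by simp)
      rw [abs_mul]
      exact (mul_le_of_le_one_right (abs_nonneg _) (hγ l _)).trans (h3 l)
    rw [← h2, abs_div, abs_two] at h4
    linarith
  · let L0 : Finset (Fin n) := Finset.univ.filter fun l => ∃ i, b i = Sum.inr l
    have hnk : n ≤ k := by
      have : Submodule.span ℝ (Set.range fun i => v (b i)) = ⊤ := eq_top_iff.2 fun y _ => by
        rw [hexp y]
        exact Submodule.sum_mem _ fun i _ => Submodule.smul_mem _ _ (Submodule.subset_span ⟨i, rfl⟩)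
      have h := finrank_span_eq_card hli
      rw [this] at h
      simp at h; omega
    have hcard : Fintype.card {i // ¬ (b i).isLeft = true} ≤ L0.card := by
      rw [← Fintype.card_coe]
      refine Fintype.card_le_of_injective (fun i => ⟨(b i.1).getRight (by simpa using i.2),
        by simp only [L0, Finset.mem_filter, Finset.mem_univ, true_and]
           exact ⟨i.1, (Sum.inr_getRight _ _).symm⟩⟩) fun i j h => ?_
      have h' := congrArg (fun l : L0 => (Sum.inr l.1 : α)) h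
      simp only [Sum.inr_getRight] at h'
      exact Subtype.ext (hbinj h')
    have hsum : Fintype.card {i // (b i).isLeft = true} +
        Fintype.card {i // ¬ (b i).isLeft = true} = k := by
      rw [Fintype.card_subtype_compl, Fintype.card_fin]
      have := Fintype.card_subtype_le (fun i => (b i).isLeft = true)
      rw [Fintype.card_fin] at this
      omega
    have hL : L0ᶜ.card ≤ Fintype.card {i // (b i).isLeft = true} := by
      rw [Finset.card_compl, Fintype.card_fin]; omega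
    refine le_trans ?_ (Nat.pow_le_pow_right two_pos hL)
    have : 2 ^ L0ᶜ.card = (Finset.univ : Finset (↥(L0ᶜ) → Bool)).card := by
      rw [Finset.card_univ, Fintype.card_fun, Fintype.card_bool, Fintype.card_coe]
    rw [this]
    refine Finset.card_le_card_of_injOn (fun x l => x l.1) (fun _ _ => by simp) fun x hx x' hx' h => ?_
    have hz : cz (fun i => (hd x x' i : ℤ)) ∈ U := by
      have h1 := hX x hx x' hx'
      have h2 : sv x - sv x' = (2 : ℤ) • fun i => (hd x x' i : ℤ) := by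
        funext l; simp [two_hd]
      rw [h2, cz_smul] at h1
      exact (U.smul_mem_iff (by norm_num)).1 h1
    have h0 : ∀ l, l ∉ L0 → hd x x' l = 0 := fun l hl => by
      have := congrFun h ⟨l, Finset.mem_compl.2 hl⟩
      simp only at this
      simp [hd, this]
    obtain ⟨c, hc1, hc2⟩ := hc (Sum.inl ⟨hd x x', hz⟩)
    let c' : Fin k → ℝ := fun i => Sum.elim (fun _ => 0) (fun l => 2 * ((hd x x' l : ℤ) : ℝ)) (b i)
    have h1 : ∑ i, c' i • v (b i) = v (Sum.inl ⟨hd x x', hz⟩) := by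
      ext l
      simp only [WithLp.ofLp_sum, WithLp.ofLp_smul, Finset.sum_apply, Pi.smul_apply, smul_eq_mul]
      have e0 : (v (Sum.inl ⟨hd x x', hz⟩)).ofLp l = 2 * ((hd x x' l : ℤ) : ℝ) := by simp [v]
      rw [e0]
      have e1 : ∀ i, b i ≠ Sum.inr l → c' i * (v (b i)).ofLp l = 0 := fun i hi => by
        simp only [c']
        rcases hb : b i with z | l'
        · simp
        · have : l ≠ l' := fun h => hi (by rw [hb, h])
          simp [v, this]
      by_cases hl : l ∈ L0
      · obtain ⟨i, hi⟩ := (Finset.mem_filter.1 hl).2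
        rw [Finset.sum_eq_single i (fun j _ hj => e1 j fun h => hj (hbinj (h.trans hi.symm)))
          (by simp)]
        simp [c', hi, v]
      · rw [h0 l hl, Finset.sum_eq_zero fun i _ => e1 i fun h => hl (by
          simp only [L0, Finset.mem_filter, Finset.mem_univ, true_and]; exact ⟨i, h⟩)]
        simp
    funext l
    by_contra hne
    by_cases hl : l ∈ L0
    · obtain ⟨i, hi⟩ := (Finset.mem_filter.1 hl).2
      have h2 := huniq _ _ (h1.trans hc2) i
      have h3 := hc1 i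
      rw [← h2] at h3
      simp only [c', hi, Sum.elim_inr, hd, if_neg hne] at h3
      split_ifs at h3 <;> norm_num at h3
    · have := h0 l hl
      simp only [hd, if_neg hne] at this
      split_ifs at this

theorem card_quot {ι : Type} [Fintype ι] [DecidableEq ι] (G : Matrix ι ι ℤ) (hG : G.det ≠ 0) :
    Nat.card ((ι → ℤ) ⧸ LinearMap.range (Matrix.toLin' G)) = G.det.natAbs := by
  have hinj : Function.Injective (Matrix.toLin' G) := by
    rw [← LinearMap.ker_eq_bot, LinearMap.ker_eq_bot']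
    intro x hx
    exact Matrix.eq_zero_of_mulVec_eq_zero hG hx
  rw [← Submodule.natAbs_det_equiv _ (LinearEquiv.ofInjective _ hinj), ← LinearMap.det_toLin']
  congr 2

theorem bohr {β : Type*} (hn : 1 ≤ n) (W : Submodule ℤ (Zn n)) {t : ℕ} (Z : Fin t → Zn n)
    (hZ : ∀ k, ‖cz (Z k)‖ ^ 2 ≤ n) (q : ℕ)
    (hq : ∀ (k : ℕ) (y : Fin k → Fin t),
      LinearIndependent ℝ (fun j => pr (rsp W) (cz (Z (y j)))) → k ≤ q)
    (Q : ℕ) (hQ : 0 < Q) (G : Finset β) (hG : G.Nonempty) (s : β → En n)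
    (hs : ∀ u ∈ G, ∀ w ∈ W, ∃ m : ℤ, ⟪cz w, s u⟫_ℝ = m) :
    ∃ G1 ⊆ G, (G.card : ℝ) ≤ H W * n ^ q * Q ^ q * G1.card ∧
      ∀ u ∈ G1, ∀ u' ∈ G1, ∀ k, ∃ m : ℤ, |⟪cz (Z k), s u - s u'⟫_ℝ - m| ≤ q / Q := by
  classical
  obtain ⟨k, b, hli, hc⟩ := maxvol_inner (fun j => pr (rsp W) (cz (Z j)))
  have hkq := hq k b hli
  let E : Fin (rk W) ⊕ Fin k → Zn n := Sum.elim (bs W) fun j => Z (b j)
  let M : Matrix (Fin (rk W) ⊕ Fin k) (Fin (rk W) ⊕ Fin k) ℤ := Matrix.of fun i j => E i ⬝ᵥ E j
  have hdet : (M.det : ℝ) = H W * gd fun j => pr (rsp W) (cz (Z (b j))) := by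
    rw [← gd_bs_elim, gd_int]
  have hpos : (0 : ℝ) < M.det := by rw [hdet]; exact mul_pos (H_pos W) (gd_pos hli)
  have hM0 : M.det ≠ 0 := by exact_mod_cast hpos.ne'
  have hn' : (1 : ℝ) ≤ n := by exact_mod_cast hn
  have hQ' : (1 : ℝ) ≤ Q := by exact_mod_cast hQ
  have hle : (M.det : ℝ) ≤ H W * n ^ q := by
    rw [hdet]
    refine mul_le_mul_of_nonneg_left ((gd_pr_le _ _).trans ((gd_le_prod _).trans ?_)) (H_pos W).le
    calc ∏ j, ‖cz (Z (b j))‖ ^ 2 ≤ ∏ _j : Fin k, (n : ℝ) :=
          Finset.prod_le_prod (fun _ _ => sq_nonneg _) fun j _ => hZ _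
      _ = n ^ k := by simp
      _ ≤ n ^ q := pow_le_pow_right₀ hn' hkq
  set N := LinearMap.range (Matrix.toLin' M)
  have hcard := card_quot M hM0
  have : Finite ((Fin (rk W) ⊕ Fin k → ℤ) ⧸ N) :=
    Nat.finite_of_card_ne_zero (by rw [hcard]; exact Int.natAbs_ne_zero.2 hM0)
  let _ := Fintype.ofFinite ((Fin (rk W) ⊕ Fin k → ℤ) ⧸ N)
  let f : β → ((Fin (rk W) ⊕ Fin k → ℤ) ⧸ N) × (Fin k → ℕ) := fun u =>
    (N.mkQ fun a => ⌊⟪cz (E a), s u⟫_ℝ⌋, fun j => ⌊Int.fract ⟪cz (Z (b j)), s u⟫_ℝ * Q⌋₊)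
  have himg : ((G.image f).card : ℝ) ≤ H W * n ^ q * Q ^ q := by
    have h1 : G.image f ⊆ Finset.univ ×ˢ Fintype.piFinset fun _ => Finset.range Q := by
      intro x hx
      obtain ⟨u, -, rfl⟩ := Finset.mem_image.1 hx
      refine Finset.mem_product.2 ⟨Finset.mem_univ _, Fintype.mem_piFinset.2 fun j => ?_⟩
      rw [Finset.mem_range, Nat.floor_lt (mul_nonneg (Int.fract_nonneg _) (by positivity))]
      exact mul_lt_of_lt_one_left (by positivity) (Int.fract_lt_one _)
    have h2 := Finset.card_le_card h1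
    rw [Finset.card_product, Fintype.card_piFinset, Finset.card_univ, ← Nat.card_eq_fintype_card,
      hcard] at h2
    simp only [Finset.card_range, Finset.prod_const, Finset.card_univ, Fintype.card_fin] at h2
    have h3 : ((G.image f).card : ℝ) ≤ (M.det.natAbs : ℝ) * Q ^ k := by exact_mod_cast h2
    rw [Nat.cast_natAbs, Int.cast_abs, abs_of_pos hpos] at h3
    exact h3.trans (mul_le_mul hle (pow_le_pow_right₀ hQ' hkq) (by positivity)
      (mul_nonneg (H_pos W).le (by positivity)))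
  obtain ⟨u0, -, hu0⟩ := exists_fiber G hG f himg
  refine ⟨_, Finset.filter_subset _ _, hu0, fun u hu u' hu' a => ?_⟩
  obtain ⟨huG, hu1⟩ := Finset.mem_filter.1 hu
  obtain ⟨huG', hu1'⟩ := Finset.mem_filter.1 hu'
  have hf : f u = f u' := hu1.trans hu1'.symm
  have hf1 := congrArg Prod.fst hf
  have hf2 := congrArg Prod.snd hf
  simp only [f, Submodule.mkQ_apply] at hf1 hf2
  obtain ⟨x, hx⟩ := (Submodule.Quotient.eq N).1 hf1
  let z : Zn n := ∑ i, x i • E i
  have hz : ∀ i, ⟪cz (E i), cz z⟫_ℝ = (⌊⟪cz (E i), s u⟫_ℝ⌋ : ℝ) - ⌊⟪cz (E i), s u'⟫_ℝ⌋ := fun i => by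
    have := congrFun hx i
    simp only [toLin'_apply, Pi.sub_apply] at this
    rw [inner_cz, ← Int.cast_sub, ← this]
    congr 1
    simp only [z, dotProduct_sum, dotProduct_smul, smul_eq_mul, mulVec, M]
    exact Finset.sum_congr rfl fun j _ => by simp [mul_comm]
  set s2 := s u - s u' - cz z with hs2
  have h2 : ∀ i, ⟪cz (E i), s2⟫_ℝ = Int.fract ⟪cz (E i), s u⟫_ℝ - Int.fract ⟪cz (E i), s u'⟫_ℝ :=
    fun i => by rw [hs2, inner_sub_right, inner_sub_right, hz, Int.fract, Int.fract]; ring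
  have h3 : s2 ∈ (rsp W)ᗮ := by
    rw [rsp_eq, Submodule.mem_orthogonal]
    intro w hw
    obtain ⟨c, rfl⟩ := (Submodule.mem_span_range_iff_exists_fun ℝ).1 hw
    rw [sum_inner]
    refine Finset.sum_eq_zero fun i _ => ?_
    have := h2 (Sum.inl i)
    obtain ⟨m, hm⟩ := hs u huG _ (bs_mem W i)
    obtain ⟨m', hm'⟩ := hs u' huG' _ (bs_mem W i)
    simp only [E, Sum.elim_inl, hm, hm', Int.fract_intCast, sub_zero] at this
    rw [inner_smul_left, this, mul_zero]
  have h4 : ∀ j, |⟪cz (Z (b j)), s2⟫_ℝ| ≤ 1 / Q := fun j => by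
    have e := h2 (Sum.inr j)
    simp only [E, Sum.elim_inr] at e
    have e1 := congrFun hf2 j
    have p1 := Nat.floor_le (mul_nonneg (Int.fract_nonneg ⟪cz (Z (b j)), s u⟫_ℝ) (by positivity : (0 : ℝ) ≤ Q))
    have p2 := Nat.lt_floor_add_one (Int.fract ⟪cz (Z (b j)), s u⟫_ℝ * Q)
    have p3 := Nat.floor_le (mul_nonneg (Int.fract_nonneg ⟪cz (Z (b j)), s u'⟫_ℝ) (by positivity : (0 : ℝ) ≤ Q))
    have p4 := Nat.lt_floor_add_one (Int.fract ⟪cz (Z (b j)), s u'⟫_ℝ * Q)
    rw [e1] at p1 p2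
    rw [e, le_div_iff₀ (by positivity), ← abs_of_pos (by positivity : (0 : ℝ) < Q), ← abs_mul,
      abs_le]
    constructor <;> linarith
  obtain ⟨c, hc1, hc2⟩ := hc a
  have h5 : ⟪cz (Z a), s2⟫_ℝ = ∑ j, c j * ⟪cz (Z (b j)), s2⟫_ℝ := by
    have e1 : cz (Z a) - ∑ j, c j • cz (Z (b j)) ∈ rsp W := by
      rw [← pr_eq_zero, map_sub, map_sum, hc2]; simp only [map_smul, sub_self]
    have e2 := Submodule.inner_right_of_mem_orthogonal e1 h3
    rw [inner_sub_left, sum_inner, sub_eq_zero] at e2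
    rw [e2]
    simp only [inner_smul_left, RCLike.conj_to_real]
  refine ⟨Z a ⬝ᵥ z, ?_⟩
  rw [← inner_cz, ← inner_sub_right, ← hs2, h5]
  refine (Finset.abs_sum_le_sum_abs _ _).trans
    ((Finset.sum_le_card_nsmul _ _ (1 / (Q : ℝ)) fun j _ => ?_).trans ?_)
  · rw [abs_mul]
    exact (mul_le_of_le_one_left (abs_nonneg _) (hc1 j)).trans (h4 j)
  · simp only [Finset.card_univ, Fintype.card_fin, nsmul_eq_mul, mul_one_div]
    gcongr

end Crest.Agent.R152.SL
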