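import Crest.Agent.R152.Iface
import Crest.Agent.R152.P
import Crest.Agent.R152.LA

/-! Row 152, blocks G and L3, notes152/H33.md 3L3.  Recipe G: `rc s - c = B (a + θ_r)`, hC, hT.  L3: hE with `Q = n⁻¹ • 1`, `a = 1`, `η = -log pm/2`,
`S = {s | ∀ g ∈ G, ‖pr (s - n • sv y0) g‖ ≤ 1/12}`; the representatives `r` (from `exists_reps`) lying in `S` number `≤ 2|det|/|G|` by Bessel on the set of all representatives
(the functions `r ↦ e(pr r g)`, `g ∈ Td B`, are orthogonal; `B` symmetric); `θ = c (-log pm)/2`. -/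

set_option autoImplicit false
open Matrix Filter

namespace Crest.Agent.R152

theorem L3.qf_mul {n : ℕ} (Q B : Matrix (Fin n) (Fin n) ℝ) (x : Fin n → ℝ) :
    qf Q (B *ᵥ x) = qf (Bᵀ * Q * B) x := by
  simp only [qf, ← mulVec_mulVec]
  rw [dotProduct_mulVec x Bᵀ, vecMul_transpose]

theorem stG (hC : StCosh) (hT : StGtr) : StG := by
  intro n B hB Q hQ R c S' h
  classical
  choose! r hr a ha using h
  have hu : IsUnit (rm B).det := by
    rw [LA.rm_det]
    exact (Int.cast_ne_zero.2 hB).isUnit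
  have hi : Function.Injective (rm B).mulVec := mulVec_injective_iff_isUnit.2 ((isUnit_iff_isUnit_det _).2 hu)
  have hQ' : ((rm B)ᵀ * Q * rm B).PosDef := by
    simpa only [conjTranspose_eq_transpose_of_trivial] using hQ.conjTranspose_mul_mul_same hi
  rw [← Finset.sum_fiberwise_of_maps_to hr, ← nsmul_eq_mul]
  refine Finset.sum_le_card_nsmul _ _ _ fun r0 _ => ?_
  refine le_trans (le_of_eq ?_) ((hC n _ hQ' ((rm B)⁻¹ *ᵥ (rc r0 - c))
    ((S'.filter fun s => r s = r0).image a)).trans ?_)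
  · rw [Finset.sum_image fun s hs s' hs' e => ?_]
    · refine Finset.sum_congr rfl fun s hs => ?_
      obtain ⟨h1, h2⟩ := Finset.mem_filter.1 hs
      rw [← L3.qf_mul, mulVec_add, mulVec_mulVec, mul_nonsing_inv _ hu, one_mulVec, LA.rm_mulVec]
      congr 4
      ext i
      have := congrFun (ha s h1) i
      simp only [rc, Pi.add_apply, Pi.sub_apply, h2] at this ⊢
      rw [this]
      push_cast
      ring
    · obtain ⟨h1, h2⟩ := Finset.mem_filter.1 hs
      obtain ⟨h1', h2'⟩ := Finset.mem_filter.1 hs'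
      rw [ha s h1, ha s' h1', h2, h2', e]
  · exact mul_le_mul_of_nonneg_left (Real.exp_le_exp.2 (by linarith [hT n _ hQ'])) (by positivity)

/-- the character `e(t)` -/
noncomputable def L3.ch (t : T1) : ℂ := (AddCircle.toCircle t : ℂ)

theorem L3.ch_add (s t : T1) : L3.ch (s + t) = L3.ch s * L3.ch t := by
  simp [L3.ch, AddCircle.toCircle_add]

theorem L3.ch_sub (s t : T1) : L3.ch (s - t) = L3.ch s * (starRingEnd ℂ) (L3.ch t) := by
  rw [sub_eq_add_neg, L3.ch_add, L3.ch, L3.ch, L3.ch, AddCircle.toCircle_neg, Circle.coe_inv_eq_conj]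

theorem L3.ch_re {t : T1} (h : ‖t‖ ≤ 1 / 12) : 1 / 2 ≤ (L3.ch t).re := by
  induction t using QuotientAddGroup.induction_on with
  | H x =>
    have e : ((x : ℝ) : T1) = ((x - round x : ℝ) : T1) := by
      rw [AddCircle.coe_sub, LA.coe_T1_eq_zero.2 ⟨round x, rfl⟩, sub_zero]
    rw [UnitAddCircle.norm_eq] at h
    rw [e, L3.ch, AddCircle.toCircle_apply_mk, Circle.coe_exp, Complex.exp_ofReal_mul_I_re]
    refine le_trans ?_ Real.one_sub_sq_div_two_le_cos
    have h1 : (x - round x) ^ 2 ≤ (1 / 12) ^ 2 := sq_le_sq' (by linarith [abs_le.1 h]) (le_of_abs_le h)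
    have h2 : Real.pi ^ 2 ≤ 4 ^ 2 := pow_le_pow_left₀ Real.pi_pos.le Real.pi_le_four 2
    rw [mul_pow, div_one, mul_pow]
    nlinarith [mul_le_mul h2 h1 (sq_nonneg _) (by norm_num)]

theorem L3.pr_mulVec {n : ℕ} {B : Matrix (Fin n) (Fin n) ℤ} (hB : B.IsSymm) {g : Fin n → T1} (hg : g ∈ Td B)
    (a : Fin n → ℤ) : pr (B *ᵥ a) g = 0 := by
  have h : ∀ j, ∑ i, B i j • g i = 0 := fun j => by
    simpa only [pr, hB.apply] using hg j
  simp only [pr, mulVec, dotProduct, Finset.sum_smul, mul_comm (B _ _), mul_smul]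
  rw [Finset.sum_comm]
  simp only [← Finset.smul_sum, h, smul_zero, Finset.sum_const_zero]

theorem L3.orth {n : ℕ} {B : Matrix (Fin n) (Fin n) ℤ} (hB : B.IsSymm) {R : Finset (Fin n → ℤ)}
    (h1 : ∀ s : Fin n → ℤ, ∃ r ∈ R, ∃ a : Fin n → ℤ, s = r + B *ᵥ a)
    (h2 : ∀ r ∈ R, ∀ r' ∈ R, ∀ a : Fin n → ℤ, r = r' + B *ᵥ a → r = r') (w : Fin n → ℤ) {g : Fin n → T1}
    (hg : g ∈ Td B) (h0 : g ≠ 0) : ∑ r ∈ R, L3.ch (pr (r - w) g) = 0 := by
  classical
  choose ρ hρ a ha using h1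
  obtain ⟨i, hi⟩ := Function.ne_iff.1 h0
  have inj : Set.InjOn (fun r => ρ (r + Pi.single i 1)) R := fun r hr r' hr' e =>
    h2 r hr r' hr' (a (r + Pi.single i 1) - a (r' + Pi.single i 1)) (by
      have e1 := ha (r + Pi.single i 1)
      have e2 := ha (r' + Pi.single i 1)
      simp only at e
      rw [← e] at e2
      rw [mulVec_sub]
      linear_combination e1 - e2)
  have im : R.image (fun r => ρ (r + Pi.single i 1)) = R :=
    Finset.eq_of_subset_of_card_le (Finset.image_subset_iff.2 fun r _ => hρ _)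
      (Finset.card_image_of_injOn inj).ge
  have e : ∑ r ∈ R, L3.ch (pr (r - w) g) = L3.ch (g i) * ∑ r ∈ R, L3.ch (pr (r - w) g) := by
    conv_lhs => rw [← im, Finset.sum_image inj]
    rw [Finset.mul_sum]
    refine Finset.sum_congr rfl fun r _ => ?_
    rw [← L3.ch_add, show ρ (r + Pi.single i 1) - w = Pi.single i 1 + (r - w) - B *ᵥ a (r + Pi.single i 1) by
      linear_combination -ha (r + Pi.single i 1), pr_sub_left, L3.pr_mulVec hB hg, sub_zero, pr_add_left]
    simp [pr, Pi.single_apply]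
  by_contra hne
  have h3 : L3.ch (g i) = 1 := mul_right_cancel₀ hne (e.symm.trans (one_mul _).symm)
  exact hi (AddCircle.injective_toCircle one_ne_zero
    ((Circle.coe_eq_one.1 h3).trans AddCircle.toCircle_zero.symm))

theorem L3.bessel {n : ℕ} {B : Matrix (Fin n) (Fin n) ℤ} (hB : B.IsSymm) {R : Finset (Fin n → ℤ)}
    (h1 : ∀ s : Fin n → ℤ, ∃ r ∈ R, ∃ a : Fin n → ℤ, s = r + B *ᵥ a)
    (h2 : ∀ r ∈ R, ∀ r' ∈ R, ∀ a : Fin n → ℤ, r = r' + B *ᵥ a → r = r') (w : Fin n → ℤ)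
    {G : Finset (Fin n → T1)} (hG : ∀ g ∈ G, g ∈ Td B) {R' : Finset (Fin n → ℤ)} (hR : R' ⊆ R)
    (h : ∀ r ∈ R', ∀ g ∈ G, ‖pr (r - w) g‖ ≤ 1 / 12) :
    (R'.card : ℝ) * ((G.card : ℝ) / 2) ^ 2 ≤ R.card * G.card := by
  classical
  have e : ((∑ r ∈ R, Complex.normSq (∑ g ∈ G, L3.ch (pr (r - w) g)) : ℝ) : ℂ) = (R.card * G.card : ℝ) := by
    push_cast
    simp only [← Complex.mul_conj, map_sum, Finset.sum_mul_sum, ← L3.ch_sub, ← pr_sub_right]
    rw [Finset.sum_comm, mul_comm, ← nsmul_eq_mul, ← Finset.sum_const]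
    refine Finset.sum_congr rfl fun g hg => ?_
    rw [Finset.sum_comm, Finset.sum_eq_single_of_mem g hg fun g' hg' hne =>
      L3.orth hB h1 h2 w (sub_mem (hG g hg) (hG g' hg')) (sub_ne_zero.2 hne.symm)]
    simp [pr_zero_right, L3.ch]
  rw [← Complex.ofReal_inj.1 e, ← nsmul_eq_mul]
  refine le_trans (Finset.card_nsmul_le_sum _ _ _ fun r hr => ?_)
    (Finset.sum_le_sum_of_subset_of_nonneg hR fun _ _ _ => Complex.normSq_nonneg _)
  refine le_trans (pow_le_pow_left₀ (by positivity) ?_ 2) ((sq _).trans_le (Complex.re_sq_le_normSq _))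
  rw [Complex.re_sum, div_eq_mul_one_div, ← nsmul_eq_mul]
  exact Finset.card_nsmul_le_sum _ _ _ fun g hg => L3.ch_re (h r hr g hg)

theorem L3.sg_sq (b : Bool) : (sg b : ℝ) * sg b = 1 := by
  cases b <;> simp [sg]

theorem stL3 (hE : StE) (hG : StG) : StL3 := by
  intro p c hp0 hp1 hc
  classical
  have hl : 0 < -Real.log (pm p) := neg_pos.2 (Real.log_neg pm_pos (pm_lt_one hp0 hp1))
  obtain ⟨C, hC⟩ := hE p (-Real.log (pm p) / 2) hp0 hp1 (by positivity) (by linarith)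
  refine ⟨c * -Real.log (pm p) / 2, by positivity, ?_⟩
  filter_upwards [eventually_ge_atTop 1, (Real.tendsto_log_atTop.comp tendsto_natCast_atTop_atTop).eventually
    (eventually_gt_atTop ((C + 8) / (c / 2)))] with n hn hlog ω hdet G hG' hcard A y0 hA
  have n0 : (0 : ℝ) < n := Nat.cast_pos.2 hn
  have n1 : (1 : ℝ) ≤ n := Nat.one_le_cast.2 hn
  by_contra hne
  obtain ⟨R, hR, h1, h2⟩ := exists_reps (Mx ω) hdet
  have hQ : ((n : ℝ)⁻¹ • (1 : Matrix (Fin n) (Fin n) ℝ)).PosDef := PosDef.one.smul (inv_pos.2 n0)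
  have G0 : (0 : ℝ) < G.card := (Real.exp_pos _).trans_le hcard
  have D0 : (0 : ℝ) < |((Mx ω).det : ℝ)| := abs_pos.2 (Int.cast_ne_zero.2 hdet)
  have h3 := hC n hn A _ 1 (Real.exp (7 * n + Lg n / 2 - c * Lg n)) _
    {s | ∀ g ∈ G, ‖pr (s - n • sv y0) g‖ ≤ 1 / 12} (not_le.1 hne).le hQ.posSemidef (fun x _ => ?_)
    (fun x hx g hg => ?_) fun c' S' hS' => ?_
  · rw [Real.log_exp, show c * -Real.log (pm p) / 2 / (-Real.log (pm p) - -Real.log (pm p) / 2) = c by
      rw [div_eq_iff (by linarith)]; ring, Lg] at h3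
    rw [Function.comp_apply, div_lt_iff₀ (by positivity)] at hlog
    nlinarith
  · simp only [qf, smul_mulVec, one_mulVec, dotProduct, rc, sv, Pi.smul_apply, smul_eq_mul, mul_left_comm _ (n : ℝ)⁻¹,
      L3.sg_sq]
    simp [n0.ne']
  · have e : pr (∑ k, sv (x k) - n • sv y0) g = ∑ k, pr (sv (x k) - sv y0) g := by
      simp only [pr]
      rw [Finset.sum_comm]
      simp only [← Finset.sum_smul, Pi.sub_apply, Finset.sum_sub_distrib, Finset.sum_apply, Finset.sum_const,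
        Finset.card_univ, Fintype.card_fin, Pi.smul_apply]
    rw [e]
    refine (norm_sum_le _ _).trans ((Finset.sum_le_card_nsmul _ _ _ fun k _ => hA _ (hx k) g hg).trans ?_)
    rw [Finset.card_univ, Fintype.card_fin, nsmul_eq_mul]
    exact le_of_eq (by field_simp)
  · have h4 := L3.bessel (Mx_isSymm ω) h1 h2 (n • sv y0) hG'
      (Finset.filter_subset (fun r => ∀ g ∈ G, ‖pr (r - n • sv y0) g‖ ≤ 1 / 12) R)
      fun r hr => (Finset.mem_filter.1 hr).2
    refine (hG n _ hdet _ hQ (R.filter fun r => ∀ g ∈ G, ‖pr (r - n • sv y0) g‖ ≤ 1 / 12) c' S'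
      fun s hs => ?_).trans ?_
    · obtain ⟨r, hr, a, ha⟩ := h1 s
      refine ⟨r, Finset.mem_filter.2 ⟨hr, fun g hg => ?_⟩, a, ha⟩
      have := hS' s hs g hg
      rwa [ha, add_sub_right_comm, pr_add_left, L3.pr_mulVec (Mx_isSymm ω) (hG' g hg), add_zero] at this
    have e1 : ((rm (Mx ω))ᵀ * ((n : ℝ)⁻¹ • (1 : Matrix (Fin n) (Fin n) ℝ)) * rm (Mx ω)).trace = n := by
      simp only [Matrix.mul_smul, Matrix.mul_one, Matrix.smul_mul, trace_smul]
      simp only [trace, diag, mul_apply, transpose_apply, rm, map_apply, Mx, of_apply, L3.sg_sq]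
      simp [n0.ne']
    have e2 : √((rm (Mx ω))ᵀ * ((n : ℝ)⁻¹ • (1 : Matrix (Fin n) (Fin n) ℝ)) * rm (Mx ω)).det =
        |((Mx ω).det : ℝ)| / Real.exp (Lg n / 2) := by
      rw [Real.sqrt_eq_iff_mul_self_eq_of_pos (by positivity), det_mul, det_mul, det_transpose, LA.rm_det,
        det_smul, det_one, div_mul_div_comm, abs_mul_abs_self, ← Real.exp_add, add_halves, Lg, Real.exp_nat_mul,
        Real.exp_log n0, Fintype.card_fin, inv_pow]
      ring
    have e3 : √(2 * Real.pi) ^ n ≤ Real.exp (2 * n) := by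
      rw [mul_comm (2 : ℝ) n, Real.exp_nat_mul]
      refine pow_le_pow_left₀ (Real.sqrt_nonneg _) (le_trans ?_ (Real.add_one_le_exp 2)) n
      exact Real.sqrt_le_iff.2 ⟨by norm_num, by linarith [Real.pi_le_four]⟩
    have e4 : ((R.filter fun r => ∀ g ∈ G, ‖pr (r - n • sv y0) g‖ ≤ 1 / 12).card : ℝ) ≤
        Real.exp (3 * n) * |((Mx ω).det : ℝ)| / Real.exp (c * Lg n) := by
      rw [hR, Nat.cast_natAbs, Int.cast_abs, ← le_div_iff₀ (by positivity)] at h4
      refine h4.trans ?_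
      calc _ = 4 * |((Mx ω).det : ℝ)| / G.card := by field_simp; norm_num
        _ ≤ _ := by
          gcongr
          linarith [Real.add_one_le_exp (3 * (n : ℝ))]
    rw [e1, e2]
    calc _ ≤ Real.exp (3 * n) * |((Mx ω).det : ℝ)| / Real.exp (c * Lg n) *
          (Real.exp (2 * n) / (|((Mx ω).det : ℝ)| / Real.exp (Lg n / 2)) * Real.exp (2 * n)) := by
          gcongr
          linarith
      _ = _ := by
          rw [show 7 * (n : ℝ) = 3 * n + 2 * n + 2 * n by ring, Real.exp_sub, Real.exp_add, Real.exp_add,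
            Real.exp_add]
          field_simp

end Crest.Agent.R152
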