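import Crest.Agent.R152.Iface
import Crest.Agent.R152.P
import Crest.Agent.R152.LA

/-! Row 152, block R, notes152/H33.md 3R (helper14).  Symmetric Odlyzko bound over `ZMod l`
(`sym_basis`, `sym_determined`, `Pr_det`) for `Mx` (`l` odd) and `(J - Mx)/2` (`l = 2`); for
`G = Td B`: `|G[D]| ≤ 2^n |(2G)[D]|`, `|H[ab]| ≤ |H[a]| |H[b]|`, `|(2G)[l]| ≤ l |ker mod l|`. -/

set_option autoImplicit false
open Matrix Filter

namespace Crest.Agent.R152
namespace RR

/-- counting along the fibres of an additive map -/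
theorem ncard_fib {G H : Type} [AddCommGroup G] [AddCommGroup H] (f : G →+ H) {S K : Set G}
    {T : Set H} (hS : S.Finite) (hK : K.Finite) (hT : T.Finite) (h1 : ∀ u ∈ S, f u ∈ T)
    (h2 : ∀ u ∈ S, ∀ v ∈ S, f u = f v → u - v ∈ K) : S.ncard ≤ K.ncard * T.ncard := by
  classical
  rw [Set.ncard_eq_toFinset_card S hS, Set.ncard_eq_toFinset_card T hT]
  refine Finset.card_le_mul_card_image_of_maps_to (f := f) (fun a ha => by
    simpa using h1 a (by simpa using ha)) _ fun b _ => ?_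
  rcases (Finset.filter (fun a => f a = b) hS.toFinset).eq_empty_or_nonempty with h | ⟨v, hv⟩
  · simp [h]
  · rw [← Set.ncard_coe_finset]
    simp only [Finset.mem_filter, Set.Finite.mem_toFinset] at hv
    refine Set.ncard_le_ncard_of_injOn (fun u => u - v) (fun u hu => ?_)
      (fun u _ u' _ h => sub_left_injective h) hK
    simp only [Finset.coe_filter, Set.Finite.mem_toFinset, Set.mem_ofPred_eq] at hu
    exact h2 u hu.1 v hv.1 (hu.2.trans hv.2.symm)

variable {n : ℕ}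

/-- the `D`-torsion of a subgroup of the torus -/
def tors (H : AddSubgroup (Fin n → T1)) (D : ℕ) : Set (Fin n → T1) := {u | u ∈ H ∧ D • u = 0}

/-- `(ℤ/D)^n` in the torus -/
noncomputable def emb (D : ℕ) [NeZero D] (y : Fin n → ZMod D) : Fin n → T1 :=
  fun i => ZMod.toAddCircle (y i)

theorem exists_emb (D : ℕ) [NeZero D] {u : Fin n → T1} (h : D • u = 0) : ∃ y, emb D y = u := by
  have : ∀ i, ∃ y : ZMod D, ZMod.toAddCircle y = u i := fun i => by
    obtain ⟨m, -, hm⟩ := (AddCircle.nsmul_eq_zero_iff (NeZero.pos D)).1 (congrFun h i)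
    exact ⟨m, by rw [ZMod.toAddCircle_natCast, ← hm, mul_one]⟩
  choose y hy using this
  exact ⟨y, funext hy⟩

theorem pr_emb (D : ℕ) [NeZero D] (z : Fin n → ℤ) (y : Fin n → ZMod D) :
    pr z (emb D y) = ZMod.toAddCircle (∑ i, (z i : ZMod D) * y i) := by
  simp only [pr, emb, map_sum, ← map_zsmul, zsmul_eq_mul]

theorem tors_sub (H : AddSubgroup (Fin n → T1)) (D : ℕ) [NeZero D] :
    tors H D ⊆ Set.range (emb D) := fun _ hu => exists_emb D hu.2

theorem tors_finite (H : AddSubgroup (Fin n → T1)) {D : ℕ} (hD : D ≠ 0) : (tors H D).Finite := by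
  have : NeZero D := ⟨hD⟩
  exact (Set.finite_range _).subset (tors_sub H D)

theorem tors_two (H : AddSubgroup (Fin n → T1)) : (tors H 2).ncard ≤ 2 ^ n := by
  refine (Set.ncard_le_ncard (tors_sub H 2) (Set.finite_range _)).trans ?_
  rw [← Set.image_univ]
  refine (Set.ncard_image_le Set.finite_univ).trans ?_
  simp

theorem tors_mul (H : AddSubgroup (Fin n → T1)) {a b : ℕ} (ha : a ≠ 0) (hb : b ≠ 0) :
    (tors H (a * b)).ncard ≤ (tors H a).ncard * (tors H b).ncard := by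
  refine ncard_fib (nsmulAddMonoidHom a) (tors_finite H (mul_ne_zero ha hb)) (tors_finite H ha)
    (tors_finite H hb) (fun u hu => ⟨H.nsmul_mem hu.1 a, ?_⟩)
    fun u hu v hv h => ⟨H.sub_mem hu.1 hv.1, ?_⟩
  · rw [nsmulAddMonoidHom_apply, ← mul_nsmul]
    exact hu.2
  · rw [nsmul_sub]
    exact sub_eq_zero.2 h

theorem tors_pow (H : AddSubgroup (Fin n → T1)) (k : ℕ) (D : ℕ) (hD : D ≠ 0)
    (h : ∀ l : ℕ, l.Prime → l ≤ D → (tors H l).ncard ≤ l ^ k) : (tors H D).ncard ≤ D ^ k := by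
  induction D using induction_on_primes with
  | zero => exact absurd rfl hD
  | one =>
    rw [one_pow, Set.ncard_le_one (tors_finite H one_ne_zero)]
    intro a ha b hb
    rw [← one_nsmul a, ← one_nsmul b, ha.2, hb.2]
  | prime_mul l a hl ih =>
    have ha : a ≠ 0 := right_ne_zero_of_mul hD
    rw [mul_pow]
    exact (tors_mul H hl.ne_zero ha).trans (Nat.mul_le_mul
      (h l hl (Nat.le_mul_of_pos_right _ (Nat.pos_of_ne_zero ha)))
      (ih ha fun l' hl' h' => h l' hl' (h'.trans (Nat.le_mul_of_pos_left _ hl.pos))))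

/-- the subgroup of doubles -/
noncomputable def dbl (H : AddSubgroup (Fin n → T1)) : AddSubgroup (Fin n → T1) :=
  H.map (nsmulAddMonoidHom 2)

theorem dbl_le (H : AddSubgroup (Fin n → T1)) : dbl H ≤ H := by
  rintro _ ⟨w, hw, rfl⟩
  exact H.nsmul_mem hw 2

theorem tors_dbl (H : AddSubgroup (Fin n → T1)) {D : ℕ} (hD : D ≠ 0) :
    (tors H D).ncard ≤ 2 ^ n * (tors (dbl H) D).ncard := by
  refine (ncard_fib (nsmulAddMonoidHom 2) (tors_finite H hD) (tors_finite H two_ne_zero)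
    (tors_finite (dbl H) hD) (fun u hu => ⟨⟨u, hu.1, rfl⟩, ?_⟩)
    fun u hu v hv h => ⟨H.sub_mem hu.1 hv.1, ?_⟩).trans (Nat.mul_le_mul_right _ (tors_two H))
  · rw [nsmulAddMonoidHom_apply, smul_comm, hu.2, nsmul_zero]
  · rw [nsmul_sub]
    exact sub_eq_zero.2 h

/-- the value of a coin modulo `l` -/
def vl (l : ℕ) (b : Bool) : ZMod l := if l = 2 then (if b then 0 else 1) else (sg b : ℤ)

/-- the matrix modulo `l` -/
def Nm (l : ℕ) (ω : Om n) : Matrix (Fin n) (Fin n) (ZMod l) := Matrix.of fun i j => vl l (ω s(i, j))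

/-- its kernel -/
def kr (l : ℕ) (ω : Om n) : Set (Fin n → ZMod l) := {y | Nm l ω *ᵥ y = 0}

theorem vl_inj {l : ℕ} (hl : l.Prime) : Function.Injective (vl l) := by
  have := Fact.mk hl
  have h : vl l true ≠ vl l false := by
    by_cases h : l = 2
    · simp [vl, h]
    · intro h1
      have h2 : ((2 : ℕ) : ZMod l) = 0 := by
        simp only [vl, h, sg, if_true, Bool.false_eq_true, if_false, Int.cast_one, Int.cast_neg] at h1
        linear_combination h1
      exact h ((Nat.prime_dvd_prime_iff_eq hl Nat.prime_two).1 ((ZMod.natCast_eq_zero_iff _ _).1 h2))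
  intro a b hab
  cases a <;> cases b
  · rfl
  · exact absurd hab.symm h
  · exact absurd hab h
  · rfl

theorem tors_odd {l : ℕ} (hl : l.Prime) (h2 : l ≠ 2) (ω : Om n) :
    (tors (dbl (Td (Mx ω))) l).ncard ≤ (kr l ω).ncard := by
  have : NeZero l := ⟨hl.ne_zero⟩
  refine le_trans (Set.ncard_le_ncard (t := emb l '' kr l ω) (fun u hu => ?_))
    (Set.ncard_image_le (Set.toFinite _))
  obtain ⟨y, rfl⟩ := exists_emb l hu.2
  refine ⟨y, funext fun i => ?_, rfl⟩
  have := dbl_le _ hu.1 i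
  rw [pr_emb, ZMod.toAddCircle_eq_zero] at this
  simpa [Nm, vl, h2, Mx, mulVec, dotProduct] using this

theorem tors_even (ω : Om n) : (tors (dbl (Td (Mx ω))) 2).ncard ≤ (kr 2 ω).ncard * 2 := by
  have h1 : {y : Fin n → ZMod 2 | ∃ s : ZMod 2, Nm 2 ω *ᵥ y = fun _ => s}.ncard ≤
      (kr 2 ω).ncard * (Set.range fun (s : ZMod 2) (_ : Fin n) => s).ncard :=
    ncard_fib (Nm 2 ω).mulVecLin.toAddMonoidHom (Set.toFinite _) (Set.toFinite _) (Set.toFinite _)
      (fun u ⟨s, hs⟩ => ⟨s, hs.symm⟩) fun u _ v _ h => by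
        show Nm 2 ω *ᵥ (u - v) = 0
        rw [mulVec_sub]
        exact sub_eq_zero.2 h
  have h2 : (Set.range fun (s : ZMod 2) (_ : Fin n) => s).ncard ≤ 2 := by
    rw [← Set.image_univ]
    refine (Set.ncard_image_le Set.finite_univ).trans ?_
    simp
  refine le_trans (Set.ncard_le_ncard (t := emb 2 '' _) (fun u hu => ?_))
    ((Set.ncard_image_le (Set.toFinite _)).trans (h1.trans (Nat.mul_le_mul_left _ h2)))
  obtain ⟨⟨w, hw, rfl⟩, h4⟩ := hu
  rw [nsmulAddMonoidHom_apply, ← mul_nsmul] at h4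
  obtain ⟨y, rfl⟩ := exists_emb 4 h4
  refine ⟨fun i => ((y i).val : ZMod 2), ⟨(((∑ j, ((y j).val : ℤ)) / 2 : ℤ) : ZMod 2), funext fun i => ?_⟩,
    funext fun i => ?_⟩
  · have a1 := hw i
    rw [pr_emb, ZMod.toAddCircle_eq_zero] at a1
    have a2 : (4 : ℤ) ∣ ∑ j, Mx ω i j * ((y j).val : ℤ) := by
      rw [show (4 : ℤ) = ((4 : ℕ) : ℤ) from rfl, ← ZMod.intCast_zmod_eq_zero_iff_dvd]
      simpa using a1
    have a3 : ∑ j, Mx ω i j * ((y j).val : ℤ) = ∑ j, ((y j).val : ℤ) -
        2 * ∑ j, (if ω s(i, j) then 0 else 1) * ((y j).val : ℤ) := by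
      rw [Finset.mul_sum, ← Finset.sum_sub_distrib]
      refine Finset.sum_congr rfl fun j _ => ?_
      simp only [Mx, of_apply, sg]
      split_ifs <;> ring
    have a4 : (((∑ j, (if ω s(i, j) then 0 else 1) * ((y j).val : ℤ) : ℤ)) : ZMod 2) =
        (((∑ j, ((y j).val : ℤ)) / 2 : ℤ) : ZMod 2) := by
      rw [ZMod.intCast_eq_intCast_iff']
      rw [a3] at a2
      omega
    rw [← a4]
    simp [Nm, vl, mulVec, dotProduct]
  · simp only [emb, nsmulAddMonoidHom_apply, Pi.smul_apply]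
    rw [ZMod.toAddCircle_natCast, ZMod.toAddCircle_apply, ← AddCircle.coe_nsmul]
    congr 1
    simp only [nsmul_eq_mul]
    push_cast
    ring

/-- symmetric Odlyzko bound -/
theorem odlyzko {p : ℝ} (hp0 : 0 < p) (hp1 : p < 1) (l k : ℕ) :
    Pr p {ω : Om n | l.Prime ∧ l ^ k < (kr l ω).ncard} ≤ 2 ^ n * pm p ^ (k ^ 2 / 2) := by
  classical
  by_cases hl : l.Prime
  swap
  · simp only [hl, false_and, Set.ofPred_false, Pr_empty]
    exact mul_nonneg (by positivity) (pow_nonneg pm_pos.le _)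
  have := Fact.mk hl
  refine le_trans (Pr_mono hp0.le hp1.le (F := {ω | ∃ I ∈ (Finset.univ : Finset (Finset (Fin n))),
    ω ∈ {ω : Om n | I.card + k ≤ n ∧ (Nm l ω).rank ≤ I.card ∧
      ((Nm l ω).submatrix (Subtype.val : I → Fin n) Subtype.val).det ≠ 0}}) fun ω hω => ?_)
    ((Pr_exists_le hp0.le hp1.le _ _ (b := pm p ^ (k ^ 2 / 2)) fun I _ => ?_).trans
      (le_of_eq (by simp)))
  · obtain ⟨I, h1, h2⟩ := sym_basis (Nm l ω) (by ext i j; simp [Nm, Sym2.eq_swap])
    refine ⟨I, Finset.mem_univ _, ?_, h1.ge, h2⟩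
    have a1 : (kr l ω).ncard = l ^ Module.finrank (ZMod l) (LinearMap.ker (Nm l ω).mulVecLin) := by
      rw [← _root_.Nat.card_coe_set_eq]
      have := Module.natCard_eq_pow_finrank (K := ZMod l) (V := LinearMap.ker (Nm l ω).mulVecLin)
      rw [Nat.card_zmod] at this
      exact this
    have a2 := (Nat.pow_lt_pow_iff_right hl.one_lt).1 (a1 ▸ hω.2)
    have a3 := (Nm l ω).mulVecLin.finrank_range_add_finrank_ker
    rw [Module.finrank_fin_fun] at a3
    rw [h1, Matrix.rank]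
    omega
  · by_cases hI : I.card + k ≤ n
    swap
    · simp only [hI, false_and, Set.ofPred_false, Pr_empty]
      exact pow_nonneg pm_pos.le _
    refine (Pr_det hp0.le hp1.le Iᶜ.sym2 _ fun x hx y hy h => ?_).trans
      (pow_le_pow_of_le_one pm_pos.le (pm_lt_one hp0 hp1).le ?_)
    · have a1 := sym_determined (Nm l x) (Nm l y) I hx.2.2 hx.2.1 hy.2.1 fun a b hab => by
        simp only [Nm, of_apply]
        rw [h]
        simp only [Finset.mk_mem_sym2_iff, Finset.mem_compl]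
        tauto
      funext c
      induction c using Sym2.ind with
      | h a b => exact vl_inj hl (congrFun (congrFun a1 a) b)
    · rw [Finset.card_sym2, Finset.card_compl, Fintype.card_fin, Nat.choose_two_right]
      refine Nat.div_le_div_right ?_
      have : k ≤ n - I.card := by omega
      rw [Nat.add_sub_cancel, sq]
      exact Nat.mul_le_mul (by omega) this

/-- the deterministic bound -/
theorem tors_le (ω : Om n) (k D : ℕ) (hD : D ≠ 0)
    (h : ∀ l : ℕ, l.Prime → l ≤ D → (kr l ω).ncard ≤ l ^ k) :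
    (tors (Td (Mx ω)) D).ncard ≤ 2 ^ n * D ^ (k + 1) := by
  refine (tors_dbl _ hD).trans (Nat.mul_le_mul_left _ (tors_pow _ _ D hD fun l hl hlD => ?_))
  rw [pow_succ]
  by_cases h2 : l = 2
  · subst h2
    exact (tors_even ω).trans (Nat.mul_le_mul_right _ (h 2 hl hlD))
  · exact (tors_odd hl h2 ω).trans ((h l hl hlD).trans (Nat.le_mul_of_pos_right _ hl.pos))

end RR

open RR in
theorem stR : StR := by
  intro p δ K C hp0 hp1 hδ hK
  have hlam : 0 < -Real.log (pm p) := neg_pos.2 (Real.log_neg pm_pos (pm_lt_one hp0 hp1))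
  set lam := -Real.log (pm p) with hlam'
  set c := δ / (2 * K) with hc
  have hc0 : 0 < c := by positivity
  have t1 : Tendsto (fun n : ℕ => (n : ℝ)) atTop atTop := tendsto_natCast_atTop_atTop
  filter_upwards [t1.eventually_ge_atTop 1, t1.eventually_ge_atTop (2 / c),
    t1.eventually_ge_atTop (4 * K / δ), t1.eventually_ge_atTop (8 * (K + 2 + |C| + lam) / (lam * c ^ 2)),
    (Real.tendsto_log_atTop.comp t1).eventually_ge_atTop (4 / δ)] with n h1 h2 h3 h4 h5
  set k := ⌊c * n⌋₊ with hk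
  have k1 : (k : ℝ) ≤ c * n := Nat.floor_le (by positivity)
  have k2 : c * n / 2 ≤ k := by
    rw [div_le_iff₀ hc0] at h2
    linarith [Nat.lt_floor_add_one (c * n)]
  have hn0 : (0 : ℝ) < n := by linarith
  have hlog : 0 ≤ Real.log n := Real.log_nonneg h1
  have e2 : (2 : ℝ) ^ n ≤ Real.exp n := by
    rw [← mul_one (n : ℝ), Real.exp_nat_mul]
    exact pow_le_pow_left₀ two_pos.le (by linarith [Real.add_one_le_exp 1]) n
  have eK : (n : ℝ) ^ K = Real.exp (K * Real.log n) := by rw [Real.rpow_def_of_pos hn0, mul_comm]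
  refine le_trans (Pr_mono hp0.le hp1.le (F := {ω | ∃ l ∈ Finset.range (⌊(n : ℝ) ^ K⌋₊ + 1),
    ω ∈ {ω : Om n | l.Prime ∧ l ^ k < (kr l ω).ncard}}) fun ω hω => ?_)
    ((Pr_exists_le hp0.le hp1.le _ _ fun l _ => odlyzko hp0 hp1 l k).trans ?_)
  · obtain ⟨D, d1, d2, d3⟩ := hω
    by_contra hcon
    have a1 := tors_le ω k D (by omega) fun l hl hlD => not_lt.1 fun h => hcon
      ⟨l, Finset.mem_range.2 (Nat.lt_succ_of_le (hlD.trans (Nat.le_floor d2))), hl, h⟩
    have a2 : ((tors (Td (Mx ω)) D).ncard : ℝ) ≤ 2 ^ n * (D : ℝ) ^ (k + 1) := by exact_mod_cast a1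
    have a3 : (D : ℝ) ^ (k + 1) ≤ Real.exp ((k + 1 : ℕ) * (K * Real.log n)) := by
      rw [Real.exp_nat_mul, ← eK]
      exact pow_le_pow_left₀ (Nat.cast_nonneg _) d2 _
    have a4 := (d3.trans_le a2).trans_le (mul_le_mul e2 a3 (by positivity) (Real.exp_pos _).le)
    rw [← Real.exp_add, Real.exp_lt_exp, Lg] at a4
    push_cast at a4
    have b1 : (k : ℝ) * (K * Real.log n) ≤ δ / 2 * (n * Real.log n) := by
      have : c * n * (K * Real.log n) = δ / 2 * (n * Real.log n) := by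
        rw [hc]
        field_simp
      nlinarith [mul_le_mul_of_nonneg_right k1 (mul_nonneg hK.le hlog)]
    have b2 : K * Real.log n ≤ δ / 4 * (n * Real.log n) := by
      rw [div_le_iff₀ hδ] at h3
      nlinarith [mul_le_mul_of_nonneg_right h3 hlog]
    have b3 : (n : ℝ) ≤ δ / 4 * (n * Real.log n) := by
      have h6 : 4 / δ ≤ Real.log n := h5
      rw [div_le_iff₀ hδ] at h6
      nlinarith [mul_le_mul_of_nonneg_right h6 hn0.le]
    linarith
  · have a1 : ((Finset.range (⌊(n : ℝ) ^ K⌋₊ + 1)).card : ℝ) ≤ Real.exp ((K + 1) * n) := by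
      rw [Finset.card_range]
      push_cast
      have b1 : (⌊(n : ℝ) ^ K⌋₊ : ℝ) ≤ Real.exp (K * n) := by
        refine (Nat.floor_le (by positivity)).trans (eK.le.trans (Real.exp_le_exp.2 ?_))
        exact mul_le_mul_of_nonneg_left (by linarith [Real.log_le_sub_one_of_pos hn0]) hK.le
      have b2 : 1 ≤ Real.exp (K * n) := Real.one_le_exp (by positivity)
      rw [add_mul, one_mul, Real.exp_add]
      nlinarith [Real.add_one_le_exp (n : ℝ)]
    have a2 : pm p ^ (k ^ 2 / 2) = Real.exp (-lam * ((k ^ 2 / 2 : ℕ) : ℝ)) := by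
      rw [hlam', neg_neg, mul_comm, Real.exp_nat_mul, Real.exp_log pm_pos]
    have a3 : (k : ℝ) ^ 2 / 2 - 1 ≤ ((k ^ 2 / 2 : ℕ) : ℝ) := by
      have : k ^ 2 ≤ 2 * (k ^ 2 / 2) + 2 := by omega
      have : ((k ^ 2 : ℕ) : ℝ) ≤ ((2 * (k ^ 2 / 2) + 2 : ℕ) : ℝ) := by exact_mod_cast this
      push_cast at this
      linarith
    refine (mul_le_mul a1 (mul_le_mul_of_nonneg_right e2 (pow_nonneg pm_pos.le _))
      (mul_nonneg (by positivity) (pow_nonneg pm_pos.le _)) (Real.exp_pos _).le).trans ?_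
    rw [a2, ← Real.exp_add, ← Real.exp_add, Real.exp_le_exp]
    rw [div_le_iff₀ (by positivity)] at h4
    have b1 : (c * n / 2) ^ 2 ≤ (k : ℝ) ^ 2 := pow_le_pow_left₀ (by positivity) k2 2
    have b2 := mul_le_mul_of_nonneg_left a3 hlam.le
    have b3 := mul_le_mul_of_nonneg_left b1 hlam.le
    have b4 := mul_le_mul_of_nonneg_right h4 hn0.le
    have b5 := mul_le_mul_of_nonneg_right (le_abs_self C) hn0.le
    have b6 := mul_le_mul_of_nonneg_left h1 hlam.le
    nlinarith

end Crest.Agent.R152
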