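import Crest.Agent.R152.Iface

/-! Row 152, rationality lemma.  Recipe: for `g ∈ Bo (r/N)` two of the `N+1` translates `A + i g` meet, so `‖i • χ g‖ ≤ 2η` for some `1 ≤ i ≤ N`; hence `χ g` is within `2η` of a point `ρ g`
of order `≤ N`.  Build a chain `D₁ ∣ D₂ ∣ …` (each at least doubling, so at most `N` steps): keep `h = ∑ a_j g_j` (`0 ≤ a_j < N`, `g_j ∈ Bo (r/N³)`) with `∑ a_j ρ g_j` of order `D`;
if some `ρ g` has order not dividing `D`, a combination has order `lcm ≤ N²`, and the first step applied to it forces `lcm ≤ N` (`4 N³ η < 1/N²`). -/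

set_option autoImplicit false
open Matrix Filter

namespace Crest.Agent.R152

theorem rat_nsmul {G : Type} [AddCommGroup G] {Bo : ℝ → Finset G} (h0 : ∀ a, 0 ≤ a → (0 : G) ∈ Bo a)
    (hadd : ∀ a b u v, u ∈ Bo a → v ∈ Bo b → u + v ∈ Bo (a + b)) {a : ℝ} {u : G} (hu : u ∈ Bo a) (i : ℕ) :
    i • u ∈ Bo (i * a) := by
  induction i with
  | zero => simpa using h0 0 le_rfl
  | succ i ih =>
    rw [succ_nsmul, Nat.cast_succ, add_mul, one_mul]
    exact hadd _ _ _ _ ih hu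

theorem rat_step {G : Type} [AddCommGroup G] [DecidableEq G] (Bo : ℝ → Finset G) (χ : G →+ T1) {N : ℕ}
    {τ r η : ℝ} (hN : 1 ≤ N) (hτ : 0 ≤ τ) (hr : 0 ≤ r) (h0 : ∀ a, 0 ≤ a → (0 : G) ∈ Bo a)
    (hadd : ∀ a b u v, u ∈ Bo a → v ∈ Bo b → u + v ∈ Bo (a + b)) (hmono : ∀ a b, a ≤ b → Bo a ⊆ Bo b)
    (hreg : (Bo (τ + r)).card ≤ 2 * (Bo τ).card)
    (hpop : 2 * (Bo τ).card ≤ N * ((Bo τ).filter (fun g => ‖χ g‖ ≤ η)).card) (g : G)
    (hg : g ∈ Bo (r / N)) : ∃ i : ℕ, 1 ≤ i ∧ i ≤ N ∧ ‖i • χ g‖ ≤ 2 * η := by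
  set A := (Bo τ).filter (fun g => ‖χ g‖ ≤ η) with hA
  have hN0 : (0 : ℝ) < N := by exact_mod_cast hN
  have hpos : 0 < (Bo τ).card := Finset.card_pos.2 ⟨0, h0 τ hτ⟩
  have hApos : 0 < A.card := Nat.pos_of_ne_zero fun h => by rw [h] at hpop; omega
  obtain ⟨x, hx, y, hy, hxy, h⟩ := Finset.exists_ne_map_eq_of_card_lt_of_maps_to
    (s := Finset.range (N + 1) ×ˢ A) (t := Bo (τ + r)) (f := fun q => q.2 + q.1 • g)
    (by rw [Finset.card_product, Finset.card_range, add_mul, one_mul]; omega) (fun q hq => by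
      obtain ⟨h1, h2⟩ := Finset.mem_product.1 hq
      have h3 : (q.1 : ℝ) ≤ N := by exact_mod_cast Nat.lt_succ_iff.1 (Finset.mem_range.1 h1)
      refine hmono _ _ ?_ (hadd _ _ _ _ (Finset.mem_filter.1 h2).1 (rat_nsmul h0 hadd hg q.1))
      calc τ + q.1 * (r / N) ≤ τ + N * (r / N) := by gcongr
        _ = _ := by field_simp)
  have key : ∀ x ∈ Finset.range (N + 1) ×ˢ A, ∀ y ∈ Finset.range (N + 1) ×ˢ A,
      x.2 + x.1 • g = y.2 + y.1 • g → x.1 < y.1 → ∃ i : ℕ, 1 ≤ i ∧ i ≤ N ∧ ‖i • χ g‖ ≤ 2 * η := by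
    intro x hx y hy h hlt
    obtain ⟨k, hk⟩ := Nat.exists_eq_add_of_le hlt.le
    have h1 := Finset.mem_range.1 (Finset.mem_product.1 hy).1
    refine ⟨k, by omega, by omega, ?_⟩
    rw [hk, add_nsmul, add_comm (x.1 • g), ← add_assoc, add_left_inj] at h
    have e : k • χ g = χ x.2 - χ y.2 := by rw [h, map_add, map_nsmul, add_sub_cancel_left]
    rw [e]
    linarith [norm_sub_le (χ x.2) (χ y.2), (Finset.mem_filter.1 (Finset.mem_product.1 hx).2).2,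
      (Finset.mem_filter.1 (Finset.mem_product.1 hy).2).2]
  rcases lt_trichotomy x.1 y.1 with h1 | h1 | h1
  · exact key x hx y hy h h1
  · exact absurd (Prod.ext h1 (by simpa [h1] using h)) hxy
  · exact key y hy x hx h.symm h1

theorem rat_near {x : T1} {i : ℕ} (hi : 1 ≤ i) {ε : ℝ} (h : ‖i • x‖ ≤ ε) :
    ∃ ρ : T1, i • ρ = 0 ∧ ‖x - ρ‖ ≤ ε := by
  obtain ⟨t, ht⟩ := QuotientAddGroup.mk_surjective (i • x)
  have hi' : (1 : ℝ) ≤ i := by exact_mod_cast hi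
  rw [← ht, UnitAddCircle.norm_eq] at h
  refine ⟨x - (((t - round t) / i : ℝ) : T1), ?_, ?_⟩
  · rw [smul_sub, ← ht, ← AddCircle.coe_nsmul, ← AddCircle.coe_sub, AddCircle.coe_eq_zero_iff]
    refine ⟨round t, ?_⟩
    rw [nsmul_eq_mul, mul_div_cancel₀ _ (by positivity)]
    simp
  · rw [sub_sub_cancel]
    refine QuotientAddGroup.norm_mk_le_norm.trans ?_
    rw [Real.norm_eq_abs, abs_div, Nat.abs_cast]
    exact (div_le_self (abs_nonneg _) hi').trans h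

theorem rat_order {A : Type} [AddCommGroup A] {σ ρ : A} (hσ : IsOfFinAddOrder σ) (hρ : IsOfFinAddOrder ρ)
    (h : addOrderOf σ • ρ ≠ 0) : ∃ b ≤ addOrderOf ρ, addOrderOf σ < addOrderOf (σ + b • ρ) ∧
      addOrderOf (σ + b • ρ) ≤ addOrderOf σ * addOrderOf ρ := by
  have hD := hσ.addOrderOf_pos
  have he := hρ.addOrderOf_pos
  obtain ⟨q, hq, hlt⟩ : ∃ q : ℕ, q.Prime ∧
      (addOrderOf σ).factorization q < (addOrderOf ρ).factorization q := by
    by_contra hc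
    push Not at hc
    exact h (addOrderOf_dvd_iff_nsmul_eq_zero.1 ((Nat.factorization_prime_le_iff_dvd he.ne' hD.ne').1 hc))
  obtain ⟨k, hk⟩ := Nat.exists_eq_add_of_lt hlt
  have hdvd : q ^ ((addOrderOf σ).factorization q + k + 1) ∣ addOrderOf ρ := hk ▸ Nat.ordProj_dvd _ _
  have hD' := Nat.ordProj_mul_ordCompl_eq_self (addOrderOf σ) q
  have hnd := Nat.not_dvd_ordCompl hq hD.ne'
  generalize addOrderOf σ / q ^ (addOrderOf σ).factorization q = D' at hD' hnd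
  generalize (addOrderOf σ).factorization q = j at *
  obtain ⟨b, hb⟩ := hdvd
  have hb0 : b ≠ 0 := fun h0 => he.ne' (by rw [hb, h0, mul_zero])
  have hρ' : addOrderOf (b • ρ) = q ^ (j + k + 1) := by
    rw [addOrderOf_nsmul_of_dvd hb0 (hb ▸ dvd_mul_left _ _), hb, Nat.mul_div_cancel _ (Nat.pos_of_ne_zero hb0)]
  have hf : IsOfFinAddOrder (σ + b • ρ) := hσ.add hρ.nsmul
  have hm := hf.addOrderOf_pos
  refine ⟨b, Nat.le_of_dvd he (hb ▸ dvd_mul_left _ _), ?_, ?_⟩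
  · have hcop : Nat.Coprime (q ^ (j + k + 1)) D' := ((Nat.Prime.coprime_iff_not_dvd hq).2 hnd).pow_left _
    have h1 : D' ∣ addOrderOf (σ + b • ρ) := by
      refine hcop.symm.dvd_of_dvd_mul_left ((Dvd.intro_left _ hD').trans ?_)
      rw [addOrderOf_dvd_iff_nsmul_eq_zero]
      have e1 : (q ^ (j + k + 1) * addOrderOf (σ + b • ρ)) • (σ + b • ρ) = 0 :=
        addOrderOf_dvd_iff_nsmul_eq_zero.1 (dvd_mul_left _ _)
      have e2 : (q ^ (j + k + 1) * addOrderOf (σ + b • ρ)) • (b • ρ) = 0 :=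
        addOrderOf_dvd_iff_nsmul_eq_zero.1 (hρ' ▸ dvd_mul_right _ _)
      rwa [smul_add, e2, add_zero] at e1
    have h2 : q ^ (j + k + 1) ∣ addOrderOf (σ + b • ρ) := by
      obtain ⟨i, m', hm', e⟩ := Nat.exists_eq_pow_mul_and_not_dvd hm.ne' q hq.ne_one
      by_contra hc
      have hi : i ≤ j + k := by
        by_contra hi
        exact hc (e ▸ (pow_dvd_pow q (by omega)).mul_right _)
      have e1 : (q ^ (j + k) * (m' * D')) • (σ + b • ρ) = 0 := by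
        rw [← addOrderOf_dvd_iff_nsmul_eq_zero, e]
        exact mul_dvd_mul (pow_dvd_pow q hi) (dvd_mul_right _ _)
      have e2 : (q ^ (j + k) * (m' * D')) • σ = 0 := by
        rw [← addOrderOf_dvd_iff_nsmul_eq_zero, ← hD']
        exact mul_dvd_mul (pow_dvd_pow q (by omega)) (dvd_mul_left _ _)
      rw [smul_add, e2, zero_add, ← addOrderOf_dvd_iff_nsmul_eq_zero, hρ', pow_succ,
        Nat.mul_dvd_mul_iff_left (pow_pos hq.pos _)] at e1
      exact (hq.dvd_mul.1 e1).elim hm' hnd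
    have hD0 : 0 < D' := Nat.pos_of_ne_zero fun h0 => hnd (h0 ▸ dvd_zero q)
    refine lt_of_lt_of_le ?_ (Nat.le_of_dvd hm (hcop.mul_dvd_of_dvd_of_dvd h2 h1))
    rw [← hD']
    exact Nat.mul_lt_mul_of_pos_right (Nat.pow_lt_pow_right hq.one_lt (by omega)) hD0
  · refine addOrderOf_le_of_nsmul_eq_zero (Nat.mul_pos hD he) ?_
    rw [smul_add, addOrderOf_dvd_iff_nsmul_eq_zero.1 (dvd_mul_right _ _), zero_add, smul_comm,
      addOrderOf_dvd_iff_nsmul_eq_zero.1 (dvd_mul_left _ _), smul_zero]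

theorem stRat : StRat := by
  intro G _ _ Bo χ N τ r η hN hτ hr hη hsm h0 hadd hmono hreg hpop
  classical
  have hN1 : (1 : ℝ) ≤ N := by exact_mod_cast hN
  have hN0 : (0 : ℝ) < N := by linarith
  have hstep := rat_step Bo χ hN hτ hr h0 hadd hmono hreg hpop
  have hr3 : 0 ≤ r / (N : ℝ) ^ 3 := by positivity
  let Q : ℕ → Prop := fun D => ∃ (c : ℕ) (h : G) (σ : T1), addOrderOf σ = D ∧ c + N ≤ N * D ∧
    h ∈ Bo (c * (r / (N : ℝ) ^ 3)) ∧ ‖χ h - σ‖ ≤ c * (2 * η)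
  have hQ1 : Q 1 := ⟨0, 0, 0, addOrderOf_zero, by simp, by simpa using h0 0 le_rfl, by simp⟩
  have hD1 : 1 ≤ Nat.findGreatest Q N := Nat.le_findGreatest hN hQ1
  have hDN : Nat.findGreatest Q N ≤ N := Nat.findGreatest_le N
  have hmax : ∀ m, Nat.findGreatest Q N < m → m ≤ N → ¬ Q m := fun m h1 h2 =>
    Nat.findGreatest_is_greatest h1 h2
  obtain ⟨c, h, σ, hσ, hc, hh, hhσ⟩ : Q (Nat.findGreatest Q N) := Nat.findGreatest_spec hN hQ1
  generalize Nat.findGreatest Q N = D at *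
  refine ⟨D, hD1, hDN, fun g hg => ?_⟩
  have hle : r / (N : ℝ) ^ 3 ≤ r / N :=
    div_le_div_of_nonneg_left hr hN0 (le_self_pow₀ hN1 (by norm_num))
  obtain ⟨i, hi1, hiN, hi⟩ := hstep g (hmono _ _ hle hg)
  obtain ⟨ρ, hρ0, hρ⟩ := rat_near hi1 hi
  have hρN : addOrderOf ρ ≤ N := (addOrderOf_le_of_nsmul_eq_zero hi1 hρ0).trans hiN
  have hρf : IsOfFinAddOrder ρ := isOfFinAddOrder_iff_nsmul_eq_zero.2 ⟨i, hi1, hρ0⟩
  by_cases hD : D • ρ = 0
  · have e : D • χ g = D • (χ g - ρ) := by rw [smul_sub, hD, sub_zero]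
    rw [e]
    have hDN' : (D : ℝ) ≤ N := by exact_mod_cast hDN
    calc _ ≤ D * ‖χ g - ρ‖ := norm_nsmul_le
      _ ≤ N * (2 * η) := by gcongr
      _ = _ := by ring
  exfalso
  have hσf : IsOfFinAddOrder σ := addOrderOf_pos_iff.1 (by omega)
  obtain ⟨b, hb, hlt, hle2⟩ := rat_order hσf hρf (hσ ▸ hD)
  rw [hσ] at hlt hle2
  have hcb : c + b ≤ N * N := by nlinarith
  have hcb' : ((c + b : ℕ) : ℝ) ≤ (N : ℝ) ^ 2 := by
    rw [sq]
    exact_mod_cast hcb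
  have hm1 : h + b • g ∈ Bo ((c + b : ℕ) * (r / (N : ℝ) ^ 3)) := by
    rw [Nat.cast_add, add_mul]
    exact hadd _ _ _ _ hh (rat_nsmul h0 hadd hg b)
  have hm2 : ‖χ (h + b • g) - (σ + b • ρ)‖ ≤ (c + b : ℕ) * (2 * η) := by
    rw [map_add, map_nsmul, add_sub_add_comm, ← smul_sub, Nat.cast_add, add_mul]
    refine (norm_add_le _ _).trans (add_le_add hhσ (norm_nsmul_le.trans ?_))
    gcongr
  have hle3 : ((c + b : ℕ) : ℝ) * (r / (N : ℝ) ^ 3) ≤ r / N := by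
    calc _ ≤ (N : ℝ) ^ 2 * (r / (N : ℝ) ^ 3) := by gcongr
      _ = _ := by field_simp
  obtain ⟨j, hj1, hjN, hj⟩ := hstep _ (hmono _ _ hle3 hm1)
  have hf : IsOfFinAddOrder (σ + b • ρ) := addOrderOf_pos_iff.1 (by omega)
  have hz : j • (σ + b • ρ) = 0 := by
    by_contra hne
    have h1 := AddCircle.le_add_order_smul_norm_of_isOfFinAddOrder (p := (1 : ℝ)) (hf.nsmul (n := j)) hne
    have h2 : addOrderOf (j • (σ + b • ρ)) ≤ N * N :=
      (Nat.le_of_dvd hf.addOrderOf_pos (addOrderOf_smul_dvd j)).trans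
        (hle2.trans (Nat.mul_le_mul hDN hρN))
    have h2' : (addOrderOf (j • (σ + b • ρ)) : ℝ) ≤ (N : ℝ) ^ 2 := by
      rw [sq]
      exact_mod_cast h2
    have hjN' : (j : ℝ) ≤ N := by exact_mod_cast hjN
    have h3 : ‖j • (σ + b • ρ)‖ ≤ 2 * η + N * ((N : ℝ) ^ 2 * (2 * η)) := by
      have e : j • (σ + b • ρ) = j • χ (h + b • g) - j • (χ (h + b • g) - (σ + b • ρ)) := by
        rw [← smul_sub, sub_sub_cancel]
      rw [e]
      refine (norm_sub_le _ _).trans (add_le_add hj (norm_nsmul_le.trans ?_))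
      exact mul_le_mul hjN' (hm2.trans (by gcongr)) (norm_nonneg _) hN0.le
    rw [nsmul_eq_mul] at h1
    have h4 := h1.trans (mul_le_mul h2' h3 (norm_nonneg _) (by positivity))
    have h5 : (N : ℝ) ^ 2 ≤ (N : ℝ) ^ 5 := pow_le_pow_right₀ hN1 (by norm_num)
    nlinarith [mul_le_mul_of_nonneg_right h5 hη]
  refine hmax _ hlt ((addOrderOf_le_of_nsmul_eq_zero hj1 hz).trans hjN) ⟨c + b, _, _, rfl, ?_, hm1, hm2⟩
  have := Nat.mul_le_mul_left N (Nat.succ_le_of_lt hlt)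
  rw [Nat.mul_succ] at this
  omega

end Crest.Agent.R152
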