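import Crest.Agent.R152.Iface
import Crest.Agent.R152.P
import Crest.Agent.R152.LA

/-! Row 152, reduction to corank one, lower bound, limit; notes152/H33.md section 0 "Red" (`sym_basis`, `sym_determined` over `ℚ`, `fresh` with `E0` the event `OneEv` of the
principal submatrix on `I ∪ {i}`, `Pr_res`). -/

set_option autoImplicit false
open Matrix Filter

namespace Crest.Agent.R152
open Crest.FinProb

namespace Red

/-- coordinates determined by the others, inside an event that does not see them -/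
theorem Pr_det_cond {β : Type} [Fintype β] [DecidableEq β] {p : ℝ} (hp0 : 0 ≤ p) (hp1 : p ≤ 1)
    (S : Finset β) (E0 Z : Set (β → Bool))
    (hE0 : ∀ x y : β → Bool, (∀ c, c ∉ S → x c = y c) → x ∈ E0 → y ∈ E0) (hZE : Z ⊆ E0)
    (hZ : ∀ x ∈ Z, ∀ y ∈ Z, (∀ c, c ∉ S → x c = y c) → x = y) :
    Pr p Z ≤ Pr p E0 * pm p ^ S.card := by
  classical
  let e : S ↪ β := Function.Embedding.subtype _
  let g : (β → Bool) → (S → Bool) → β → Bool := fun ω y b => if h : b ∈ S then y ⟨b, h⟩ else ω b
  let F : (β → Bool) → Set (S → Bool) := fun ω => {y | g ω y ∈ Z}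
  have hg : ∀ ω : β → Bool, g ω (fun c => ω (e c)) = ω := by
    intro ω; funext b
    by_cases h : b ∈ S <;> simp [g, h, e]
  have h1 : Z = {ω : β → Bool | (fun c => ω (e c)) ∈ F ω} := by
    ext ω; simp only [F, Set.mem_ofPred_eq, hg]
  have hF : ∀ ω ω' : β → Bool, (∀ b, b ∉ Set.range e → ω b = ω' b) → F ω = F ω' := by
    intro ω ω' h
    have : g ω = g ω' := by
      funext y b
      by_cases hb : b ∈ S
      · simp [g, hb]
      · simp only [g, hb, dif_neg, not_false_eq_true]
        exact h b (by rintro ⟨c, rfl⟩; exact hb c.2)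
    simp only [F, this]
  rw [h1, Pr_split e F hF, Pr_eq_sum E0, Finset.sum_mul]
  refine Finset.sum_le_sum fun ω _ => ?_
  by_cases hω : ω ∈ E0
  · rw [if_pos hω]
    refine mul_le_mul_of_nonneg_left ?_ (wt_nonneg hp0 hp1 ω)
    have := Pr_det hp0 hp1 (Finset.univ : Finset S) (F ω) (fun x hx y hy _ => by
      have h2 := hZ _ hx _ hy (fun c hc => by simp [g, hc])
      funext c
      have := congrFun h2 c.1
      simpa [g, c.2] using this)
    simpa using this
  · have : F ω = ∅ := by
      ext y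
      simp only [F, Set.mem_ofPred_eq, Set.mem_empty_iff_false, iff_false]
      intro hy
      exact hω (hE0 _ _ (fun c hc => by simp [g, hc]) (hZE hy))
    rw [this, Pr_empty, if_neg hω]
    simp

/-- the rational matrix -/
def Mq {n : ℕ} (ω : Om n) : Matrix (Fin n) (Fin n) ℚ := (Mx ω).map (Int.castRingHom ℚ)

theorem det_sub {n : ℕ} (ω : Om n) {ι : Type} [Fintype ι] [DecidableEq ι] (f : ι → Fin n) :
    ((Mq ω).submatrix f f).det = (((Mx ω).submatrix f f).det : ℚ) := by
  have := (Int.castRingHom ℚ).map_det ((Mx ω).submatrix f f)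
  rw [eq_intCast] at this
  rw [this]; rfl

theorem Mq_isSymm {n : ℕ} (ω : Om n) : (Mq ω).IsSymm := (Mx_isSymm ω).map _

theorem sg_inj {a b : Bool} (h : sg a = sg b) : a = b := by
  cases a <;> cases b <;> simp_all [sg]

/-- rank at most `|I|` with a nonsingular principal minor on `I` -/
def Ev {n : ℕ} (I : Finset (Fin n)) : Set (Om n) :=
  {ω | (Mq ω).rank ≤ I.card ∧ ((Mq ω).submatrix (Subtype.val : I → Fin n) Subtype.val).det ≠ 0}

theorem cover {n : ℕ} (ω : Om n) (h : (Mx ω).det = 0) :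
    ∃ i : Fin n, ∃ I ∈ (Finset.univ.erase i).powerset, ω ∈ Ev I := by
  obtain ⟨I, hI, hd⟩ := sym_basis (Mq ω) (Mq_isSymm ω)
  by_cases hU : ∀ i, i ∈ I
  · exfalso
    let e : I ≃ Fin n := Equiv.ofBijective Subtype.val ⟨Subtype.val_injective, fun i => ⟨⟨i, hU i⟩, rfl⟩⟩
    have h1 : ((Mq ω).submatrix e e).det = (Mq ω).det := det_submatrix_equiv_self e _
    have h2 := det_sub ω (id : Fin n → Fin n)
    simp only [submatrix_id_id, h, Int.cast_zero] at h2
    exact hd (h1.trans h2)
  · push Not at hU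
    obtain ⟨i, hi⟩ := hU
    refine ⟨i, I, Finset.mem_powerset.2 fun a ha => ?_, hI.ge, hd⟩
    exact Finset.mem_erase.2 ⟨fun h => hi (h ▸ ha), Finset.mem_univ _⟩

/-- the embedding with range `I ∪ {i}` -/
noncomputable def emb {n : ℕ} (I : Finset (Fin n)) (i : Fin n) (hi : i ∉ I) : Fin (I.card + 1) ↪ Fin n where
  toFun := Fin.cons i (fun k => (I.equivFin.symm k : Fin n))
  inj' := by
    refine Fin.cons_injective_iff.2 ⟨?_, Subtype.val_injective.comp I.equivFin.symm.injective⟩
    rintro ⟨k, hk⟩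
    exact hi (hk ▸ (I.equivFin.symm k).2)

theorem emb_mem {n : ℕ} (I : Finset (Fin n)) (i : Fin n) (hi : i ∉ I) (k : Fin (I.card + 1)) :
    emb I i hi k = i ∨ emb I i hi k ∈ I := by
  refine Fin.cases (Or.inl rfl) (fun k => Or.inr ?_) k
  exact (I.equivFin.symm k).2

theorem Ev_sub {n : ℕ} (I : Finset (Fin n)) (i : Fin n) (hi : i ∉ I) :
    Ev I ⊆ {ω : Om n | res (emb I i hi) ω ∈ OneEv I.card} := by
  rintro ω ⟨hr, hd⟩
  refine ⟨?_, 0, ?_⟩
  · rw [Mx_res]
    by_contra h0
    have h1 : ((Mq ω).submatrix (emb I i hi) (emb I i hi)).det ≠ 0 := by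
      rw [det_sub]; exact_mod_cast h0
    have h2 := rank_of_det_ne_zero h1
    have h3 := rank_submatrix_le (Mq ω) (emb I i hi) (emb I i hi)
    rw [h2, Fintype.card_fin] at h3
    omega
  · rw [Mx_res, submatrix_submatrix]
    have h1 : ((emb I i hi) ∘ (0 : Fin (I.card + 1)).succAbove) =
        (Subtype.val : I → Fin n) ∘ I.equivFin.symm := by
      funext k; simp [emb]
    rw [h1, ← submatrix_submatrix, det_submatrix_equiv_self]
    rw [det_sub] at hd
    exact_mod_cast hd

theorem Pr_Ev {p : ℝ} (hp0 : 0 ≤ p) (hp1 : p ≤ 1) {n : ℕ} (i : Fin n) (I : Finset (Fin n))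
    (hI : I ⊆ Finset.univ.erase i) :
    Pr p (Ev I) ≤ Pr p (OneEv I.card) *
      pm p ^ (((Finset.univ.erase i).card - I.card + 1).choose 2) := by
  have hi : i ∉ I := fun h => by simpa using hI h
  let J := Finset.univ.erase i \ I
  have hJ : J.card = (Finset.univ.erase i).card - I.card := Finset.card_sdiff_of_subset hI
  rw [← hJ, ← Finset.card_sym2, ← Pr_res (emb I i hi) (OneEv I.card)]
  refine Pr_det_cond hp0 hp1 J.sym2 _ _ (fun x y hxy hx => ?_) (Ev_sub I i hi) ?_
  · have : res (emb I i hi) x = res (emb I i hi) y := by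
      funext s
      refine hxy _ fun hs => ?_
      induction s using Sym2.ind with
      | _ a b =>
        rw [Sym2.map_mk, Finset.mk_mem_sym2_iff] at hs
        have h1 := hs.1
        simp only [J, Finset.mem_sdiff, Finset.mem_erase] at h1
        rcases emb_mem I i hi a with h | h
        · exact h1.1.1 h
        · exact h1.2 h
    show res (emb I i hi) y ∈ OneEv I.card
    rw [← this]; exact hx
  · rintro x ⟨hr, hd⟩ y ⟨hr', -⟩ hxy
    have h := sym_determined (Mq x) (Mq y) I hd hr hr' (fun a b hab => by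
      have : x s(a, b) = y s(a, b) := by
        refine hxy _ fun hs => ?_
        rw [Finset.mk_mem_sym2_iff] at hs
        simp only [J, Finset.mem_sdiff] at hs
        rcases hab with h | h
        · exact hs.1.2 h
        · exact hs.2.2 h
      simp [Mq, Mx, this])
    funext s
    induction s using Sym2.ind with
    | _ a b =>
      have h1 := congrFun (congrFun h a) b
      simp only [Mq, Mx, map_apply, of_apply, eq_intCast, Int.cast_inj] at h1
      exact sg_inj h1

theorem pow_choose_le {a t : ℝ} (ha0 : 0 < a) (ha1 : a < 1) (ht0 : 0 < t) (ht1 : t ≤ 1) :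
    ∃ K : ℝ, 0 < K ∧ ∀ j : ℕ, a ^ ((j + 1).choose 2) ≤ K * t ^ j := by
  obtain ⟨m, hm⟩ := exists_pow_lt_of_lt_one ht0 ha1
  refine ⟨(t ^ (2 * m))⁻¹, by positivity, fun j => ?_⟩
  have hK : 1 ≤ (t ^ (2 * m))⁻¹ := one_le_inv_iff₀.2 ⟨by positivity, pow_le_one₀ ht0.le ht1⟩
  by_cases hj : j ≤ 2 * m
  · calc a ^ ((j + 1).choose 2) ≤ 1 := pow_le_one₀ ha0.le ha1.le
      _ ≤ (t ^ (2 * m))⁻¹ * t ^ j := by
        rw [← div_eq_inv_mul, one_le_div (by positivity)]
        exact pow_le_pow_of_le_one ht0.le ht1 hj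
  · have h1 : m * j ≤ (j + 1).choose 2 := by
      rw [Nat.choose_two_right, Nat.add_sub_cancel, Nat.le_div_iff_mul_le two_pos]
      nlinarith
    calc a ^ ((j + 1).choose 2) ≤ a ^ (m * j) := pow_le_pow_of_le_one ha0.le ha1.le h1
      _ = (a ^ m) ^ j := pow_mul _ _ _
      _ ≤ t ^ j := pow_le_pow_left₀ (by positivity) hm.le _
      _ ≤ (t ^ (2 * m))⁻¹ * t ^ j := le_mul_of_one_le_left (by positivity) hK

theorem upper (hOne : StOne) {p ε : ℝ} (hp0 : 0 < p) (hp1 : p < 1) (hε : 0 < ε) :
    ∃ C : ℝ, 0 < C ∧ ∀ n : ℕ,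
      Pr p {ω : Om (n + 1) | (Mx ω).det = 0} ≤ C * (n + 1) * (rho p + ε) ^ n := by
  obtain ⟨C, hC⟩ := hOne p (ε / 2) hp0 hp1 (by positivity)
  obtain ⟨K, hK, hK'⟩ := pow_choose_le (pm_pos (p := p)) (pm_lt_one hp0 hp1)
    (t := min (ε / 2) 1) (by positivity) (min_le_right _ _)
  have hρ : 0 < rho p := lt_of_lt_of_le (by norm_num) rho_ge
  set t := min (ε / 2) 1 with ht
  have ht0 : 0 < t := by positivity
  refine ⟨(|C| + 1) * K, by positivity, fun n => ?_⟩
  have h1 : {ω : Om (n + 1) | (Mx ω).det = 0} ⊆ {ω | ∃ i ∈ (Finset.univ : Finset (Fin (n + 1))),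
      ω ∈ {ω : Om (n + 1) | ∃ I ∈ (Finset.univ.erase i).powerset, ω ∈ Ev I}} := by
    intro ω hω
    obtain ⟨i, I, hI, h⟩ := cover ω hω
    exact ⟨i, Finset.mem_univ _, I, hI, h⟩
  refine (Pr_mono hp0.le hp1.le h1).trans ((Pr_exists_le hp0.le hp1.le _ _
    (b := (|C| + 1) * K * (rho p + ε) ^ n) fun i _ => ?_).trans (le_of_eq ?_))
  · refine (Pr_exists_le_sum hp0.le hp1.le _ _).trans ?_
    have hc : (Finset.univ.erase i).card = n := by simp
    calc ∑ I ∈ (Finset.univ.erase i).powerset, Pr p (Ev I)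
        ≤ ∑ I ∈ (Finset.univ.erase i).powerset, (|C| + 1) * K *
          ((rho p + ε / 2) ^ I.card * t ^ ((Finset.univ.erase i).card - I.card)) := by
          refine Finset.sum_le_sum fun I hI => (Pr_Ev hp0.le hp1.le i I
            (Finset.mem_powerset.1 hI)).trans ?_
          have h2 : Pr p (OneEv I.card) ≤ (|C| + 1) * (rho p + ε / 2) ^ I.card :=
            (hC _).trans (mul_le_mul_of_nonneg_right (by linarith [le_abs_self C]) (by positivity))
          calc _ ≤ ((|C| + 1) * (rho p + ε / 2) ^ I.card) *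
                (K * t ^ ((Finset.univ.erase i).card - I.card)) :=
                mul_le_mul h2 (hK' _) (by have := pm_pos (p := p); positivity) (by positivity)
            _ = _ := by ring
      _ = (|C| + 1) * K * (rho p + ε / 2 + t) ^ n := by
          rw [← Finset.mul_sum, Finset.sum_pow_mul_eq_add_pow, hc]
      _ ≤ _ := by
          refine mul_le_mul_of_nonneg_left (pow_le_pow_left₀ (by positivity) ?_ _) (by positivity)
          linarith [min_le_left (ε / 2) 1]
  · simp only [Finset.card_univ, Fintype.card_fin]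
    push_cast; ring

theorem Pr_two {β : Type} [Fintype β] [DecidableEq β] {p : ℝ} {a b : β} (hab : a ≠ b)
    (R : Bool → Bool → Prop) [∀ u v, Decidable (R u v)] :
    Pr p {x : β → Bool | R (x a) (x b)} =
      ∑ u : Bool, ∑ v : Bool, if R u v then (if u then p else 1 - p) * (if v then p else 1 - p)
        else 0 := by
  classical
  let e : Fin 2 ↪ β := ⟨![a, b], by
    intro i j h
    fin_cases i <;> fin_cases j <;> simp_all [eq_comm]⟩
  have h := Pr_comp (p := p) e {y : Fin 2 → Bool | R (y 0) (y 1)}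
  have h1 : {x : β → Bool | R (x a) (x b)} =
      {ω : β → Bool | (fun c => ω (e c)) ∈ {y : Fin 2 → Bool | R (y 0) (y 1)}} := rfl
  rw [h1, h, Pr_eq_sum, ← (finTwoArrowEquiv Bool).symm.sum_comp, Fintype.sum_prod_type]
  refine Finset.sum_congr rfl fun u _ => Finset.sum_congr rfl fun v _ => ?_
  by_cases hR : R u v <;> cases u <;> cases v <;> simp [bernoulliWeight, Fin.prod_univ_two, hR]

theorem lower {p : ℝ} (hp0 : 0 < p) (hp1 : p < 1) (m : ℕ) :
    p ^ 4 * rho p ^ m ≤ Pr p {ω : Om (m + 2) | (Mx ω).det = 0} := by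
  classical
  let J : Fin (m + 2) → Finset (Sym2 (Fin (m + 2))) := fun a =>
    if a = 0 then {s(0, 0)} else {s(0, a), s(1, a)}
  let A : Fin (m + 2) → Set (Om (m + 2)) := fun a =>
    if a = 0 then {ω | ω s(0, 0) = true} else if a = 1 then
      {ω | ω s(0, 1) = true ∧ ω s(1, 1) = true} else {ω | ω s(0, a) = ω s(1, a)}
  have h01 : (0 : Fin (m + 2)) ≠ 1 := Fin.zero_ne_one
  have hJ : ∀ a ∈ (Finset.univ : Finset (Fin (m + 2))), ∀ a' ∈ (Finset.univ : Finset (Fin (m + 2))),
      a ≠ a' → Disjoint (J a) (J a') := by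
    intro a _ a' _ h
    simp only [J]
    split_ifs with h1 h2 h2
    · exact absurd (h1.trans h2.symm) h
    · simp [eq_comm, h2, h01]
    · simp [Finset.disjoint_left, h1, h01.symm]
    · simp only [Finset.disjoint_left, Finset.mem_insert, Finset.mem_singleton, forall_eq_or_imp,
        forall_eq, Sym2.eq_iff, not_or]
      have := h.symm
      have := h01.symm
      have := Ne.symm h1
      have := Ne.symm h2
      grind
  have hA : ∀ a ∈ (Finset.univ : Finset (Fin (m + 2))), ∀ x y : Om (m + 2),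
      (∀ b ∈ J a, x b = y b) → x ∈ A a → y ∈ A a := by
    intro a _ x y hxy hx
    simp only [J, A] at hxy hx ⊢
    split_ifs at hxy hx ⊢ with h1 h2
    · rw [Set.mem_ofPred_eq, ← hxy _ (by simp)]; exact hx
    · subst h2
      rw [Set.mem_ofPred_eq, ← hxy _ (by simp), ← hxy s(1, 1) (by simp)]; exact hx
    · rw [Set.mem_ofPred_eq, ← hxy _ (by simp), ← hxy s(1, a) (by simp)]; exact hx
  have h1 := Pr_iInter (p := p) Finset.univ J hJ A hA
  have h2 : {x : Om (m + 2) | ∀ a ∈ (Finset.univ : Finset (Fin (m + 2))), x ∈ A a} ⊆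
      {ω : Om (m + 2) | (Mx ω).det = 0} := by
    intro x hx
    refine det_zero_of_row_eq h01 (funext fun a => ?_)
    have e0 : x s(0, 0) = true := by simpa [A] using hx 0 (Finset.mem_univ _)
    have e1 : x s(0, 1) = true ∧ x s(1, 1) = true := by
      simpa [A, h01.symm] using hx 1 (Finset.mem_univ _)
    simp only [Mx, of_apply]
    by_cases ha : a = 0
    · subst ha; rw [e0, Sym2.eq_swap, e1.1]
    by_cases ha' : a = 1
    · subst ha'; rw [e1.1, e1.2]
    have : x s(0, a) = x s(1, a) := by simpa [A, ha, ha'] using hx a (Finset.mem_univ _)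
    rw [this]
  refine le_trans ?_ (Pr_mono hp0.le hp1.le h2)
  rw [h1, Fin.prod_univ_succ, Fin.prod_univ_succ]
  have hne : ∀ a : Fin (m + 2), a ≠ 0 → s((0 : Fin (m + 2)), a) ≠ s(1, a) := by
    intro a ha h
    rcases Sym2.eq_iff.1 h with h | h
    · exact h01 h.1
    · exact ha h.1.symm
  have q1 : Pr p (A (Fin.succ 0)) = p ^ 2 := by
    have : A (Fin.succ 0) = {ω | ω s(0, 1) = true ∧ ω s(1, 1) = true} := by
      simp [A, h01.symm]
    rw [this, Pr_two (hne 1 h01.symm) (fun u v => u = true ∧ v = true)]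
    simp [sq]
  have q0 : p ^ 2 ≤ Pr p (A 0) := by
    have : {ω : Om (m + 2) | ω s(0, 0) = true ∧ ω s(0, 1) = true} ⊆ A 0 := by
      intro ω hω; simpa [A] using hω.1
    refine le_trans (le_of_eq ?_) (Pr_mono hp0.le hp1.le this)
    rw [Pr_two (by simp [h01]) (fun u v => u = true ∧ v = true)]
    simp [sq]
  have q2 : ∀ a : Fin m, Pr p (A a.succ.succ) = rho p := by
    intro a
    have ha0 : a.succ.succ ≠ 0 := Fin.succ_ne_zero _
    have ha1 : a.succ.succ ≠ 1 := Fin.succ_succ_ne_one a
    have : A a.succ.succ = {ω | ω s(0, a.succ.succ) = ω s(1, a.succ.succ)} := by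
      simp only [A, ha0, ha1, if_false]
    rw [this, Pr_two (hne _ ha0) (fun u v => u = v)]
    simp [rho, sq]
  simp only [q1, q2, Finset.prod_const, Finset.card_univ, Fintype.card_fin]
  have hρ : 0 < rho p := lt_of_lt_of_le (by norm_num) rho_ge
  calc p ^ 4 * rho p ^ m = p ^ 2 * (p ^ 2 * rho p ^ m) := by ring
    _ ≤ _ := mul_le_mul_of_nonneg_right q0 (by positivity)

/-- `(c a^n)^(1/n) → a` -/
theorem tendsto_root {c a : ℝ} (hc : 0 < c) (ha : 0 < a) :
    Tendsto (fun n : ℕ => (c * a ^ n) ^ (1 / (n : ℝ))) atTop (nhds a) := by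
  have h1 : Tendsto (fun n : ℕ => c ^ (1 / (n : ℝ)) * a) atTop (nhds (c ^ (0 : ℝ) * a)) :=
    (tendsto_const_nhds.rpow tendsto_one_div_atTop_nhds_zero_nat (Or.inl hc.ne')).mul_const a
  rw [Real.rpow_zero, one_mul] at h1
  refine h1.congr' ?_
  filter_upwards [eventually_ne_atTop 0] with n hn
  rw [Real.mul_rpow hc.le (by positivity), one_div, Real.pow_rpow_inv_natCast ha.le hn]

end Red

open Red in
theorem stMain (hOne : StOne) : StMain := by
  intro p hp0 hp1
  have hρ : 0 < rho p := lt_of_lt_of_le (by norm_num) rho_ge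
  simp only [singularProb_eq]
  refine tendsto_order.2 ⟨fun a ha => ?_, fun a ha => ?_⟩
  · have h := (tendsto_root (c := p ^ 4 / rho p ^ 2) (by positivity) hρ).eventually
      (lt_mem_nhds ha)
    filter_upwards [h, eventually_ge_atTop 2] with n hn hn2
    obtain ⟨m, rfl⟩ := Nat.exists_eq_add_of_le' hn2
    refine hn.trans_le (Real.rpow_le_rpow (by positivity) ?_ (by positivity))
    refine le_trans (le_of_eq ?_) (lower hp0 hp1 m)
    field_simp
    ring
  · set ε := (a - rho p) / 3 with hε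
    have hε0 : 0 < ε := by rw [hε]; linarith
    obtain ⟨C, hC, hC'⟩ := upper hOne hp0 hp1 hε0
    have hb : 0 < rho p + ε := by positivity
    have h := (tendsto_root (c := C / ε) (a := rho p + 2 * ε) (by positivity)
      (by positivity)).eventually (gt_mem_nhds (show rho p + 2 * ε < a by rw [hε]; linarith))
    filter_upwards [h, eventually_ge_atTop 1] with n hn hn1
    obtain ⟨m, rfl⟩ := Nat.exists_eq_add_of_le' hn1
    refine lt_of_le_of_lt (Real.rpow_le_rpow (Pr_nonneg hp0.le hp1.le _) ?_ (by positivity)) hn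
    refine (hC' m).trans ?_
    have h1 := pow_add_mul_le_add_pow hb.le (b := ε) (by positivity) (m + 1)
    rw [Nat.add_sub_cancel] at h1
    have h2 : 0 ≤ (rho p + ε) ^ (m + 1) := by positivity
    have h3 : rho p + ε + ε = rho p + 2 * ε := by ring
    rw [h3] at h1
    push_cast at h1
    calc C * (m + 1) * (rho p + ε) ^ m = C / ε * ((m + 1) * (rho p + ε) ^ m * ε) := by
          field_simp
      _ ≤ _ := mul_le_mul_of_nonneg_left (by linarith) (by positivity)

end Crest.Agent.R152
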