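import Crest.Agent.R152.Iface
import Crest.Agent.R152.P
import Crest.Agent.R152.LA

/-! Row 152, sparse kernel vectors, notes152/H33.md section 0.

One family of events `Ev S I j`: `S ⊆ I`, `|I| ≤ 3βn`, `j < N + 3`; a set `Gf N j A` of sign vectors
on `S` depends only on the block `A = M[I,S]`, has probability `≤ ρ`, and contains all rows outside
`I`.  For `j ≤ N` the set is the annihilator modulo `q` of the kernel of `A` modulo `q`, where `q` is
the `j`-th prime factor of `det (AᵀA)` (or `0`); for `j > N` it is a condition modulo `4`. -/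

set_option autoImplicit false
open Matrix Filter

namespace Crest.Agent.R152
namespace Sp

section generic
variable {ι κ : Type} [Fintype ι] [DecidableEq ι] [Fintype κ] [DecidableEq κ]

/-- annihilator modulo `q` of the kernel modulo `q` -/
def FZ (q : ℕ) (A : ι → κ → Bool) : Set (κ → Bool) :=
  {x | ∀ w : κ → ℤ, (∀ i, (q : ℤ) ∣ sv (A i) ⬝ᵥ w) → (q : ℤ) ∣ sv x ⬝ᵥ w}

/-- parity condition modulo four -/
def F2 (κ : Type) [Fintype κ] (j : ℕ) : Set (κ → Bool) :=
  {x | (4 : ℤ) ∣ sv x ⬝ᵥ (1 : κ → ℤ) - 2 * j}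

/-- Gram matrix of the columns -/
def Gm (A : ι → κ → Bool) : Matrix κ κ ℤ := fun a b => ∑ i, sv (A i) a * sv (A i) b

/-- candidate moduli -/
def qj (A : ι → κ → Bool) (j : ℕ) : ℕ := (Gm A).det.natAbs.primeFactorsList.getD j 0

/-- candidate sets -/
def Gf (N j : ℕ) (A : ι → κ → Bool) : Set (κ → Bool) :=
  if j ≤ N then FZ (qj A j) A else F2 κ j

theorem sg_not (b : Bool) : sg (!b) = - sg b := by cases b <;> simp [sg]

theorem sg_cases (b : Bool) : sg b = 1 ∨ sg b = -1 := by cases b <;> simp [sg]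

omit [Fintype ι] [DecidableEq ι] in
theorem dot_update (x : κ → Bool) (a : κ) (w : κ → ℤ) :
    sv (Function.update x a (!x a)) ⬝ᵥ w = sv x ⬝ᵥ w - 2 * (sg (x a) * w a) := by
  have h : ∀ c, sv (Function.update x a (!x a)) c * w c =
      sv x c * w c - (if c = a then 2 * (sg (x a) * w a) else 0) := by
    intro c
    by_cases hc : c = a
    · subst hc
      simp only [sv, Function.update_self, sg_not, if_true]; ring
    · simp only [sv, Function.update_of_ne hc, if_neg hc, sub_zero]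
  simp only [dotProduct, h, Finset.sum_sub_distrib, Finset.sum_ite_eq', Finset.mem_univ, if_true]

omit [Fintype ι] [DecidableEq ι] in
theorem Pr_hyper {p : ℝ} (hp0 : 0 ≤ p) (hp1 : p ≤ 1) [Nontrivial κ] (m t : ℤ) (w : κ → ℤ)
    (hw : ∀ a, ¬ m ∣ 2 * w a) : Pr p {x : κ → Bool | m ∣ sv x ⬝ᵥ w - t} ≤ rho p := by
  obtain ⟨a, b, hab⟩ := exists_pair_ne κ
  have key : ∀ (x : κ → Bool) (c : κ), m ∣ sv x ⬝ᵥ w - t →
      ¬ m ∣ sv (Function.update x c (!x c)) ⬝ᵥ w - t := by
    intro x c h1 h2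
    rw [dot_update] at h2
    have h3 : m ∣ 2 * (sg (x c) * w c) := by
      have h4 := dvd_sub h1 h2
      rwa [show sv x ⬝ᵥ w - t - (sv x ⬝ᵥ w - 2 * (sg (x c) * w c) - t) = 2 * (sg (x c) * w c) by
        ring] at h4
    apply hw c
    rcases sg_cases (x c) with h | h
    · rwa [h, one_mul] at h3
    · rw [h] at h3
      have : 2 * (-1 * w c) = -(2 * w c) := by ring
      rwa [this, dvd_neg] at h3
  exact Pr_indep2 hp0 hp1 hab _ fun x hx => ⟨key x a hx, key x b hx⟩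

omit [DecidableEq ι] [DecidableEq κ] in
/-- a row basis in characteristic `q` -/
theorem row_basis_field (K : Type) [Field K] (q : ℕ) [CharP K q] (R : ι → κ → ℤ) :
    ∃ I : Finset ι, I.card ≤ Fintype.card κ ∧
      ∀ w : κ → ℤ, (∀ i ∈ I, (q : ℤ) ∣ R i ⬝ᵥ w) → ∀ i, (q : ℤ) ∣ R i ⬝ᵥ w := by
  classical
  let v : ι → κ → K := fun i c => (R i c : K)
  obtain ⟨κ', a, ha, hsp, hli⟩ := exists_linearIndependent' K v
  have : Finite κ' := Finite.of_injective a ha
  have : Fintype κ' := Fintype.ofFinite κ'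
  refine ⟨Finset.univ.image a, ?_, fun w hw i => ?_⟩
  · have h1 := hli.fintype_card_le_finrank
    rw [Module.finrank_fintype_fun_eq_card] at h1
    exact Finset.card_image_le.trans (by simpa using h1)
  · let w' : κ → K := fun c => (w c : K)
    have hc : ∀ i, ((R i ⬝ᵥ w : ℤ) : K) = v i ⬝ᵥ w' := by
      intro i
      simp [dotProduct, v, w']
    have hz : ∀ u ∈ Submodule.span K (Set.range (v ∘ a)), u ⬝ᵥ w' = 0 := by
      intro u hu
      induction hu using Submodule.span_induction with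
      | mem u hu =>
        obtain ⟨k, rfl⟩ := hu
        have := hw (a k) (Finset.mem_image_of_mem _ (Finset.mem_univ _))
        rw [← CharP.intCast_eq_zero_iff K q, hc] at this
        exact this
      | zero => simp
      | add u u' _ _ h1 h2 => rw [add_dotProduct, h1, h2, add_zero]
      | smul c u _ h => rw [smul_dotProduct, h, smul_zero]
    rw [← CharP.intCast_eq_zero_iff K q, hc]
    apply hz
    rw [hsp]
    exact Submodule.subset_span ⟨i, rfl⟩

omit [DecidableEq ι] [DecidableEq κ] in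
theorem row_basis (q : ℕ) (hq : q = 0 ∨ q.Prime) (R : ι → κ → ℤ) :
    ∃ I : Finset ι, I.card ≤ Fintype.card κ ∧
      ∀ w : κ → ℤ, (∀ i ∈ I, (q : ℤ) ∣ R i ⬝ᵥ w) → ∀ i, (q : ℤ) ∣ R i ⬝ᵥ w := by
  rcases hq with rfl | hq
  · exact row_basis_field ℚ 0 R
  · have := Fact.mk hq
    exact row_basis_field (ZMod q) q R

omit [DecidableEq ι] [DecidableEq κ] in
theorem Gm_mulVec (A : ι → κ → Bool) (w : κ → ℤ) (a : κ) :
    (Gm A *ᵥ w) a = ∑ i, sv (A i) a * (sv (A i) ⬝ᵥ w) := by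
  simp only [Gm, mulVec, dotProduct, Finset.sum_mul, Finset.mul_sum]
  rw [Finset.sum_comm]
  exact Finset.sum_congr rfl fun i _ => Finset.sum_congr rfl fun c _ => by ring

omit [DecidableEq ι] in
theorem dvd_det {q : ℕ} (hq : q.Prime) (A : ι → κ → Bool) (w : κ → ℤ) (c : κ)
    (hc : ¬ (q : ℤ) ∣ w c) (hw : ∀ i, (q : ℤ) ∣ sv (A i) ⬝ᵥ w) : (q : ℤ) ∣ (Gm A).det := by
  have h1 : (Gm A).adjugate *ᵥ (Gm A *ᵥ w) = (Gm A).det • w := by
    rw [mulVec_mulVec, adjugate_mul, smul_mulVec, one_mulVec]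
  have h2 : (q : ℤ) ∣ ((Gm A).adjugate *ᵥ (Gm A *ᵥ w)) c := by
    refine Finset.dvd_sum fun a _ => Dvd.dvd.mul_left ?_ _
    rw [Gm_mulVec]
    exact Finset.dvd_sum fun i _ => Dvd.dvd.mul_left (hw i) _
  rw [h1, Pi.smul_apply, smul_eq_mul] at h2
  exact ((Nat.prime_iff_prime_int.mp hq).dvd_or_dvd h2).resolve_right hc

omit [DecidableEq ι] in
theorem ker_of_det (A : ι → κ → Bool) (h : (Gm A).det = 0) :
    ∃ w : κ → ℤ, w ≠ 0 ∧ ∀ i, sv (A i) ⬝ᵥ w = 0 := by
  obtain ⟨w, hw0, hw⟩ := Matrix.exists_mulVec_eq_zero_iff.2 h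
  refine ⟨w, hw0, fun i => ?_⟩
  have h1 : ∑ i, (sv (A i) ⬝ᵥ w) * (sv (A i) ⬝ᵥ w) = w ⬝ᵥ (Gm A *ᵥ w) := by
    have : w ⬝ᵥ (Gm A *ᵥ w) = ∑ a, ∑ i, w a * (sv (A i) a * (sv (A i) ⬝ᵥ w)) := by
      rw [dotProduct]
      exact Finset.sum_congr rfl fun a _ => by rw [Gm_mulVec, Finset.mul_sum]
    rw [this, Finset.sum_comm]
    refine Finset.sum_congr rfl fun i _ => ?_
    conv_lhs => rw [dotProduct, Finset.sum_mul]
    exact Finset.sum_congr rfl fun a _ => by rw [dotProduct]; ring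
  rw [hw, dotProduct_zero] at h1
  have h2 := (Finset.sum_eq_zero_iff_of_nonneg (fun i _ => mul_self_nonneg _)).1 h1 i
    (Finset.mem_univ _)
  exact mul_self_eq_zero.1 h2

omit [DecidableEq ι] in
theorem len_le (A : ι → κ → Bool) {n : ℕ} (hι : Fintype.card ι ≤ n) (hκ : Fintype.card κ ≤ n) :
    (Gm A).det.natAbs.primeFactorsList.length ≤ 2 * n ^ 2 := by
  rcases Nat.eq_zero_or_pos (Gm A).det.natAbs with h0 | h0
  · rw [h0]; simp
  have h1 : 2 ^ (Gm A).det.natAbs.primeFactorsList.length ≤ (Gm A).det.natAbs := by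
    have := List.pow_card_le_prod (Gm A).det.natAbs.primeFactorsList 2
      (fun x hx => (Nat.prime_of_mem_primeFactorsList hx).two_le)
    rwa [Nat.prod_primeFactorsList h0.ne'] at this
  have h2 : |(Gm A).det| ≤ (Fintype.card κ).factorial • (n : ℤ) ^ Fintype.card κ := by
    refine Matrix.det_le (abv := AbsoluteValue.abs) fun a b => ?_
    show |∑ i, sv (A i) a * sv (A i) b| ≤ n
    refine (Finset.abs_sum_le_sum_abs _ _).trans ?_
    calc ∑ i, |sv (A i) a * sv (A i) b| ≤ ∑ _i : ι, (1 : ℤ) := Finset.sum_le_sum fun i _ => by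
          rcases sg_cases (A i a) with h | h <;> rcases sg_cases (A i b) with h' | h' <;>
            simp [sv, h, h']
      _ = Fintype.card ι := by simp
      _ ≤ n := by exact_mod_cast hι
  have h3 : (Gm A).det.natAbs ≤ (Fintype.card κ).factorial * n ^ Fintype.card κ := by
    rw [← Int.natCast_natAbs, nsmul_eq_mul] at h2
    exact_mod_cast h2
  have hn : n ≤ 2 ^ n := Nat.lt_two_pow_self.le
  have h4 : n ^ Fintype.card κ ≤ 2 ^ (n ^ 2) :=
    calc n ^ Fintype.card κ ≤ (2 ^ n) ^ Fintype.card κ := Nat.pow_le_pow_left hn _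
      _ ≤ (2 ^ n) ^ n := Nat.pow_le_pow_right (by positivity) hκ
      _ = 2 ^ (n ^ 2) := by rw [← pow_mul, sq]
  have h5 : (Fintype.card κ).factorial ≤ 2 ^ (n ^ 2) :=
    (Nat.factorial_le_pow _).trans ((Nat.pow_le_pow_left hκ _).trans h4)
  have h6 : 2 ^ (Gm A).det.natAbs.primeFactorsList.length ≤ 2 ^ (2 * n ^ 2) :=
    calc _ ≤ _ := h1
      _ ≤ _ := h3
      _ ≤ 2 ^ (n ^ 2) * 2 ^ (n ^ 2) := Nat.mul_le_mul h5 h4
      _ = 2 ^ (2 * n ^ 2) := by rw [← pow_add, two_mul]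
  exact (Nat.pow_le_pow_iff_right (by norm_num)).1 h6

end generic

variable {n : ℕ}

/-- row `i` on the columns `S` -/
def rw' (ω : Om n) (S : Finset (Fin n)) (i : Fin n) : S → Bool := fun c => ω s(i, c)

/-- the block `M[I,S]` -/
def blk (ω : Om n) (S I : Finset (Fin n)) : I → S → Bool := fun i => rw' ω S i

/-- the basic event -/
def Ev (p : ℝ) (S I : Finset (Fin n)) (j : ℕ) : Set (Om n) :=
  {ω | ∀ i, i ∉ I → Pr p (Gf (2 * n ^ 2) j (blk ω S I)) ≤ rho p ∧
    rw' ω S i ∈ Gf (2 * n ^ 2) j (blk ω S I)}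

theorem Pr_Ev {p : ℝ} (hp0 : 0 ≤ p) (hp1 : p ≤ 1) (S I : Finset (Fin n)) (hSI : S ⊆ I) (j : ℕ) :
    Pr p (Ev p S I j) ≤ rho p ^ (n - I.card) := by
  let r : Fin (Iᶜ.card) ↪ Fin n := (Iᶜ.orderEmbOfFin rfl).toEmbedding
  have hr : ∀ k, r k ∉ I := fun k => Finset.mem_compl.1 (Iᶜ.orderEmbOfFin_mem rfl k)
  have hρ : 0 ≤ rho p := le_trans (by norm_num) rho_ge
  have h := fresh hp0 hp1 r S (fun k hk => hr k (hSI hk)) Set.univ
    (fun _ ω => Gf (2 * n ^ 2) j (blk ω S I)) hρ (fun _ _ _ _ => Set.mem_univ _)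
    (fun k ω ω' hω => by
      have : blk ω S I = blk ω' S I := by
        funext i c
        refine hω i c ?_ ?_
        · rintro ⟨k', -, h1, -⟩
          exact hr k' (h1 ▸ i.2)
        · rintro ⟨k', -, h1, -⟩
          exact hr k' (h1 ▸ hSI c.2)
      rw [this])
  rw [Pr_univ, one_mul] at h
  have hc : n - I.card = Iᶜ.card := by rw [Finset.card_compl, Fintype.card_fin]
  rw [hc]
  refine le_trans (Pr_mono hp0 hp1 fun ω hω => ?_) h
  exact ⟨Set.mem_univ _, fun k => hω (r k) (hr k)⟩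

theorem dot_split (ω : Om n) (S : Finset (Fin n)) (v : Fin n → ℤ) (i : Fin n) :
    (Mx ω *ᵥ v) i = sv (rw' ω S i) ⬝ᵥ (fun c : S => v c) + ∑ l ∈ Sᶜ, sg (ω s(i, l)) * v l := by
  have h : sv (rw' ω S i) ⬝ᵥ (fun c : S => v c) = ∑ l ∈ S, sg (ω s(i, l)) * v l :=
    Finset.sum_coe_sort S (fun l => sg (ω s(i, l)) * v l)
  rw [h, Finset.sum_add_sum_compl]
  rfl

/-- the case of an odd prime or of characteristic zero -/
theorem mem_Ev_odd {p : ℝ} (hp0 : 0 ≤ p) (hp1 : p ≤ 1) (ω : Om n) (S I : Finset (Fin n))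
    (q j : ℕ) (hj : j ≤ 2 * n ^ 2) (hqj : qj (blk ω S I) j = q) (w : S → ℤ) (hS : S.Nonempty)
    (hw : ∀ c, ¬ (q : ℤ) ∣ 2 * w c) (hker : ∀ i, (q : ℤ) ∣ sv (rw' ω S i) ⬝ᵥ w)
    (hI : ∀ w : S → ℤ, (∀ i ∈ I, (q : ℤ) ∣ sv (rw' ω S i) ⬝ᵥ w) →
      ∀ i, (q : ℤ) ∣ sv (rw' ω S i) ⬝ᵥ w) : ω ∈ Ev p S I j := by
  intro i _
  rw [Gf, if_pos hj, hqj]
  obtain ⟨a, ha⟩ := hS
  have : Nontrivial S := by
    by_contra hn
    rw [not_nontrivial_iff_subsingleton] at hn
    have h1 := hker a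
    rw [dotProduct, Fintype.sum_subsingleton _ (⟨a, ha⟩ : S)] at h1
    apply hw ⟨a, ha⟩
    apply Dvd.dvd.mul_left
    rcases sg_cases (rw' ω S a ⟨a, ha⟩) with h | h
    · simpa [sv, h] using h1
    · simpa [sv, h] using h1
  refine ⟨le_trans (Pr_mono hp0 hp1 fun x hx => ?_) (Pr_hyper hp0 hp1 (q : ℤ) 0 w hw),
    fun w' hw' => hI w' (fun i hi => hw' ⟨i, hi⟩) i⟩
  show (q : ℤ) ∣ sv x ⬝ᵥ w - 0
  rw [sub_zero]
  exact hx w fun i => hker i

theorem card_coe_le (S : Finset (Fin n)) : Fintype.card S ≤ n := by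
  rw [Fintype.card_coe]
  simpa using Finset.card_le_univ S

/-- covering -/
theorem cover {p : ℝ} (hp0 : 0 ≤ p) (hp1 : p ≤ 1) {β : ℝ} (ω : Om n) (hω : ω ∈ BadS n β) :
    ∃ I : Finset (Fin n), (I.card : ℝ) ≤ 3 * β * n ∧ ∃ S ∈ I.powerset,
      ∃ j ∈ Finset.range (2 * n ^ 2 + 3), ω ∈ Ev p S I j := by
  classical
  obtain ⟨q, v, hq, hv, ⟨i0, hi0⟩, hcard⟩ := hω
  set S : Finset (Fin n) := Finset.univ.filter fun i => ¬ (q : ℤ) ∣ v i with hS
  have hmem : ∀ l, l ∈ S ↔ ¬ (q : ℤ) ∣ v l := fun l => by simp [hS]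
  have hβ : 0 ≤ β * n := le_trans (Nat.cast_nonneg _) hcard
  have hSne : S.Nonempty := ⟨i0, (hmem _).2 hi0⟩
  by_cases h2 : q = 2
  · subst h2
    have hu : ∀ l, ∃ u : ℤ, v l = (if l ∈ S then 1 else 0) + 2 * u := by
      intro l
      by_cases hl : l ∈ S
      · have := (hmem l).1 hl
        rw [if_pos hl]
        exact ⟨(v l - 1) / 2, by push_cast at this; omega⟩
      · have := not_not.1 (mt (hmem l).2 hl)
        rw [if_neg hl]
        exact ⟨v l / 2, by push_cast at this; omega⟩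
    choose u hu using hu
    have hrow : ∀ i, (4 : ℤ) ∣ sv (rw' ω S i) ⬝ᵥ (1 : S → ℤ) + 2 * ∑ l, u l := by
      intro i
      have h1 : sv (rw' ω S i) ⬝ᵥ (1 : S → ℤ) = ∑ l ∈ S, sg (ω s(i, l)) := by
        rw [← Finset.sum_coe_sort S (fun l => sg (ω s(i, l)))]
        simp [dotProduct, sv, rw']
      have h3 : (0 : ℤ) = ∑ l, sg (ω s(i, l)) * v l := (congrFun hv i).symm
      have h4 : ∑ l, sg (ω s(i, l)) * v l =
          ∑ l ∈ S, sg (ω s(i, l)) + 2 * ∑ l, sg (ω s(i, l)) * u l := by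
        rw [Finset.mul_sum, ← Finset.univ_inter S, ← Finset.sum_ite_mem, ← Finset.sum_add_distrib]
        refine Finset.sum_congr rfl fun l _ => ?_
        rw [hu l]
        split_ifs <;> ring
      have h5 : (2 : ℤ) ∣ ∑ l, u l - ∑ l, sg (ω s(i, l)) * u l := by
        rw [← Finset.sum_sub_distrib]
        refine Finset.dvd_sum fun l _ => ?_
        rcases sg_cases (ω s(i, l)) with h | h <;> rw [h] <;> omega
      rw [h1]
      omega
    obtain ⟨j, hj1, hj2, hj3⟩ : ∃ j : ℕ, 2 * n ^ 2 < j ∧ j < 2 * n ^ 2 + 3 ∧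
        (2 : ℤ) ∣ ∑ l, u l + j := by
      by_cases hU : (2 : ℤ) ∣ ∑ l, u l
      · exact ⟨2 * n ^ 2 + 2, by omega, by omega, by push_cast; omega⟩
      · exact ⟨2 * n ^ 2 + 1, by omega, by omega, by push_cast; omega⟩
    have hrow' : ∀ i, (4 : ℤ) ∣ sv (rw' ω S i) ⬝ᵥ (1 : S → ℤ) - 2 * j := fun i => by
      have := hrow i
      omega
    refine ⟨S, by nlinarith, S, Finset.mem_powerset_self _, j, Finset.mem_range.2 hj2, ?_⟩
    intro i _
    rw [Gf, if_neg (by omega)]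
    obtain ⟨a, ha⟩ := hSne
    have : Nontrivial S := by
      by_contra hn
      rw [not_nontrivial_iff_subsingleton] at hn
      have h1 := hrow' a
      rw [dotProduct, Fintype.sum_subsingleton _ (⟨a, ha⟩ : S)] at h1
      rcases sg_cases (rw' ω S a ⟨a, ha⟩) with h | h
      · simp only [sv, h, Pi.one_apply] at h1; omega
      · simp only [sv, h, Pi.one_apply] at h1; omega
    exact ⟨Pr_hyper hp0 hp1 4 (2 * j) 1 (fun a => by simp), hrow' i⟩
  · by_cases hZ : ∃ S' : Finset (Fin n), S' ⊆ S ∧ S'.Nonempty ∧ ∃ w : S' → ℤ, (∀ c, w c ≠ 0) ∧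
        ∀ i, sv (rw' ω S' i) ⬝ᵥ w = 0
    · obtain ⟨S', hS', hne, w, hw, hker⟩ := hZ
      obtain ⟨I0, hI0, hI⟩ := row_basis 0 (Or.inl rfl) (fun i => sv (rw' ω S' i))
      rw [Fintype.card_coe] at hI0
      refine ⟨S' ∪ I0, ?_, S', Finset.mem_powerset.2 Finset.subset_union_left, 2 * n ^ 2,
        Finset.mem_range.2 (by omega), ?_⟩
      · have h1 : (S' ∪ I0).card ≤ 2 * S.card := by
          have := Finset.card_union_le S' I0
          have := Finset.card_le_card hS'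
          omega
        have h3 : ((S' ∪ I0).card : ℝ) ≤ 2 * S.card := by exact_mod_cast h1
        nlinarith
      · refine mem_Ev_odd hp0 hp1 ω S' _ 0 _ le_rfl ?_ w hne (fun c => by simpa using hw c)
          (fun i => by simp [hker i])
          (fun w' hw' => hI w' fun i hi => hw' i (Finset.mem_union_right _ hi))
        refine List.getD_eq_default _ _ (len_le _ ?_ ?_)
        · exact card_coe_le _
        · exact card_coe_le _
    · obtain ⟨I0, hI0, hI⟩ := row_basis 0 (Or.inl rfl) (fun i => sv (rw' ω S i))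
      obtain ⟨I1, hI1, hI'⟩ := row_basis q (Or.inr hq) (fun i => sv (rw' ω S i))
      rw [Fintype.card_coe] at hI0 hI1
      set I := S ∪ (I0 ∪ I1) with hIdef
      have hker : ∀ i, (q : ℤ) ∣ sv (rw' ω S i) ⬝ᵥ (fun c : S => v c) := by
        intro i
        have h1 := dot_split ω S v i
        rw [hv, Pi.zero_apply] at h1
        have h3 : (q : ℤ) ∣ ∑ l ∈ Sᶜ, sg (ω s(i, l)) * v l :=
          Finset.dvd_sum fun l hl => Dvd.dvd.mul_left
            (not_not.1 (mt (hmem l).2 (Finset.mem_compl.1 hl))) _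
        rw [eq_neg_of_add_eq_zero_left h1.symm]
        exact dvd_neg.2 h3
      have hdet : (Gm (blk ω S I)).det ≠ 0 := by
        intro h0
        obtain ⟨w, hw0, hw⟩ := ker_of_det _ h0
        have hall : ∀ i, sv (rw' ω S i) ⬝ᵥ w = 0 := fun i => by
          have := hI w (fun i hi => by
            have := hw ⟨i, Finset.mem_union_right _ (Finset.mem_union_left _ hi)⟩
            simpa [blk] using this) i
          simpa using this
        let W : Fin n → ℤ := fun l => if h : l ∈ S then w ⟨l, h⟩ else 0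
        let S' : Finset (Fin n) := S.filter fun l => W l ≠ 0
        apply hZ
        refine ⟨S', Finset.filter_subset _ _, ?_, fun c => W c,
          fun c => (Finset.mem_filter.1 c.2).2, fun i => ?_⟩
        · obtain ⟨c, hc⟩ := Function.ne_iff.1 hw0
          exact ⟨c, Finset.mem_filter.2 ⟨c.2, by simpa [W] using hc⟩⟩
        · have h1 : sv (rw' ω S' i) ⬝ᵥ (fun c : S' => W c) = ∑ l ∈ S', sg (ω s(i, l)) * W l :=
            Finset.sum_coe_sort S' (fun l => sg (ω s(i, l)) * W l)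
          have h3 : sv (rw' ω S i) ⬝ᵥ w = ∑ l ∈ S, sg (ω s(i, l)) * W l := by
            rw [← Finset.sum_coe_sort S (fun l => sg (ω s(i, l)) * W l)]
            simp [dotProduct, sv, rw', W]
          rw [h1, ← hall i, h3]
          refine Finset.sum_filter_of_ne fun l _ hl h0 => hl ?_
          rw [h0, mul_zero]
      have hdvd : (q : ℤ) ∣ (Gm (blk ω S I)).det :=
        dvd_det hq _ (fun c : S => v c) ⟨i0, (hmem _).2 hi0⟩ hi0 fun i => hker i
      have hql : q ∈ (Gm (blk ω S I)).det.natAbs.primeFactorsList :=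
        (Nat.mem_primeFactorsList (Int.natAbs_ne_zero.2 hdet)).2 ⟨hq, Int.natCast_dvd.1 hdvd⟩
      obtain ⟨j, hj, hjq⟩ := List.getElem_of_mem hql
      have hlen := len_le (blk ω S I) (n := n) (card_coe_le _) (card_coe_le _)
      refine ⟨I, ?_, S, Finset.mem_powerset.2 Finset.subset_union_left, j,
        Finset.mem_range.2 (by omega), ?_⟩
      · have h1 : I.card ≤ 3 * S.card := by
          have := Finset.card_union_le S (I0 ∪ I1)
          have := Finset.card_union_le I0 I1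
          rw [hIdef]
          omega
        have h3 : (I.card : ℝ) ≤ 3 * S.card := by exact_mod_cast h1
        nlinarith
      · refine mem_Ev_odd hp0 hp1 ω S I q j (by omega) ?_ (fun c : S => v c) hSne ?_ hker
          (fun w' hw' => hI' w' fun i hi =>
            hw' i (Finset.mem_union_right _ (Finset.mem_union_right _ hi)))
        · rw [qj, List.getD_eq_getElem _ _ hj, hjq]
        · intro c hc
          rcases (Nat.prime_iff_prime_int.mp hq).dvd_or_dvd hc with h | h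
          · exact h2 ((Nat.prime_dvd_prime_iff_eq hq Nat.prime_two).1 (by exact_mod_cast h))
          · exact (hmem c).1 c.2 h

theorem Pr_BadS_le {p : ℝ} (hp0 : 0 ≤ p) (hp1 : p ≤ 1) {β t : ℝ} (ht0 : 0 < t) (ht1 : t ≤ 1)
    (n : ℕ) : Pr p (BadS n β) ≤
      (2 * n ^ 2 + 3) * (Real.exp (3 * β * (-Real.log t)) * (rho p + 2 * t)) ^ n := by
  classical
  have hρ : 0 ≤ rho p := le_trans (by norm_num) rho_ge
  let T : Finset (Finset (Fin n)) := Finset.univ.filter fun I => (I.card : ℝ) ≤ 3 * β * n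
  let E1 : Finset (Fin n) → Set (Om n) := fun I =>
    {ω | ∃ S ∈ I.powerset, ω ∈ {ω | ∃ j ∈ Finset.range (2 * n ^ 2 + 3), ω ∈ Ev p S I j}}
  have h1 : Pr p (BadS n β) ≤ Pr p {ω | ∃ I ∈ T, ω ∈ E1 I} :=
    Pr_mono hp0 hp1 fun ω hω => by
      obtain ⟨I, hI, h⟩ := cover hp0 hp1 ω hω
      exact ⟨I, Finset.mem_filter.2 ⟨Finset.mem_univ _, hI⟩, h⟩
  have h2 : ∀ I, Pr p (E1 I) ≤ 2 ^ I.card * ((2 * n ^ 2 + 3) * rho p ^ (n - I.card)) := by
    intro I
    have := Pr_exists_le hp0 hp1 I.powerset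
      (fun S => {ω | ∃ j ∈ Finset.range (2 * n ^ 2 + 3), ω ∈ Ev p S I j})
      (b := (2 * n ^ 2 + 3) * rho p ^ (n - I.card)) (fun S hS => by
        have := Pr_exists_le hp0 hp1 (Finset.range (2 * n ^ 2 + 3)) (fun j => Ev p S I j)
          (fun j _ => Pr_Ev hp0 hp1 S I (Finset.mem_powerset.1 hS) j)
        rw [Finset.card_range] at this
        push_cast at this
        exact this)
    rw [Finset.card_powerset] at this
    push_cast at this
    exact this
  have hL : 0 ≤ -Real.log t := neg_nonneg.2 (Real.log_nonpos ht0.le ht1)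
  have h3 : ∀ I ∈ T, (2 : ℝ) ^ I.card * ((2 * n ^ 2 + 3) * rho p ^ (n - I.card)) ≤
      (2 * n ^ 2 + 3) * Real.exp (3 * β * (-Real.log t)) ^ n *
        ((2 * t) ^ I.card * rho p ^ (n - I.card)) := by
    intro I hI
    have hI' := (Finset.mem_filter.1 hI).2
    have h4 : 1 ≤ Real.exp (3 * β * (-Real.log t)) ^ n * t ^ I.card := by
      have : t ^ I.card = Real.exp (I.card * Real.log t) := by
        rw [Real.exp_nat_mul, Real.exp_log ht0]
      rw [this, ← Real.exp_nat_mul, ← Real.exp_add]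
      apply Real.one_le_exp
      nlinarith
    have h5 : (0 : ℝ) ≤ 2 ^ I.card * ((2 * n ^ 2 + 3) * rho p ^ (n - I.card)) := by positivity
    calc _ = (2 : ℝ) ^ I.card * ((2 * n ^ 2 + 3) * rho p ^ (n - I.card)) * 1 := (mul_one _).symm
      _ ≤ (2 : ℝ) ^ I.card * ((2 * n ^ 2 + 3) * rho p ^ (n - I.card)) *
          (Real.exp (3 * β * (-Real.log t)) ^ n * t ^ I.card) := mul_le_mul_of_nonneg_left h4 h5
      _ = _ := by rw [mul_pow]; ring
  calc Pr p (BadS n β) ≤ _ := h1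
    _ ≤ ∑ I ∈ T, Pr p (E1 I) := Pr_exists_le_sum hp0 hp1 T E1
    _ ≤ ∑ I ∈ T, (2 * n ^ 2 + 3) * Real.exp (3 * β * (-Real.log t)) ^ n *
        ((2 * t) ^ I.card * rho p ^ (n - I.card)) :=
        Finset.sum_le_sum fun I hI => (h2 I).trans (h3 I hI)
    _ ≤ ∑ I : Finset (Fin n), (2 * n ^ 2 + 3) * Real.exp (3 * β * (-Real.log t)) ^ n *
        ((2 * t) ^ I.card * rho p ^ (n - I.card)) :=
        Finset.sum_le_sum_of_subset_of_nonneg (Finset.subset_univ _) fun I _ _ => by positivity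
    _ = _ := by
        rw [← Finset.mul_sum, Fin.sum_pow_mul_eq_add_pow, mul_pow, add_comm (2 * t)]
        ring

end Sp

theorem stSp : StSp := by
  intro p ε hp0 hp1 hε
  have hρ : 0 < rho p := lt_of_lt_of_le (by norm_num) rho_ge
  set t : ℝ := min 1 (ε / 8) with ht
  have ht0 : 0 < t := lt_min one_pos (by positivity)
  have ht1 : t ≤ 1 := min_le_left _ _
  have ht2 : t ≤ ε / 8 := min_le_right _ _
  have hL : 0 ≤ -Real.log t := neg_nonneg.2 (Real.log_nonpos ht0.le ht1)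
  set κ : ℝ := (rho p + ε / 2) / (rho p + ε / 4) with hκ
  have hκ1 : 1 < κ := (one_lt_div (by positivity)).2 (by linarith)
  have hlκ : 0 < Real.log κ := Real.log_pos hκ1
  refine ⟨Real.log κ / (3 * (-Real.log t + 1)), by positivity, ?_⟩
  have h1 : Real.exp (3 * (Real.log κ / (3 * (-Real.log t + 1))) * (-Real.log t)) ≤ κ := by
    rw [← Real.le_log_iff_exp_le (by linarith)]
    have : 3 * (Real.log κ / (3 * (-Real.log t + 1))) * (-Real.log t) =
        Real.log κ * (-Real.log t / (-Real.log t + 1)) := by field_simp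
    rw [this]
    exact mul_le_of_le_one_right hlκ.le ((div_le_one (by linarith)).2 (by linarith))
  have h2 : Real.exp (3 * (Real.log κ / (3 * (-Real.log t + 1))) * (-Real.log t)) *
      (rho p + 2 * t) ≤ rho p + ε / 2 :=
    calc _ ≤ κ * (rho p + ε / 4) := mul_le_mul h1 (by linarith) (by positivity) (by linarith)
      _ = _ := by rw [hκ]; field_simp
  set r : ℝ := (rho p + ε / 2) / (rho p + ε) with hr
  have hr0 : 0 < r := by positivity
  have hr1 : |r| < 1 := by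
    rw [abs_of_pos hr0]; exact (div_lt_one (by positivity)).2 (by linarith)
  have hlim : Tendsto (fun n : ℕ => 2 * ((n : ℝ) ^ 2 * r ^ n) + 3 * ((n : ℝ) ^ 0 * r ^ n)) atTop
      (nhds (2 * 0 + 3 * 0)) :=
    ((tendsto_pow_const_mul_const_pow_of_abs_lt_one 2 hr1).const_mul 2).add
      ((tendsto_pow_const_mul_const_pow_of_abs_lt_one 0 hr1).const_mul 3)
  filter_upwards [hlim.eventually (gt_mem_nhds (show (2 * 0 + 3 * 0 : ℝ) < 1 by norm_num))]
    with n hn
  calc _ ≤ _ := Sp.Pr_BadS_le hp0.le hp1.le ht0 ht1 n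
    _ ≤ (2 * n ^ 2 + 3) * (rho p + ε / 2) ^ n := by gcongr
    _ = (2 * ((n : ℝ) ^ 2 * r ^ n) + 3 * ((n : ℝ) ^ 0 * r ^ n)) * (rho p + ε) ^ n := by
        have : rho p + ε / 2 = r * (rho p + ε) := by rw [hr]; field_simp
        rw [this, mul_pow]; ring
    _ ≤ 1 * (rho p + ε) ^ n := by gcongr
    _ = _ := one_mul _

end Crest.Agent.R152
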