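import Crest.Agent.R152.Iface
import Crest.Agent.R152.LA

/-! Row 152, Y1.  Recipe: hD with `m = |det|` (`det_Mx_le`), for `k0 ∈ D` the subgroup `{u ∈ Td | k0 • u = 0}` has order `≥ k0` (`le_card_torsion`, `card_Td`), so outside `BadL` it kills
`< e^{ε n/2}` cube points. -/

set_option autoImplicit false
open Matrix Filter

namespace Crest.Agent.R152

theorem stY1 (hD : StDiv) : StY1 := by
  intro c ε hc hε
  obtain ⟨c0, hc0, h⟩ := hD (ε / 2) (half_pos hε)
  have hc' : 0 < min c0 (c / 2) := lt_min hc0 (half_pos hc)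
  refine ⟨min c0 (c / 2), ε / 2, hc', half_pos hε, ?_⟩
  filter_upwards [h _ hc' (min_le_left _ _)] with n hn ω h0 hL
  have hLg : 0 ≤ Lg n := mul_nonneg (Nat.cast_nonneg n) (Real.log_natCast_nonneg n)
  obtain ⟨D, hD0, hD1, hD2⟩ := hn (Mx ω).det.natAbs (Int.natAbs_pos.2 h0) (by
    rw [Nat.cast_natAbs, Int.cast_abs]
    exact (det_Mx_le ω).trans (Real.exp_le_exp.2 (by linarith)))
  let K : ℕ → AddSubgroup (Fin n → T1) := fun k =>
    (nsmulAddMonoidHom k : Td (Mx ω) →+ Td (Mx ω)).ker.map (Td (Mx ω)).subtype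
  have h1 : Y1 (Mx ω) c ⊆ ⋃ k0 ∈ D, ann (K k0 : Set (Fin n → T1)) := by
    rintro x ⟨k, h1, h2, h3⟩
    obtain ⟨k0, h4, j, rfl⟩ := hD2 k (Int.natCast_dvd.1 h1) (le_trans (Real.exp_le_exp.2
      (mul_le_mul_of_nonneg_right (by linarith [min_le_right c0 (c / 2)]) hLg)) h2)
    refine Set.mem_biUnion h4 ?_
    rintro _ ⟨u, hu, rfl⟩
    refine h3 u u.2 ?_
    have : k0 • (u : Fin n → T1) = 0 := congrArg Subtype.val (show k0 • u = 0 from hu)
    rw [mul_nsmul, this, nsmul_zero]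
  have h2 := (Set.ncard_le_ncard h1 (Set.toFinite _)).trans (D.set_ncard_biUnion_le _)
  have h3 : ((Y1 (Mx ω) c).ncard : ℝ) ≤ ∑ k0 ∈ D, ((ann (K k0 : Set (Fin n → T1))).ncard : ℝ) := by
    exact_mod_cast h2
  refine h3.trans ((Finset.sum_le_card_nsmul _ _ (Real.exp (ε / 2 * n)) fun k0 hk0 => ?_).trans ?_)
  · by_contra hn
    refine hL ⟨h0, K k0, AddSubgroup.map_subtype_le _, (hD1 k0 hk0).2.trans ?_, (not_le.1 hn).le⟩
    have := finite_Td _ h0
    have h5 := le_card_torsion (Td (Mx ω)) k0 (by rw [card_Td _ h0]; exact (hD1 k0 hk0).1)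
    rw [AddSubgroup.card_map_of_injective (Td (Mx ω)).subtype_injective]
    exact_mod_cast h5
  · rw [nsmul_eq_mul, show ε * n = ε / 2 * n + ε / 2 * n by ring, Real.exp_add]
    exact mul_le_mul_of_nonneg_right hD0 (Real.exp_pos _).le

end Crest.Agent.R152
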