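import Crest.Agent.R152.Y2A

/-! Row 152, Y2, part (c): points near a given point are killed by a large cyclic group. -/

set_option autoImplicit false
open Matrix Filter

namespace Crest.Agent.R152

variable {n : ℕ} {B : Matrix (Fin n) (Fin n) ℤ}

/-- the torus point `w / m` -/
noncomputable def y2t (w : Fin n → ℤ) (m : ℤ) : Fin n → T1 := fun l => (((w l : ℝ) / m : ℝ) : T1)

theorem y2_coe_zero {m : ℤ} (hm : m ≠ 0) (t : ℤ) : (((t : ℝ) / m : ℝ) : T1) = 0 ↔ m ∣ t := by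
  have hm' : (m : ℝ) ≠ 0 := by exact_mod_cast hm
  rw [AddCircle.coe_eq_zero_iff]
  simp only [zsmul_eq_mul, mul_one, eq_div_iff hm']
  constructor
  · rintro ⟨k, hk⟩
    exact ⟨k, by rw [mul_comm]; exact_mod_cast hk.symm⟩
  · rintro ⟨k, rfl⟩
    exact ⟨k, by push_cast; ring⟩

theorem y2_pr (z w : Fin n → ℤ) (m : ℤ) : pr z (y2t w m) = ((((z ⬝ᵥ w : ℤ) : ℝ) / m : ℝ) : T1) := by
  simp only [pr, y2t, ← AddCircle.coe_zsmul, dotProduct]
  rw [← QuotientAddGroup.mk_sum]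
  congr 1
  push_cast
  rw [Finset.sum_div]
  exact Finset.sum_congr rfl fun i _ => by rw [zsmul_eq_mul, mul_div_assoc]

theorem y2_nsmul (r : ℕ) (w : Fin n → ℤ) (m : ℤ) (l : Fin n) :
    (r • y2t w m) l = (((((r : ℤ) * w l : ℤ) : ℝ) / m : ℝ) : T1) := by
  rw [Pi.smul_apply, y2t, ← AddCircle.coe_nsmul]
  congr 1
  push_cast
  rw [nsmul_eq_mul, mul_div_assoc]

/-- the cyclic subgroup of order `k0` -/
theorem y2_cyc {y v : Fin n → ℤ} {m : ℤ} (W : Y2W B y v m) {k0 : ℕ} (hk : k0 ∣ m.natAbs) :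
    ∃ K : AddSubgroup (Fin n → T1), K ≤ Td B ∧ k0 ≤ Nat.card K ∧
      ∀ x : Fin n → Bool, m ∣ (m.natAbs / k0 : ℕ) * (sv x ⬝ᵥ v) → x ∈ ann (K : Set (Fin n → T1)) := by
  obtain ⟨t, ht⟩ := hk
  have hM : m.natAbs ≠ 0 := Int.natAbs_ne_zero.2 W.ne
  have hk0 : 0 < k0 := Nat.pos_of_ne_zero fun h => hM (by rw [ht, h, zero_mul])
  have ht0 : t ≠ 0 := fun h => hM (by rw [ht, h, mul_zero])
  have hdiv : m.natAbs / k0 = t := by rw [ht, Nat.mul_div_cancel_left _ hk0]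
  rw [hdiv]
  refine ⟨AddSubgroup.zmultiples (y2t ((t : ℤ) • v) m), ?_, ?_, fun x hx u hu => ?_⟩
  · rw [AddSubgroup.zmultiples_le, mem_Td]
    intro i
    rw [y2_pr, y2_coe_zero W.ne, dotProduct_smul]
    have : B i ⬝ᵥ v = m * y i := congrFun W.eq i
    rw [this, smul_eq_mul]
    exact (dvd_mul_right m _).mul_left _
  · rw [Nat.card_zmultiples]
    have hfin : 0 < addOrderOf (y2t ((t : ℤ) • v) m) := by
      rw [addOrderOf_pos_iff, isOfFinAddOrder_iff_nsmul_eq_zero]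
      refine ⟨m.natAbs, Nat.pos_of_ne_zero hM, funext fun l => ?_⟩
      rw [y2_nsmul, Pi.zero_apply, y2_coe_zero W.ne]
      exact (Int.dvd_natAbs.2 dvd_rfl).mul_right _
    set r := addOrderOf (y2t ((t : ℤ) • v) m) with hr
    have h1 : ∀ l, m ∣ (r : ℤ) * t * v l := fun l => by
      have := congrFun (addOrderOf_nsmul_eq_zero (y2t ((t : ℤ) • v) m)) l
      rw [y2_nsmul, Pi.zero_apply, y2_coe_zero W.ne, Pi.smul_apply, smul_eq_mul, ← mul_assoc] at this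
      exact this
    obtain ⟨e, j, hej⟩ := W.bez
    have h2 : m ∣ (r : ℤ) * t * (e ⬝ᵥ v) := by
      rw [dotProduct, Finset.mul_sum]
      exact Finset.dvd_sum fun l _ => by rw [mul_left_comm]; exact (h1 l).mul_left _
    have h3 : m ∣ (r : ℤ) * t := by
      have : (r : ℤ) * t = (r : ℤ) * t * (e ⬝ᵥ v) + m * (r * t * j) := by
        linear_combination (-(r : ℤ) * t) * hej
      rw [this]
      exact dvd_add h2 (dvd_mul_right _ _)
    have h4 : k0 * t ∣ r * t := by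
      rw [← ht]
      simpa only [Int.natAbs_mul, Int.natAbs_natCast] using Int.natAbs_dvd_natAbs.2 h3
    exact Nat.le_of_dvd hfin (Nat.dvd_of_mul_dvd_mul_right (Nat.pos_of_ne_zero ht0) h4)
  · obtain ⟨r, rfl⟩ := AddSubgroup.mem_zmultiples_iff.1 hu
    have h1 : pr (sv x) (y2t ((t : ℤ) • v) m) = 0 := by
      rw [y2_pr, y2_coe_zero W.ne, dotProduct_smul]
      exact hx
    have h2 := map_zsmul (prH (sv x)) r (y2t ((t : ℤ) • v) m)
    exact h2.trans (by rw [show prH (sv x) (y2t ((t : ℤ) • v) m) = 0 from h1, smul_zero])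

/-- a near point is killed by a subgroup of small index -/
theorem y2_near_div (hB : B.det ≠ 0) {x y v : Fin n → ℤ} {m : ℤ} (W : Y2W B y v m) {T : ℕ}
    (h : Y2near B T x y) : ∃ k : ℕ, k ∣ m.natAbs ∧ m.natAbs ^ 3 ≤ k ^ 3 * T ∧
      ∀ k0, k0 ∣ k → m ∣ (m.natAbs / k0 : ℕ) * (x ⬝ᵥ v) := by
  obtain ⟨j, hj0, hjT, s, hs⟩ := h
  have h1 : m ∣ j * (x ⬝ᵥ v) := ⟨s, by
    refine mul_left_cancel₀ hB ?_
    linear_combination m * hs - (j : ℤ) * W.g x⟩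
  have h2 : m ∣ (Nat.gcd m.natAbs j : ℕ) * (x ⬝ᵥ v) := by
    rw [Nat.gcd_eq_gcd_ab, add_mul]
    refine dvd_add (((Int.dvd_natAbs.2 dvd_rfl).mul_right _).mul_right _) ?_
    rw [mul_right_comm]
    exact h1.mul_right _
  obtain ⟨k, hk⟩ := Nat.gcd_dvd_left m.natAbs j
  have hg : Nat.gcd m.natAbs j ≤ j := Nat.gcd_le_right _ hj0
  refine ⟨k, Dvd.intro_left _ hk.symm, ?_, ?_⟩
  · calc m.natAbs ^ 3 = k ^ 3 * Nat.gcd m.natAbs j ^ 3 := by rw [← mul_pow, mul_comm, ← hk]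
      _ ≤ k ^ 3 * T := Nat.mul_le_mul_left _ ((Nat.pow_le_pow_left hg 3).trans hjT)
  · rintro k0 ⟨t, rfl⟩
    rcases Nat.eq_zero_or_pos k0 with rfl | hk0
    · simp
    have h3 : m.natAbs / k0 = t * Nat.gcd m.natAbs j := by
      refine Nat.div_eq_of_eq_mul_right hk0 (hk.trans ?_)
      ring
    rw [h3, Nat.cast_mul, mul_assoc]
    exact h2.mul_left _

/-- counting the near points -/
theorem y2_near_card (hB : B.det ≠ 0) {y v : Fin n → ℤ} {m : ℤ} (W : Y2W B y v m) {T : ℕ}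
    {E₁ E₂ b : ℝ} (D : Finset ℕ) (hD1 : ∀ k ∈ D, k ∣ m.natAbs ∧ E₁ ≤ (k : ℝ))
    (hD2 : ∀ k : ℕ, k ∣ m.natAbs → E₂ ≤ (k : ℝ) → ∃ k0 ∈ D, k0 ∣ k)
    (hT : ∀ k : ℕ, m.natAbs ^ 3 ≤ k ^ 3 * T → E₂ ≤ (k : ℝ))
    (hL : ∀ K : AddSubgroup (Fin n → T1), K ≤ Td B → E₁ ≤ (Nat.card K : ℝ) →
      ((ann (K : Set (Fin n → T1))).ncard : ℝ) ≤ b) :
    (({x : Fin n → Bool | Y2near B T (sv x) y}).ncard : ℝ) ≤ D.card * b := by
  have h1 : {x : Fin n → Bool | Y2near B T (sv x) y} ⊆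
      ⋃ k0 ∈ D, {x : Fin n → Bool | m ∣ (m.natAbs / k0 : ℕ) * (sv x ⬝ᵥ v)} := by
    intro x hx
    obtain ⟨k, h1, h2, h3⟩ := y2_near_div hB W hx
    obtain ⟨k0, h4, h5⟩ := hD2 k h1 (hT k h2)
    exact Set.mem_biUnion h4 (h3 k0 h5)
  have h2 := (Set.ncard_le_ncard h1 (Set.toFinite _)).trans (D.set_ncard_biUnion_le _)
  have h3 : (({x : Fin n → Bool | Y2near B T (sv x) y}).ncard : ℝ) ≤
      ∑ k0 ∈ D, (({x : Fin n → Bool | m ∣ (m.natAbs / k0 : ℕ) * (sv x ⬝ᵥ v)}).ncard : ℝ) := by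
    exact_mod_cast h2
  refine h3.trans ?_
  rw [← nsmul_eq_mul]
  refine Finset.sum_le_card_nsmul _ _ _ fun k0 hk0 => ?_
  obtain ⟨K, h4, h5, h6⟩ := y2_cyc W (hD1 k0 hk0).1
  refine le_trans ?_ (hL K h4 ((hD1 k0 hk0).2.trans (by exact_mod_cast h5)))
  exact_mod_cast Set.ncard_le_ncard h6 (Set.toFinite _)

end Crest.Agent.R152
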