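import Crest.Agent.R152.Iface
import Crest.Agent.R152.P
import Crest.Agent.R152.LA

/-! Row 152, Y2, part (a): many points of `Y2` force a large determinant. -/

set_option autoImplicit false
open Matrix Filter

namespace Crest.Agent.R152

theorem y2_sg_sq (b : Bool) : (sg b : ℝ) * (sg b : ℝ) = 1 := by
  cases b <;> simp [sg]

theorem y2_rm_det {n : ℕ} (B : Matrix (Fin n) (Fin n) ℤ) : (rm B).det = (B.det : ℝ) :=
  (Int.cast_det B).symm

theorem y2_rm_mulVec {n : ℕ} (B : Matrix (Fin n) (Fin n) ℤ) (v : Fin n → ℤ) :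
    rm B *ᵥ rc v = rc (B *ᵥ v) := by
  funext i
  simp [rm, rc, mulVec, dotProduct]

theorem y2_trace {n : ℕ} (ω : Om n) : (rm (Mx ω) * rm (Mx ω)).trace = (n : ℝ) ^ 2 := by
  have h : ∀ i j : Fin n, rm (Mx ω) i j * rm (Mx ω) j i = 1 := fun i j => by
    simp only [rm, Mx, map_apply, of_apply, Sym2.eq_swap (a := j)]
    exact y2_sg_sq _
  simp only [Matrix.trace, diag_apply, mul_apply, h]
  simp [sq]

/-- the quadratic form used with `StE` -/
noncomputable def y2Q {n : ℕ} (B : Matrix (Fin n) (Fin n) ℤ) : Matrix (Fin n) (Fin n) ℝ :=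
  (n : ℝ)⁻¹ • (1 : Matrix (Fin n) (Fin n) ℝ) + ((n : ℝ) ^ 4)⁻¹ • (((rm B)⁻¹)ᵀ * (rm B)⁻¹)

theorem y2Q_pos {n : ℕ} (hn : 1 ≤ n) (B : Matrix (Fin n) (Fin n) ℤ) : (y2Q B).PosDef := by
  have hn' : (0 : ℝ) < n := by exact_mod_cast hn
  refine (PosDef.one.smul (inv_pos.2 hn')).add_posSemidef (PosSemidef.smul ?_ (by positivity))
  exact posSemidef_conjTranspose_mul_self ((rm B)⁻¹)

theorem y2Q_le {n : ℕ} (hn : 1 ≤ n) {B : Matrix (Fin n) (Fin n) ℤ} (hB : B.det ≠ 0) {c : ℝ}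
    {x : Fin n → Bool} (hx : x ∈ Y2 B c) : qf (y2Q B) (rc (sv x)) ≤ 2 := by
  have hn' : (1 : ℝ) ≤ n := by exact_mod_cast hn
  obtain ⟨v, m, hm, hv, hb, -⟩ := hx
  have hm' : (m : ℝ) ≠ 0 := by exact_mod_cast hm
  have hu : IsUnit (rm B).det := by
    rw [y2_rm_det]; exact isUnit_iff_ne_zero.2 (by exact_mod_cast hB)
  have h1 : rc v = (m : ℝ) • ((rm B)⁻¹ *ᵥ rc (sv x)) := by
    have h2 : rm B *ᵥ rc v = (m : ℝ) • rc (sv x) := by
      rw [y2_rm_mulVec, hv]; funext i; simp [rc]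
    rw [← mulVec_smul, ← h2, mulVec_mulVec, nonsing_inv_mul _ hu, one_mulVec]
  set w := (rm B)⁻¹ *ᵥ rc (sv x) with hw
  have h3 : ∀ l, w l * w l ≤ (n : ℝ) ^ 2 := fun l => by
    have h4 : (v l : ℝ) = m * w l := congrFun h1 l
    have h5 : |(v l : ℝ)| ≤ n * |(m : ℝ)| := by exact_mod_cast hb l
    rw [h4, abs_mul, mul_comm] at h5
    have h6 := le_of_mul_le_mul_right h5 (abs_pos.2 hm')
    rw [← sq, ← sq_abs]
    exact pow_le_pow_left₀ (abs_nonneg _) h6 2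
  have h4 : w ⬝ᵥ w ≤ (n : ℝ) ^ 3 := by
    calc w ⬝ᵥ w ≤ ∑ _l : Fin n, (n : ℝ) ^ 2 := Finset.sum_le_sum fun l _ => h3 l
      _ = _ := by simp; ring
  have h5 : rc (sv x) ⬝ᵥ rc (sv x) = n := by
    simp only [dotProduct, rc, sv, y2_sg_sq]; simp
  have h6 : qf (y2Q B) (rc (sv x)) = (n : ℝ)⁻¹ * n + ((n : ℝ) ^ 4)⁻¹ * (w ⬝ᵥ w) := by
    rw [qf, y2Q, add_mulVec, dotProduct_add, smul_mulVec, smul_mulVec, one_mulVec, dotProduct_smul,
      dotProduct_smul, h5, ← mulVec_mulVec, dotProduct_mulVec _ _ᵀ, vecMul_transpose, smul_eq_mul,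
      smul_eq_mul]
  rw [h6, inv_mul_cancel₀ (by positivity)]
  have h7 : ((n : ℝ) ^ 4)⁻¹ * (w ⬝ᵥ w) ≤ 1 := by
    rw [inv_mul_le_iff₀ (by positivity), mul_one]
    exact h4.trans (pow_le_pow_right₀ hn' (by norm_num))
  linarith

theorem y2Q_conj {n : ℕ} (hn : 1 ≤ n) {B : Matrix (Fin n) (Fin n) ℤ} (hB : B.det ≠ 0) (hs : B.IsSymm) :
    (rm B)ᵀ * y2Q B * rm B =
      (n : ℝ)⁻¹ • (rm B * rm B + ((n : ℝ) ^ 3)⁻¹ • (1 : Matrix (Fin n) (Fin n) ℝ)) := by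
  have hn' : (n : ℝ) ≠ 0 := by positivity
  have hu : IsUnit (rm B).det := by
    rw [y2_rm_det]; exact isUnit_iff_ne_zero.2 (by exact_mod_cast hB)
  have h1 : (rm B)ᵀ * (((rm B)⁻¹)ᵀ * (rm B)⁻¹) * rm B = 1 := by
    rw [← Matrix.mul_assoc, ← transpose_mul, Matrix.mul_assoc, nonsing_inv_mul _ hu, transpose_one,
      Matrix.mul_one]
  have h2 : (rm B)ᵀ = rm B := by rw [rm, ← transpose_map, hs.eq]
  rw [y2Q, Matrix.mul_add, Matrix.add_mul, Matrix.mul_smul, Matrix.mul_smul, Matrix.smul_mul,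
    Matrix.smul_mul, h1, Matrix.mul_one, h2, smul_add, smul_smul]
  congr 2
  field_simp

theorem y2_log_large (a b : ℝ) (ha : 0 < a) : ∀ᶠ n : ℕ in atTop, b ≤ a * Real.log n :=
  ((Real.tendsto_log_atTop.comp tendsto_natCast_atTop_atTop).const_mul_atTop ha).eventually_ge_atTop b

theorem y2_entropy (hE : StE) (hG : StG) {ε : ℝ} (hε : 0 < ε) : ∀ᶠ n : ℕ in atTop, ∀ (c : ℝ) (ω : Om n),
    (Mx ω).det ≠ 0 → ω ∉ BadG n (ε / 8) → Real.exp (ε * n) ≤ ((Y2 (Mx ω) c).ncard : ℝ) →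
      Real.exp (ε / 8 * Lg n) ≤ ((Mx ω).det.natAbs : ℝ) := by
  have hl2 : 0 < Real.log 2 := Real.log_pos (by norm_num)
  have hl2' : Real.log 2 < 1 := by linarith [Real.log_two_lt_d9]
  have hpm : -Real.log (pm (1 / 2)) = Real.log 2 := by
    have : pm (1 / 2) = 2⁻¹ := by norm_num [pm]
    rw [this, Real.log_inv, neg_neg]
  set η : ℝ := min (ε / 2) (Real.log 2 / 2) with hη
  have hη0 : 0 < η := lt_min (by positivity) (by positivity)
  have hη1 : η ≤ ε / 2 := min_le_left _ _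
  have hη2 : η ≤ Real.log 2 / 2 := min_le_right _ _
  obtain ⟨C, hC⟩ := hE (1 / 2) η (by norm_num) (by norm_num) hη0 (by rw [hpm]; linarith)
  set s : ℝ := Real.sqrt (2 * Real.pi) with hs
  have hs0 : 0 ≤ s := Real.sqrt_nonneg _
  filter_upwards [eventually_ge_atTop 1, y2_log_large (ε / 16) (C + 2 + s) (by positivity)] with
    n hn hlog c ω hB hbad hcard
  have hn' : (1 : ℝ) ≤ n := by exact_mod_cast hn
  have hL : 0 ≤ Lg n := mul_nonneg (by positivity) (Real.log_nonneg hn')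
  have hΔ : (0 : ℝ) < (Mx ω).det.natAbs := by exact_mod_cast Int.natAbs_pos.2 hB
  obtain ⟨R, hR, hrep, -⟩ := exists_reps (Mx ω) hB
  have hdet : Real.exp (-(ε / 8 * Lg n / 2)) ^ 2 ≤ ((rm (Mx ω))ᵀ * y2Q (Mx ω) * rm (Mx ω)).det := by
    have h1 : Real.exp ((1 - ε / 8) * Lg n) ≤ _ := not_lt.1 hbad
    have h2 : ((n : ℝ)⁻¹) ^ n = Real.exp (-Lg n) := by
      rw [Lg, Real.exp_neg, Real.exp_nat_mul, Real.exp_log (by positivity), inv_pow]
    rw [y2Q_conj hn hB (Mx_isSymm ω), det_smul, Fintype.card_fin, h2, ← Real.exp_nat_mul]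
    refine le_trans (le_of_eq ?_) (mul_le_mul_of_nonneg_left h1 (Real.exp_pos _).le)
    rw [← Real.exp_add]
    congr 1
    push_cast; ring
  have htr : ((rm (Mx ω))ᵀ * y2Q (Mx ω) * rm (Mx ω)).trace / 24 ≤ n := by
    rw [y2Q_conj hn hB (Mx_isSymm ω), trace_smul, trace_add, trace_smul, y2_trace, trace_one,
      Fintype.card_fin, smul_eq_mul, smul_eq_mul]
    have h1 : ((n : ℝ) ^ 3)⁻¹ * n ≤ (n : ℝ) ^ 2 := by
      rw [inv_mul_le_iff₀ (by positivity), ← pow_add]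
      exact le_self_pow₀ hn' (by norm_num)
    have h2 : (n : ℝ)⁻¹ * ((n : ℝ) ^ 2 + ((n : ℝ) ^ 3)⁻¹ * n) ≤ 2 * n := by
      rw [inv_mul_le_iff₀ (by positivity)]
      nlinarith
    linarith
  have key := hC n hn (Y2 (Mx ω) c) (Real.log 2 - ε) 2
    (((Mx ω).det.natAbs : ℝ) * Real.exp (s * n + ε / 8 * Lg n / 2 + n)) (y2Q (Mx ω)) Set.univ
    (by
      rw [Pr_half, Fintype.card_fin, le_div_iff₀ (by positivity)]
      refine le_trans (le_of_eq ?_) hcard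
      rw [← Real.exp_log (show (0 : ℝ) < 2 ^ n by positivity), ← Real.exp_add, Real.log_pow]
      congr 1; ring)
    (y2Q_pos hn _).posSemidef (fun x hx => y2Q_le hn hB hx) (fun _ _ => Set.mem_univ _)
    (fun c' S' _ => by
      refine (hG n (Mx ω) hB _ (y2Q_pos hn _) R c' S' fun s _ => hrep s).trans ?_
      rw [hR]
      refine mul_le_mul_of_nonneg_left ?_ hΔ.le
      rw [Real.exp_add, Real.exp_add]
      refine mul_le_mul ?_ (Real.exp_le_exp.2 htr) (Real.exp_pos _).le (by positivity)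
      have h1 : s ^ n ≤ Real.exp (s * n) := by
        rw [mul_comm, Real.exp_nat_mul]
        exact pow_le_pow_left₀ hs0 (by linarith [Real.add_one_le_exp s]) n
      have h2 := Real.le_sqrt_of_sq_le hdet
      calc _ ≤ Real.exp (s * n) / Real.exp (-(ε / 8 * Lg n / 2)) :=
            div_le_div₀ (Real.exp_pos _).le h1 (Real.exp_pos _) h2
        _ = _ := by rw [Real.exp_neg, div_inv_eq_mul])
  rw [hpm, Real.log_mul hΔ.ne' (Real.exp_pos _).ne', Real.log_exp] at key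
  have h1 : ε / 2 ≤ 1 - (Real.log 2 - ε) / (Real.log 2 - η) := by
    have h2 : 0 < Real.log 2 - η := by linarith
    have h3 : (Real.log 2 - ε) / (Real.log 2 - η) ≤ 1 - ε / 2 := by
      rw [div_le_iff₀ h2]
      nlinarith
    linarith
  have h2 := mul_le_mul_of_nonneg_right h1 (show 0 ≤ Lg n / 2 by positivity)
  have h3 : (C + 2 + s) * n ≤ ε / 16 * Lg n := by
    rw [Lg]
    nlinarith
  rw [← Real.le_log_iff_exp_le hΔ]
  nlinarith

end Crest.Agent.R152
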