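import Crest.Agent.R152.Iface
import Crest.Agent.R152.P
import Crest.Agent.R152.LA
import Crest.Agent.R152.Y2B
import Crest.Agent.R152.Y2C

/-! Row 152, Y2, notes152/H33.md section 0 "Y2 small".  (a) hE at `p = 1/2` (`Pr_half`) with `Q = n⁻¹ • 1 + (n⁴)⁻¹ • A * A` (`A = B⁻¹`, `a = 2`, `S = univ`), hG with all representatives,
`BᵀQB = n⁻¹ • (B*B + (n³)⁻¹ • 1)`, not `BadG`: `log |det B| ≥ ε Lg/8`.  (b) the rank-two argument; (c) hD for the cyclic group `C`, `C[k0]` has order `k0`, not `BadL`. -/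

set_option autoImplicit false
open Matrix Filter

namespace Crest.Agent.R152

theorem y2_wit {n : ℕ} {B : Matrix (Fin n) (Fin n) ℤ} {c : ℝ} {x : Fin n → Bool} (hx : x ∈ Y2 B c) :
    ∃ (v : Fin n → ℤ) (m : ℤ), Y2W B (sv x) v m ∧
      (B.det.natAbs : ℝ) ≤ Real.exp (c * Lg n) * (m.natAbs : ℝ) ^ 2 := by
  obtain ⟨v, m, h1, h2, -, h4, h5, h6, h7⟩ := hx
  refine ⟨v, m, ⟨h1, h2, y2_bezout h4, h5, h6⟩, ?_⟩
  rw [Nat.cast_natAbs, Nat.cast_natAbs, Int.cast_abs, Int.cast_abs, sq_abs]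
  exact h7

theorem y2_num {Δ M N k a E F : ℝ} (hΔ : 0 < Δ) (hM : 0 ≤ M) (hN : 0 ≤ N) (hk : 0 ≤ k) (hNa : N ≤ a)
    (h1 : Δ ≤ a * M ^ 2) (h2 : M ^ 3 ≤ k ^ 3 * (2 * Δ * N ^ 6)) (h3 : k ≤ E)
    (h4 : E ^ 6 * a ^ 15 ≤ F) : Δ ≤ 4 * F := by
  have ha : 0 ≤ a := hN.trans hNa
  have hE : 0 ≤ E := hk.trans h3
  have h5 : M ^ 3 ≤ E ^ 3 * (2 * Δ * a ^ 6) := h2.trans (by gcongr)
  have h6 : Δ ^ 3 ≤ (a * M ^ 2) ^ 3 := pow_le_pow_left₀ hΔ.le h1 3
  have h7 : (M ^ 3) ^ 2 ≤ (E ^ 3 * (2 * Δ * a ^ 6)) ^ 2 := pow_le_pow_left₀ (by positivity) h5 2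
  have h8 : Δ ^ 2 * Δ ≤ Δ ^ 2 * (4 * F) := by
    calc Δ ^ 2 * Δ = Δ ^ 3 := by ring
      _ ≤ a ^ 3 * (M ^ 3) ^ 2 := h6.trans (le_of_eq (by ring))
      _ ≤ a ^ 3 * (E ^ 3 * (2 * Δ * a ^ 6)) ^ 2 := by gcongr
      _ = Δ ^ 2 * (4 * (E ^ 6 * a ^ 15)) := by ring
      _ ≤ _ := by gcongr
  exact le_of_mul_le_mul_left h8 (by positivity)

theorem stY2 (hD : StDiv) (hE : StE) (hG : StG) : StY2 := by
  intro ε hε
  obtain ⟨c0, hc0, hD'⟩ := hD (ε / 4) (by positivity)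
  set c' : ℝ := min c0 (ε / 384) with hc'
  have hc'0 : 0 < c' := lt_min hc0 (by positivity)
  have hc'1 : c' ≤ ε / 384 := min_le_right _ _
  refine ⟨ε / 240, c', ε / 4, ε / 8, by positivity, hc'0, by positivity, by positivity, ?_⟩
  filter_upwards [hD' c' hc'0 (min_le_left _ _), y2_entropy hE hG hε, eventually_ge_atTop 1,
    y2_log_large (ε / 32) 4 (by positivity),
    (tendsto_natCast_atTop_atTop.const_mul_atTop (show 0 < ε / 2 by positivity)).eventually_ge_atTop 1]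
    with n hdiv hent hn hlog hlin ω hB hL hG'
  have hn' : (1 : ℝ) ≤ n := by exact_mod_cast hn
  have hlog0 : 0 ≤ Real.log n := Real.log_nonneg hn'
  have hLg : 0 ≤ Lg n := mul_nonneg (by positivity) hlog0
  have hs := Mx_isSymm ω
  by_contra hcon
  rw [not_le] at hcon
  have hΔ1 := hent _ ω hB hG' hcon.le
  have hΔ : (0 : ℝ) < (Mx ω).det.natAbs := (Real.exp_pos _).trans_le hΔ1
  obtain ⟨x0, hx0⟩ : (Y2 (Mx ω) (ε / 240)).Nonempty := by
    refine Set.nonempty_of_ncard_ne_zero fun h => ?_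
    rw [h, Nat.cast_zero] at hcon
    exact absurd hcon (not_lt.2 (Real.exp_pos _).le)
  obtain ⟨v0, m0, W0, h0⟩ := y2_wit hx0
  obtain ⟨N, hN, hN1, e, hr⟩ := y2_rank hB hs W0
  have hN2 : (N : ℝ) ≤ Real.exp (ε / 240 * Lg n) := by
    have h1 : (N : ℝ) * (m0.natAbs : ℝ) ^ 2 ≤ (Mx ω).det.natAbs := by exact_mod_cast hN1
    have h2 : (0 : ℝ) < m0.natAbs := by exact_mod_cast Int.natAbs_pos.2 W0.ne
    exact le_of_mul_le_mul_right (h1.trans h0) (by positivity)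
  have hnear : ∀ y ∈ Y2 (Mx ω) (ε / 240),
      (({x : Fin n → Bool | Y2near (Mx ω) (2 * (Mx ω).det.natAbs * N ^ 6) (sv x) (sv y)}).ncard : ℝ) ≤
        Real.exp (ε / 2 * n) := by
    intro y hy
    obtain ⟨v, m, W, h1⟩ := y2_wit hy
    have hM : 1 ≤ m.natAbs := Int.natAbs_pos.2 W.ne
    have hM1 : (m.natAbs : ℝ) ≤ Real.exp (Lg n) := by
      have h2 : m.natAbs ^ 2 ≤ (Mx ω).det.natAbs := by
        rw [← Int.natAbs_pow]
        exact Nat.le_of_dvd (Int.natAbs_pos.2 hB) (Int.natAbs_dvd_natAbs.2 W.sq)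
      have h3 : (m.natAbs : ℝ) ≤ (Mx ω).det.natAbs := by
        exact_mod_cast (Nat.le_self_pow two_ne_zero _).trans h2
      have h4 := det_Mx_le ω
      rw [← Int.cast_abs, ← Nat.cast_natAbs] at h4
      exact h3.trans (h4.trans (Real.exp_le_exp.2 (by linarith)))
    obtain ⟨D, hD0, hD1, hD2⟩ := hdiv m.natAbs hM hM1
    refine (y2_near_card hB W D hD1 hD2 (b := Real.exp (ε / 4 * n)) (fun k hk => ?_)
      fun K hK hK' => ?_).trans ?_
    · by_contra hk'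
      have h2 : (m.natAbs : ℝ) ^ 3 ≤ (k : ℝ) ^ 3 * (2 * ((Mx ω).det.natAbs : ℝ) * (N : ℝ) ^ 6) := by
        exact_mod_cast hk
      have h3 := y2_num (F := Real.exp (3 * ε / 32 * Lg n)) hΔ (Nat.cast_nonneg _) (Nat.cast_nonneg _)
        (Nat.cast_nonneg _) hN2 h1 h2 (not_le.1 hk').le (by
          rw [← Real.exp_nat_mul, ← Real.exp_nat_mul, ← Real.exp_add]
          refine Real.exp_le_exp.2 ?_
          push_cast
          nlinarith)
      have h4 : Real.exp (ε / 8 * Lg n) = Real.exp (ε / 32 * Lg n) * Real.exp (3 * ε / 32 * Lg n) := by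
        rw [← Real.exp_add]; congr 1; ring
      have h5 : 4 ≤ ε / 32 * Lg n := by
        rw [Lg]; nlinarith
      have h6 := Real.add_one_le_exp (ε / 32 * Lg n)
      have h7 := Real.exp_pos (3 * ε / 32 * Lg n)
      nlinarith
    · by_contra h2
      exact hL ⟨hB, K, hK, hK', (not_le.1 h2).le⟩
    · refine (mul_le_mul_of_nonneg_right hD0 (Real.exp_pos _).le).trans (le_of_eq ?_)
      rw [← Real.exp_add]; congr 1; ring
  have hcov : ∃ y ∈ Y2 (Mx ω) (ε / 240), ∃ z ∈ Y2 (Mx ω) (ε / 240), Y2 (Mx ω) (ε / 240) ⊆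
      {x : Fin n → Bool | Y2near (Mx ω) (2 * (Mx ω).det.natAbs * N ^ 6) (sv x) (sv y)} ∪
      {x : Fin n → Bool | Y2near (Mx ω) (2 * (Mx ω).det.natAbs * N ^ 6) (sv x) (sv z)} := by
    by_cases h : ∀ z ∈ Y2 (Mx ω) (ε / 240),
        Y2near (Mx ω) (2 * (Mx ω).det.natAbs * N ^ 6) (sv z) (sv x0)
    · exact ⟨x0, hx0, x0, hx0, fun x hx => Or.inl (h x hx)⟩
    · push Not at h
      obtain ⟨z, hz, hzn⟩ := h
      refine ⟨z, hz, x0, hx0, fun x hx => ?_⟩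
      obtain ⟨v, m, W, -⟩ := y2_wit hx
      obtain ⟨v', m', W', -⟩ := y2_wit hz
      rcases y2_tri hB hs hN hr W W' W0 with h1 | h1 | h1
      · exact Or.inl h1
      · exact Or.inr h1
      · exact absurd h1 hzn
  obtain ⟨y, hy, z, hz, hsub⟩ := hcov
  have h1 := (Set.ncard_le_ncard hsub (Set.toFinite _)).trans (Set.ncard_union_le _ _)
  have h2 := (Nat.cast_le (α := ℝ)).2 h1
  rw [Nat.cast_add] at h2
  have h3 := hnear y hy
  have h4 := hnear z hz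
  have h5 : Real.exp (ε * n) = Real.exp (ε / 2 * n) * Real.exp (ε / 2 * n) := by
    rw [← Real.exp_add]; congr 1; ring
  have h6 := Real.add_one_le_exp (ε / 2 * n)
  nlinarith

end Crest.Agent.R152
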