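import Crest.Agent.R152.W.HB
import Crest.Agent.R152.W.Cosh
import Crest.Agent.R152.W.Inv
import Crest.Agent.R152.W.Crit
import Crest.Agent.R152.W.Gle
import Crest.Agent.R152.W.WRM
import Crest.Agent.R152.H.Main
import Crest.Agent.R152.C
import Crest.Agent.R152.R
import Crest.Agent.R152.E
import Crest.Agent.R152.L3
import Crest.Agent.R152.Rat
import Crest.Agent.R152.F.Main
import Crest.Agent.R152.G1
import Crest.Agent.R152.Div
import Crest.Agent.R152.Y1
import Crest.Agent.R152.Y2
import Crest.Agent.R152.Sp
import Crest.Agent.R152.One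
import Crest.Agent.R152.Red

/-! Row 152: assembly. -/

set_option autoImplicit false
open Matrix Filter

namespace Crest.Agent.R152

theorem main : StMain :=
  have hG : StG := stG stCosh stGtr
  have hW : StWRM := stWRM stCosh (stGle stHB stGinv stGblock stGcrit)
  stMain (stOne (stL (stSL hW stHB) stC stR (stL3 stE hG) stRat) stG1 (stY1 stDiv)
    (stY2 stDiv stE hG) stSp)

end Crest.Agent.R152
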