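import Crest.Agent.R152.Defs

/-! Row 152, corank one: the deterministic part (`adj M = c v vᵀ`, two good rows). -/

set_option autoImplicit false
open Matrix Filter

namespace Crest.Agent.R152
namespace One

theorem sg_abs (b : Bool) : |sg b| = 1 := by cases b <;> simp [sg]

theorem sg_mul_self (b : Bool) : sg b * sg b = 1 := by cases b <;> simp [sg]

/-- structure of the adjugate of a symmetric singular matrix of corank one -/
theorem exists_adj {n : ℕ} (M : Matrix (Fin (n + 1)) (Fin (n + 1)) ℤ) (hM : M.IsSymm)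
    (h0 : M.det = 0) (i0 : Fin (n + 1))
    (hi0 : (M.submatrix i0.succAbove i0.succAbove).det ≠ 0) :
    ∃ (c : ℤ) (v : Fin (n + 1) → ℤ), c ≠ 0 ∧ M *ᵥ v = 0 ∧
      (∀ q : ℕ, q.Prime → ∃ i, ¬ (q : ℤ) ∣ v i) ∧
      ∀ i : Fin (n + 1), (M.submatrix i.succAbove i.succAbove).det = c * v i ^ 2 := by
  classical
  set a := M.adjugate with ha
  have hdiag : ∀ i : Fin (n + 1), a i i = (M.submatrix i.succAbove i.succAbove).det := by
    intro i
    rw [ha, adjugate_fin_succ_eq_det_submatrix, ← two_mul, pow_mul]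
    simp
  have hsym : ∀ i j, a i j = a j i := by
    intro i j
    have : aᵀ = a := by rw [ha, adjugate_transpose, hM.eq]
    exact (congrFun (congrFun this i) j).symm
  have hcol : ∀ j, M *ᵥ (fun i => a i j) = 0 := by
    intro j
    have h := M.mul_adjugate
    rw [h0, zero_smul] at h
    funext i
    have := congrFun (congrFun h i) j
    simpa [Matrix.mul_apply, mulVec, dotProduct] using this
  have hker : ∀ w : Fin (n + 1) → ℤ, M *ᵥ w = 0 → w i0 = 0 → w = 0 := by
    intro w hw hw0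
    have h1 : (M.submatrix i0.succAbove i0.succAbove) *ᵥ (fun j => w (i0.succAbove j)) = 0 := by
      funext l
      have := congrFun hw (i0.succAbove l)
      simp only [mulVec, dotProduct, Pi.zero_apply] at this ⊢
      rw [Fin.sum_univ_succAbove _ i0, hw0, mul_zero, zero_add] at this
      simpa using this
    have h2 := Matrix.eq_zero_of_mulVec_eq_zero hi0 h1
    funext j
    refine Fin.succAboveCases i0 ?_ (fun l => ?_) j
    · simpa using hw0
    · simpa using congrFun h2 l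
  have ha0 : a i0 i0 ≠ 0 := by rw [hdiag]; exact hi0
  obtain ⟨v, hv, hv1⟩ := Finset.extract_gcd (s := Finset.univ) (fun i => a i i0)
    Finset.univ_nonempty
  set g := Finset.univ.gcd (fun i => a i i0) with hg
  have hv' : ∀ i, a i i0 = g * v i := fun i => hv i (Finset.mem_univ _)
  have hg0 : g ≠ 0 := fun h => ha0 (by rw [hv', h, zero_mul])
  have hv0 : v i0 ≠ 0 := fun h => ha0 (by rw [hv', h, mul_zero])
  have hMv : M *ᵥ v = 0 := by
    have h1 : (fun i => a i i0) = g • v := by funext i; simp [hv']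
    have h2 := hcol i0
    rw [h1, mulVec_smul] at h2
    exact (smul_eq_zero.1 h2).resolve_left hg0
  have hprop : ∀ i j, v i0 * a i j = a i0 j * v i := by
    intro i j
    have := hker (v i0 • (fun i => a i j) - a i0 j • v) (by
      rw [mulVec_sub, mulVec_smul, mulVec_smul, hcol, hMv]; simp) (by simp [mul_comm])
    have h := congrFun this i
    simp only [Pi.sub_apply, Pi.smul_apply, smul_eq_mul, Pi.zero_apply] at h
    linarith
  have hprop2 : ∀ i j, v i0 ^ 2 * a i j = a i0 i0 * (v i * v j) := by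
    intro i j
    have h1 := hprop i j
    have h2 := hprop j i0
    rw [hsym j i0] at h2
    calc v i0 ^ 2 * a i j = v i0 * (v i0 * a i j) := by ring
      _ = (v i0 * a i0 j) * v i := by rw [h1]; ring
      _ = a i0 i0 * (v i * v j) := by rw [h2]; ring
  obtain ⟨b, hb⟩ := Finset.gcd_eq_sum_mul (Finset.univ : Finset (Fin (n + 1))) v
  rw [hv1] at hb
  set c : ℤ := ∑ i, ∑ j, b i * b j * a i j with hc
  have hc2 : v i0 ^ 2 * c = a i0 i0 := by
    calc v i0 ^ 2 * c = ∑ i, ∑ j, b i * b j * (v i0 ^ 2 * a i j) := by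
          rw [hc, Finset.mul_sum]
          refine Finset.sum_congr rfl fun i _ => ?_
          rw [Finset.mul_sum]
          exact Finset.sum_congr rfl fun j _ => by ring
      _ = ∑ i, ∑ j, a i0 i0 * ((v i * b i) * (v j * b j)) := by
          refine Finset.sum_congr rfl fun i _ => Finset.sum_congr rfl fun j _ => ?_
          rw [hprop2]; ring
      _ = a i0 i0 * ((∑ i, v i * b i) * ∑ j, v j * b j) := by
          rw [Finset.sum_mul_sum, Finset.mul_sum]
          refine Finset.sum_congr rfl fun i _ => ?_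
          rw [Finset.mul_sum]
      _ = a i0 i0 := by rw [← hb]; ring
  refine ⟨c, v, fun h => ha0 (by rw [← hc2, h, mul_zero]), hMv, fun q hq => ?_, fun i => ?_⟩
  · by_contra hcon
    push Not at hcon
    have : (q : ℤ) ∣ 1 := by
      rw [hb]
      exact Finset.dvd_sum fun i _ => (hcon i).mul_right _
    have h2 : q ∣ 1 := by exact_mod_cast this
    exact hq.one_lt.ne' (Nat.dvd_one.1 h2)
  · rw [← hdiag]
    have h := hprop2 i i
    rw [← hc2] at h
    have : v i0 ^ 2 * (a i i - c * v i ^ 2) = 0 := by linarith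
    have h3 := (mul_eq_zero.1 this).resolve_left (pow_ne_zero 2 hv0)
    linarith

/-- the outcome of the principal minor -/
def mn {n : ℕ} (i : Fin (n + 1)) (ω : Om (n + 1)) : Om n := res (Fin.succAboveEmb i) ω

/-- the deleted row -/
def rw' {n : ℕ} (i : Fin (n + 1)) (ω : Om (n + 1)) : Fin n → Bool :=
  fun l => ω s(i, i.succAbove l)

theorem Mx_mn {n : ℕ} (i : Fin (n + 1)) (ω : Om (n + 1)) :
    Mx (mn i ω) = (Mx ω).submatrix i.succAbove i.succAbove := Mx_res _ _

theorem mn_mulVec {n : ℕ} (i : Fin (n + 1)) (ω : Om (n + 1)) {v : Fin (n + 1) → ℤ}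
    (hv : Mx ω *ᵥ v = 0) :
    Mx (mn i ω) *ᵥ (fun l => v (i.succAbove l)) = (-v i) • sv (rw' i ω) := by
  funext l
  have := congrFun hv (i.succAbove l)
  simp only [mulVec, dotProduct, Pi.zero_apply] at this ⊢
  rw [Fin.sum_univ_succAbove _ i] at this
  rw [Mx_mn]
  simp only [submatrix_apply, Pi.smul_apply, smul_eq_mul, sv, rw']
  have h2 : Mx ω (i.succAbove l) i = sg (ω s(i, i.succAbove l)) := by
    simp [Mx, Sym2.eq_swap]
  rw [h2] at this
  linarith

theorem row_dot {n : ℕ} (i : Fin (n + 1)) (ω : Om (n + 1)) {v : Fin (n + 1) → ℤ}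
    (hv : Mx ω *ᵥ v = 0) :
    (fun l => v (i.succAbove l)) ⬝ᵥ sv (rw' i ω) = sg (ω s(i, i)) * (-v i) := by
  have := congrFun hv i
  simp only [mulVec, dotProduct, Pi.zero_apply] at this ⊢
  rw [Fin.sum_univ_succAbove _ i] at this
  have h2 : ∑ l, v (i.succAbove l) * sv (rw' i ω) l =
      ∑ l, Mx ω i (i.succAbove l) * v (i.succAbove l) :=
    Finset.sum_congr rfl fun l _ => by simp [Mx, sv, rw', mul_comm]
  have h3 : Mx ω i i = sg (ω s(i, i)) := rfl
  rw [h2]; rw [h3] at this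
  linarith

theorem pr_smul_left {ι : Type} [Fintype ι] (m : ℤ) (z : ι → ℤ) (u : ι → T1) :
    pr (m • z) u = m • pr z u := by
  simp [pr, Finset.smul_sum, mul_smul]

theorem pr_nsmul_right {ι : Type} [Fintype ι] (k : ℕ) (z : ι → ℤ) (u : ι → T1) :
    pr z (k • u) = k • pr z u := map_nsmul (prH z) k u

theorem pr_mulVec {n : ℕ} (B : Matrix (Fin n) (Fin n) ℤ) (hB : B.IsSymm) (w : Fin n → ℤ)
    {u : Fin n → T1} (hu : u ∈ Td B) : pr (B *ᵥ w) u = 0 := by
  have h : pr (B *ᵥ w) u = ∑ j, w j • pr (B j) u := by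
    simp only [pr, mulVec, dotProduct, Finset.sum_smul, Finset.smul_sum]
    rw [Finset.sum_comm]
    refine Finset.sum_congr rfl fun j _ => Finset.sum_congr rfl fun l _ => ?_
    rw [← mul_smul, mul_comm, hB.apply j l]
  rw [h]
  exact Finset.sum_eq_zero fun j _ => by rw [hu j, smul_zero]

theorem mem_Y1 {n : ℕ} (i : Fin (n + 1)) (ω : Om (n + 1)) {v : Fin (n + 1) → ℤ} {c : ℤ}
    (hv : Mx ω *ᵥ v = 0) (hdet : (Mx (mn i ω)).det = c * v i ^ 2) {k : ℕ} (hk : (k : ℤ) ∣ c)
    (hcop : IsCoprime (k : ℤ) (v i)) {c1 : ℝ} (hc1 : Real.exp (c1 * Lg n) ≤ (k : ℝ)) :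
    rw' i ω ∈ Y1 (Mx (mn i ω)) c1 := by
  refine ⟨k, hdet ▸ hk.mul_right _, hc1, fun u hu hku => ?_⟩
  have h1 := pr_mulVec _ (Mx_isSymm _) (fun l => v (i.succAbove l)) hu
  rw [mn_mulVec i ω hv, pr_smul_left, neg_smul, neg_eq_zero] at h1
  have h2 : (k : ℤ) • pr (sv (rw' i ω)) u = 0 := by
    rw [natCast_zsmul, ← pr_nsmul_right, hku, pr_zero_right]
  obtain ⟨a, b, hab⟩ := hcop
  calc pr (sv (rw' i ω)) u = (a * k + b * v i) • pr (sv (rw' i ω)) u := by rw [hab, one_smul]
    _ = 0 := by rw [add_smul, mul_smul, mul_smul, h1, h2]; simp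

theorem mem_Y2 {n : ℕ} (i : Fin (n + 1)) (ω : Om (n + 1)) {v : Fin (n + 1) → ℤ} {c : ℤ}
    (hv : Mx ω *ᵥ v = 0) (hdet : (Mx (mn i ω)).det = c * v i ^ 2) (hvi : v i ≠ 0)
    (hprim : ∀ q : ℕ, q.Prime → ∃ j, ¬ (q : ℤ) ∣ v j) (hle : ∀ l, |v l| ≤ n * |v i|) {c0 : ℝ}
    (hc : |(c : ℝ)| ≤ Real.exp (c0 * Lg n)) : rw' i ω ∈ Y2 (Mx (mn i ω)) c0 := by
  refine ⟨fun l => v (i.succAbove l), -v i, neg_ne_zero.2 hvi, mn_mulVec i ω hv,
    fun l => by rw [abs_neg]; exact hle _, fun q hq hqm => ?_, ?_, ?_, ?_⟩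
  · obtain ⟨j, hj⟩ := hprim q hq
    have hji : j ≠ i := by
      rintro rfl
      exact hj (dvd_neg.1 hqm)
    obtain ⟨l, rfl⟩ := Fin.exists_succAbove_eq hji
    exact ⟨l, hj⟩
  · rw [row_dot i ω hv]; exact Dvd.intro_left _ rfl
  · rw [hdet, neg_sq]; exact Dvd.intro_left _ rfl
  · rw [hdet]
    push_cast
    rw [abs_mul, neg_sq, abs_of_nonneg (sq_nonneg (v i : ℝ))]
    exact mul_le_mul_of_nonneg_right hc (sq_nonneg _)

/-- the two largest coordinates of a kernel vector -/
theorem two_largest {n : ℕ} (hn : 1 ≤ n) (ω : Om (n + 1)) {v : Fin (n + 1) → ℤ}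
    (hv : Mx ω *ᵥ v = 0) (hv0 : v ≠ 0) :
    ∃ i j : Fin (n + 1), i ≠ j ∧ (v i ≠ 0 ∧ ∀ l, |v l| ≤ n * |v i|) ∧
      (v j ≠ 0 ∧ ∀ l, |v l| ≤ n * |v j|) := by
  classical
  obtain ⟨i, -, hi⟩ := Finset.exists_max_image Finset.univ (fun l => |v l|) Finset.univ_nonempty
  have : Nonempty (Fin n) := ⟨⟨0, hn⟩⟩
  obtain ⟨j, -, hj⟩ := Finset.exists_max_image Finset.univ (fun l : Fin n => |v (i.succAbove l)|)
    Finset.univ_nonempty
  have hn' : (1 : ℤ) ≤ n := by exact_mod_cast hn
  have hi' : ∀ l, |v l| ≤ |v i| := fun l => hi l (Finset.mem_univ _)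
  have hvi : v i ≠ 0 := by
    intro h
    apply hv0
    funext l
    have := hi' l
    rw [h, abs_zero] at this
    exact abs_nonpos_iff.1 this
  have hij : |v i| ≤ n * |v (i.succAbove j)| := by
    have h := row_dot i ω hv
    have h1 : |v i| = |(fun l => v (i.succAbove l)) ⬝ᵥ sv (rw' i ω)| := by
      rw [h, abs_mul, sg_abs, abs_neg, one_mul]
    rw [h1, dotProduct]
    refine (Finset.abs_sum_le_sum_abs _ _).trans ?_
    calc ∑ l, |v (i.succAbove l) * sv (rw' i ω) l| ≤ ∑ _l : Fin n, |v (i.succAbove j)| :=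
          Finset.sum_le_sum fun l _ => by
            rw [abs_mul, sv, sg_abs, mul_one]; exact hj l (Finset.mem_univ _)
      _ = n * |v (i.succAbove j)| := by simp
  refine ⟨i, i.succAbove j, (Fin.succAbove_ne i j).symm, ⟨hvi, fun l => ?_⟩, ?_,
    fun l => (hi' l).trans hij⟩
  · nlinarith [hi' l, abs_nonneg (v i)]
  · intro h
    rw [h, abs_zero, mul_zero] at hij
    exact hvi (abs_nonpos_iff.1 hij)

/-- part of `m` coprime to `z` -/
def cp (m : ℕ) (z : ℤ) : ℕ :=
  ∏ q ∈ m.primeFactors.filter (fun q : ℕ => ¬ (q : ℤ) ∣ z), q ^ m.factorization q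

theorem cp_dvd {m : ℕ} (hm : m ≠ 0) (z : ℤ) : cp m z ∣ m := by
  conv_rhs => rw [← Nat.prod_factorization_pow_eq_self hm]
  exact Finset.prod_dvd_prod_of_subset _ _ _ (Finset.filter_subset _ _)

theorem cp_coprime (m : ℕ) (z : ℤ) : IsCoprime (cp m z : ℤ) z := by
  unfold cp
  push_cast
  refine IsCoprime.prod_left fun q hq => IsCoprime.pow_left ?_
  obtain ⟨hq1, hq2⟩ := Finset.mem_filter.1 hq
  have hp : Prime (q : ℤ) := Nat.prime_iff_prime_int.1 (Nat.prime_of_mem_primeFactors hq1)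
  exact (hp.irreducible.coprime_iff_not_dvd).2 hq2

theorem log_cp (m : ℕ) (z : ℤ) : Real.log (cp m z) =
    ∑ q ∈ m.primeFactors, if ¬ (q : ℤ) ∣ z then (m.factorization q : ℝ) * Real.log q else 0 := by
  unfold cp
  push_cast
  rw [Real.log_prod, Finset.sum_filter]
  · simp only [Real.log_pow]
  · intro q hq
    have := (Nat.prime_of_mem_primeFactors (Finset.mem_filter.1 hq).1).pos
    positivity

theorem log_eq_sum {m : ℕ} (hm : m ≠ 0) :
    Real.log m = ∑ q ∈ m.primeFactors, (m.factorization q : ℝ) * Real.log q := by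
  have h : cp m 1 = m := by
    unfold cp
    rw [Finset.filter_true_of_mem]
    · exact Nat.prod_factorization_pow_eq_self hm
    · intro q hq h
      have h2 : q ∣ 1 := by exact_mod_cast h
      exact (Nat.prime_of_mem_primeFactors hq).one_lt.ne' (Nat.dvd_one.1 h2)
  have h2 := log_cp m 1
  rw [h] at h2
  rw [h2]
  refine Finset.sum_congr rfl fun q hq => if_pos ?_
  intro h
  have h2 : q ∣ 1 := by exact_mod_cast h
  exact (Nat.prime_of_mem_primeFactors hq).one_lt.ne' (Nat.dvd_one.1 h2)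

/-- two coordinates with a large coprime part -/
theorem two_coprime {N : ℕ} (v : Fin N → ℤ) {m : ℕ} (hm : 1 < m) {β : ℝ} (hβ : 0 < β)
    (hN : 2 < β * N)
    (hsp : ∀ q : ℕ, q.Prime → β * N < ((Finset.univ.filter fun i => ¬ (q : ℤ) ∣ v i).card : ℝ)) :
    ∃ i j, i ≠ j ∧ β / 2 * Real.log m ≤ Real.log (cp m (v i)) ∧
      β / 2 * Real.log m ≤ Real.log (cp m (v j)) := by
  classical
  have hm0 : m ≠ 0 := by omega
  have hlog : 0 < Real.log m := Real.log_pos (by exact_mod_cast hm)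
  have h1 : β * N * Real.log m ≤ ∑ i, Real.log (cp m (v i)) := by
    simp_rw [log_cp]
    rw [Finset.sum_comm, log_eq_sum hm0, Finset.mul_sum]
    refine Finset.sum_le_sum fun q hq => ?_
    rw [← Finset.sum_filter, Finset.sum_const, nsmul_eq_mul]
    refine mul_le_mul_of_nonneg_right (hsp q (Nat.prime_of_mem_primeFactors hq)).le ?_
    exact mul_nonneg (Nat.cast_nonneg _) (Real.log_natCast_nonneg q)
  set G := Finset.univ.filter fun i => β / 2 * Real.log m ≤ Real.log (cp m (v i)) with hG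
  have hle : ∀ i, Real.log (cp m (v i)) ≤ Real.log m := fun i => by
    have hd := cp_dvd hm0 (v i)
    have hpos : 0 < cp m (v i) := Nat.pos_of_dvd_of_pos hd (by omega)
    exact Real.log_le_log (by exact_mod_cast hpos) (by exact_mod_cast Nat.le_of_dvd (by omega) hd)
  have h2 : ∑ i, Real.log (cp m (v i)) ≤ G.card * Real.log m + N * (β / 2 * Real.log m) := by
    calc ∑ i, Real.log (cp m (v i))
        ≤ ∑ i : Fin N, ((if i ∈ G then Real.log m else 0) + β / 2 * Real.log m) :=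
          Finset.sum_le_sum fun i _ => by
            by_cases hi : i ∈ G
            · rw [if_pos hi]
              have : 0 ≤ β / 2 * Real.log m := by positivity
              linarith [hle i]
            · rw [if_neg hi]
              have : ¬ β / 2 * Real.log m ≤ Real.log (cp m (v i)) := by simpa [hG] using hi
              linarith [not_le.1 this]
      _ = G.card * Real.log m + N * (β / 2 * Real.log m) := by
          rw [Finset.sum_add_distrib, Finset.sum_ite_mem, Finset.univ_inter]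
          simp
  have h3 : (1 : ℝ) < G.card := by
    by_contra hcon
    push Not at hcon
    nlinarith
  have h4 : 1 < G.card := by exact_mod_cast h3
  obtain ⟨i, hi, j, hj, hij⟩ := Finset.one_lt_card.1 h4
  exact ⟨i, j, hij, (Finset.mem_filter.1 hi).2, (Finset.mem_filter.1 hj).2⟩

/-- two good rows -/
theorem two_rows {n : ℕ} (hn : 2 ≤ n) {β c0 : ℝ} (hβ : 0 < β) (hc0 : 0 < c0)
    (hN : 2 < β * (n + 1 : ℕ)) {ω : Om (n + 1)} (hω : ω ∈ OneEv n) (hS : ω ∉ BadS (n + 1) β) :
    ∃ i j : Fin (n + 1), i ≠ j ∧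
      ((Mx (mn i ω)).det ≠ 0 ∧
        rw' i ω ∈ Y1 (Mx (mn i ω)) (β / 2 * c0) ∪ Y2 (Mx (mn i ω)) c0) ∧
      ((Mx (mn j ω)).det ≠ 0 ∧
        rw' j ω ∈ Y1 (Mx (mn j ω)) (β / 2 * c0) ∪ Y2 (Mx (mn j ω)) c0) := by
  obtain ⟨h0, i0, hi0⟩ := hω
  obtain ⟨c, v, hc, hv, hprim, hdet⟩ := exists_adj (Mx ω) (Mx_isSymm ω) h0 i0 hi0
  simp only [← Mx_mn] at hdet
  have hL : 0 < Lg n := by
    have : (1 : ℝ) < n := by exact_mod_cast hn
    exact mul_pos (by linarith) (Real.log_pos this)
  by_cases hcase : |(c : ℝ)| ≤ Real.exp (c0 * Lg n)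
  · have hv0 : v ≠ 0 := by
      rintro rfl
      obtain ⟨j, hj⟩ := hprim 2 Nat.prime_two
      simp at hj
    obtain ⟨i, j, hij, hi, hj⟩ := two_largest (by omega) ω hv hv0
    exact ⟨i, j, hij, ⟨by rw [hdet]; exact mul_ne_zero hc (pow_ne_zero _ hi.1),
      Or.inr (mem_Y2 i ω hv (hdet i) hi.1 hprim hi.2 hcase)⟩,
      ⟨by rw [hdet]; exact mul_ne_zero hc (pow_ne_zero _ hj.1),
      Or.inr (mem_Y2 j ω hv (hdet j) hj.1 hprim hj.2 hcase)⟩⟩
  · push Not at hcase
    have hcabs : ((c.natAbs : ℕ) : ℝ) = |(c : ℝ)| := by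
      rw [← Int.cast_natCast, Int.natCast_natAbs, Int.cast_abs]
    have h1 : (1 : ℝ) < Real.exp (c0 * Lg n) := Real.one_lt_exp_iff.2 (mul_pos hc0 hL)
    have hm : 1 < c.natAbs := by
      have : (1 : ℝ) < (c.natAbs : ℕ) := by rw [hcabs]; linarith
      exact_mod_cast this
    have hlogm : c0 * Lg n ≤ Real.log (c.natAbs : ℕ) := by
      rw [hcabs]
      exact (Real.le_log_iff_exp_le (by linarith)).2 hcase.le
    have hsp : ∀ q : ℕ, q.Prime → β * (n + 1 : ℕ) <
        ((Finset.univ.filter fun i => ¬ (q : ℤ) ∣ v i).card : ℝ) := by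
      intro q hq
      by_contra hcon
      exact hS ⟨q, v, hq, hv, hprim q hq, not_lt.1 hcon⟩
    obtain ⟨i, j, hij, hi, hj⟩ := two_coprime v hm hβ hN hsp
    have key : ∀ i, β / 2 * Real.log (c.natAbs : ℕ) ≤ Real.log (cp c.natAbs (v i)) →
        (Mx (mn i ω)).det ≠ 0 ∧
          rw' i ω ∈ Y1 (Mx (mn i ω)) (β / 2 * c0) ∪ Y2 (Mx (mn i ω)) c0 := by
      intro i hi
      have hd := cp_dvd (m := c.natAbs) (by omega) (v i)
      have hpos : 0 < cp c.natAbs (v i) := Nat.pos_of_dvd_of_pos hd (by omega)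
      have hk : Real.exp (β / 2 * c0 * Lg n) ≤ (cp c.natAbs (v i) : ℝ) := by
        refine (Real.le_log_iff_exp_le (by exact_mod_cast hpos)).1 (le_trans ?_ hi)
        rw [mul_assoc]
        exact mul_le_mul_of_nonneg_left hlogm (by positivity)
      have hcop := cp_coprime c.natAbs (v i)
      have hvi : v i ≠ 0 := by
        intro h
        rw [h, isCoprime_zero_right, Int.isUnit_iff_natAbs_eq, Int.natAbs_natCast] at hcop
        rw [h, hcop] at hk
        have : (1 : ℝ) < Real.exp (β / 2 * c0 * Lg n) := Real.one_lt_exp_iff.2 (by positivity)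
        simp only [Nat.cast_one] at hk
        linarith
      refine ⟨by rw [hdet]; exact mul_ne_zero hc (pow_ne_zero _ hvi),
        Or.inl (mem_Y1 i ω hv (hdet i) ?_ hcop hk)⟩
      exact (Int.natCast_dvd_natCast.2 hd).trans (Int.natAbs_dvd.2 dvd_rfl)
    exact ⟨i, j, hij, key i hi, key j hj⟩

end One
end Crest.Agent.R152
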