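import Crest.Agent.R152.Iface
import Crest.Agent.R152.P
import Crest.Agent.R152.LA
import Crest.Agent.R152.OneA

/-! Row 152, corank one, notes152/H33.md section 0 "One".  `adj M = c v vᵀ`; cases; two-row trick (`Pr_split`, `sum_wt_sq`, `Pr_res` with `Fin.succAboveEmb`). -/

set_option autoImplicit false
open Matrix Filter

namespace Crest.Agent.R152
open Crest.FinProb

namespace One

variable {p : ℝ}

theorem Pr_le_ncard {γ : Type} [Fintype γ] [DecidableEq γ] (E : Set (γ → Bool)) {b : ℝ}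
    (h : ∀ x ∈ E, bernoulliWeight p x ≤ b) : Pr p E ≤ E.ncard * b := by
  classical
  unfold Pr bernoulliProb
  rw [Set.ncard_eq_toFinset_card' E]
  have : (Finset.univ.filter (· ∈ E)) = E.toFinset := by ext; simp
  calc _ ≤ ∑ _x ∈ E.toFinset, b := by
        rw [← this]
        convert Finset.sum_le_sum fun x hx => h x (Finset.mem_filter.1 hx).2
    _ = _ := by simp

theorem Pr_single {γ : Type} [Fintype γ] [DecidableEq γ] (y : γ → Bool) :
    Pr p {y} = bernoulliWeight p y := by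
  classical
  rw [Pr_eq_sum]
  simp

theorem E_comp {β γ : Type} [Fintype β] [DecidableEq β] [Fintype γ] [DecidableEq γ] (e : γ ↪ β)
    (g : (γ → Bool) → ℝ) :
    ∑ ω : β → Bool, bernoulliWeight p ω * g (fun c => ω (e c)) =
      ∑ y : γ → Bool, bernoulliWeight p y * g y := by
  classical
  calc ∑ ω : β → Bool, bernoulliWeight p ω * g (fun c => ω (e c))
      = ∑ ω : β → Bool, ∑ y : γ → Bool,
          (if (fun c => ω (e c)) = y then bernoulliWeight p ω else 0) * g y := by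
        refine Finset.sum_congr rfl fun ω _ => ?_
        simp
    _ = ∑ y : γ → Bool, bernoulliWeight p y * g y := by
        rw [Finset.sum_comm]
        refine Finset.sum_congr rfl fun y _ => ?_
        rw [← Finset.sum_mul, ← Pr_single, ← Pr_comp e {y}, Pr_eq_sum]
        simp

/-- point mass of row `i` off the columns `i`, `j` -/
noncomputable def W (p : ℝ) {n : ℕ} (i j : Fin (n + 1)) (ω : Om (n + 1)) : ℝ :=
  ∏ l ∈ (Finset.univ.erase i).erase j, if ω s(i, l) then p else 1 - p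

theorem W_nonneg (hp0 : 0 ≤ p) (hp1 : p ≤ 1) {n : ℕ} (i j : Fin (n + 1)) (ω : Om (n + 1)) :
    0 ≤ W p i j ω := Finset.prod_nonneg fun l _ => by split_ifs <;> linarith

theorem wt_le_W (hp0 : 0 ≤ p) (hp1 : p ≤ 1) {n : ℕ} (i j : Fin (n + 1)) (ω : Om (n + 1)) :
    bernoulliWeight p (rw' i ω) ≤ W p i j ω := by
  classical
  have h1 : bernoulliWeight p (rw' i ω) =
      ∏ l ∈ Finset.univ.erase i, if ω s(i, l) then p else 1 - p := by
    unfold bernoulliWeight rw'
    rw [← Finset.compl_singleton, ← Fin.image_succAbove_univ,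
      Finset.prod_image fun a _ b _ h => Fin.succAbove_right_injective h]
  rw [h1, W]
  exact Finset.prod_le_prod_of_subset_of_le_one (Finset.erase_subset _ _)
    (fun l _ => by split_ifs <;> linarith) (fun l _ _ => by split_ifs <;> linarith)

theorem E_W {n : ℕ} {i j : Fin (n + 1)} (hij : i ≠ j) :
    ∑ ω : Om (n + 1), bernoulliWeight p ω * W p i j ω = rho p ^ (n - 1) := by
  classical
  let e : ((Finset.univ.erase i).erase j : Finset (Fin (n + 1))) ↪ Sym2 (Fin (n + 1)) :=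
    ⟨fun l => s(i, l.1), fun a b h => Subtype.ext (Sym2.congr_right.1 h)⟩
  have h := E_comp (p := p) e (bernoulliWeight p)
  have h2 : ∀ ω : Om (n + 1), bernoulliWeight p (fun c => ω (e c)) = W p i j ω := by
    intro ω
    unfold bernoulliWeight W
    exact Finset.prod_coe_sort _ (fun l => if ω s(i, l) then p else 1 - p)
  simp_rw [h2] at h
  rw [h]
  simp_rw [← sq]
  rw [sum_wt_sq]
  congr 1
  rw [Fintype.card_coe, Finset.card_erase_of_mem (by simp [hij.symm]),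
    Finset.card_erase_of_mem (Finset.mem_univ _)]
  simp

/-- two-row trick, one ordering -/
theorem two_row_half (hp0 : 0 ≤ p) (hp1 : p ≤ 1) {n : ℕ} (Z : Om n → Set (Fin n → Bool)) {K : ℝ}
    (hZ : ∀ ω, ((Z ω).ncard : ℝ) ≤ K) {i j : Fin (n + 1)} (hij : i ≠ j) :
    Pr p {ω : Om (n + 1) | rw' i ω ∈ Z (mn i ω) ∧ W p i j ω ≤ W p j i ω} ≤
      K * rho p ^ (n - 1) := by
  classical
  let e : Fin n ↪ Sym2 (Fin (n + 1)) :=
    ⟨fun l => s(i, i.succAbove l), fun a b h =>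
      Fin.succAbove_right_injective (Sym2.congr_right.1 h)⟩
  let F : Om (n + 1) → Set (Fin n → Bool) :=
    fun ω => {x | x ∈ Z (mn i ω) ∧ bernoulliWeight p x ≤ W p j i ω}
  have hne : ∀ a b : Fin (n + 1), a ≠ i → b ≠ i → s(a, b) ∉ Set.range e := by
    rintro a b ha hb ⟨l, hl⟩
    have : i ∈ s(a, b) := by rw [← hl]; exact Sym2.mem_mk_left _ _
    rcases Sym2.mem_iff.1 this with h | h
    · exact ha h.symm
    · exact hb h.symm
  have hF : ∀ ω ω' : Om (n + 1), (∀ b, b ∉ Set.range e → ω b = ω' b) → F ω = F ω' := by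
    intro ω ω' h
    have h1 : mn i ω = mn i ω' := by
      funext s
      induction s using Sym2.ind with
      | h a b => exact h _ (hne _ _ (Fin.succAbove_ne i a) (Fin.succAbove_ne i b))
    have h2 : W p j i ω = W p j i ω' := Finset.prod_congr rfl fun l hl => by
      rw [h _ (hne j l hij.symm (Finset.ne_of_mem_erase hl))]
    simp only [F, h1, h2]
  have hK : 0 ≤ K := le_trans (Nat.cast_nonneg _) (hZ fun _ => true)
  calc Pr p {ω : Om (n + 1) | rw' i ω ∈ Z (mn i ω) ∧ W p i j ω ≤ W p j i ω}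
      ≤ Pr p {ω : Om (n + 1) | (fun c => ω (e c)) ∈ F ω} :=
        Pr_mono hp0 hp1 fun ω hω => ⟨hω.1, (wt_le_W hp0 hp1 i j ω).trans hω.2⟩
    _ = ∑ ω : Om (n + 1), bernoulliWeight p ω * Pr p (F ω) := Pr_split e F hF
    _ ≤ ∑ ω : Om (n + 1), bernoulliWeight p ω * (K * W p j i ω) := by
        refine Finset.sum_le_sum fun ω _ => mul_le_mul_of_nonneg_left ?_ (wt_nonneg hp0 hp1 ω)
        refine (Pr_le_ncard (F ω) fun x hx => hx.2).trans ?_
        refine mul_le_mul_of_nonneg_right (le_trans ?_ (hZ (mn i ω))) (W_nonneg hp0 hp1 _ _ _)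
        have hsub : F ω ⊆ Z (mn i ω) := fun x hx => hx.1
        exact_mod_cast Set.ncard_le_ncard hsub (Set.toFinite _)
    _ = K * rho p ^ (n - 1) := by
        rw [← E_W (p := p) hij.symm, Finset.mul_sum]
        exact Finset.sum_congr rfl fun ω _ => by ring

/-- two-row trick -/
theorem two_row (hp0 : 0 ≤ p) (hp1 : p ≤ 1) {n : ℕ} (Z : Om n → Set (Fin n → Bool)) {K : ℝ}
    (hZ : ∀ ω, ((Z ω).ncard : ℝ) ≤ K) :
    Pr p {ω : Om (n + 1) | ∃ i j, i ≠ j ∧ rw' i ω ∈ Z (mn i ω) ∧ rw' j ω ∈ Z (mn j ω)} ≤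
      (n + 1) ^ 2 * (K * rho p ^ (n - 1)) := by
  classical
  have hK : 0 ≤ K := le_trans (Nat.cast_nonneg _) (hZ fun _ => true)
  have hr : 0 ≤ rho p := le_trans (by norm_num) rho_ge
  let E : Fin (n + 1) × Fin (n + 1) → Set (Om (n + 1)) := fun a =>
    {ω | a.1 ≠ a.2 ∧ rw' a.1 ω ∈ Z (mn a.1 ω) ∧ W p a.1 a.2 ω ≤ W p a.2 a.1 ω}
  calc _ ≤ Pr p {ω | ∃ a ∈ (Finset.univ : Finset (Fin (n + 1) × Fin (n + 1))), ω ∈ E a} := by
        refine Pr_mono hp0 hp1 ?_
        rintro ω ⟨i, j, hij, hi, hj⟩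
        rcases le_total (W p i j ω) (W p j i ω) with h | h
        · exact ⟨(i, j), Finset.mem_univ _, hij, hi, h⟩
        · exact ⟨(j, i), Finset.mem_univ _, hij.symm, hj, h⟩
    _ ≤ (Finset.univ : Finset (Fin (n + 1) × Fin (n + 1))).card * (K * rho p ^ (n - 1)) := by
        refine Pr_exists_le hp0 hp1 _ E fun a _ => ?_
        by_cases h : a.1 = a.2
        · have : E a = ∅ := by ext ω; simp [E, h]
          rw [this, Pr_empty]; positivity
        · exact (Pr_mono hp0 hp1 fun ω hω => hω.2).trans (two_row_half hp0 hp1 Z hZ h)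
    _ = _ := by simp [sq]

theorem of_eventually {f : ℕ → ℝ} {r K : ℝ} (hr : 0 < r) (h : ∀ᶠ n in atTop, f n ≤ K * r ^ n) :
    ∃ C : ℝ, ∀ n, f n ≤ C * r ^ n := by
  obtain ⟨N, hN⟩ := eventually_atTop.1 h
  refine ⟨|K| + ∑ m ∈ Finset.range N, |f m| / r ^ m, fun n => ?_⟩
  have hs : 0 ≤ ∑ m ∈ Finset.range N, |f m| / r ^ m := Finset.sum_nonneg fun m _ => by positivity
  have hrn : 0 < r ^ n := pow_pos hr n
  rcases le_or_gt N n with hn | hn
  · refine (hN n hn).trans (mul_le_mul_of_nonneg_right ?_ hrn.le)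
    linarith [le_abs_self K]
  · have h1 : |f n| / r ^ n ≤ ∑ m ∈ Finset.range N, |f m| / r ^ m :=
      Finset.single_le_sum (f := fun m => |f m| / r ^ m) (fun m _ => by positivity)
        (Finset.mem_range.2 hn)
    calc f n ≤ |f n| / r ^ n * r ^ n := by rw [div_mul_cancel₀ _ hrn.ne']; exact le_abs_self _
      _ ≤ _ := mul_le_mul_of_nonneg_right (by linarith [abs_nonneg K]) hrn.le

theorem ev_sq_le {a : ℝ} (ha : 0 < a) :
    ∀ᶠ n : ℕ in atTop, ((n : ℝ) + 1) ^ 2 ≤ Real.exp (a * n) := by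
  have h := (tendsto_exp_mul_div_rpow_atTop 2 a ha).comp tendsto_natCast_atTop_atTop
  filter_upwards [h.eventually_ge_atTop 4, eventually_ge_atTop 1] with n hn hn1
  have h1 : (1 : ℝ) ≤ n := by exact_mod_cast hn1
  simp only [Function.comp, Real.rpow_two] at hn
  rw [le_div_iff₀ (by positivity)] at hn
  nlinarith

end One

open _root_.Crest.Agent.R152.One in
theorem stOne (hL : StL) (hG1 : StG1) (hY1 : StY1) (hY2 : StY2) (hSp : StSp) : StOne := by
  classical
  intro p ε hp0 hp1 hε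
  have hr : 1 / 2 ≤ rho p := rho_ge
  have hr0 : 0 < rho p := by linarith
  set a : ℝ := Real.log ((rho p + ε) / rho p) / 2 with ha
  have ha0 : 0 < a := half_pos (Real.log_pos (by rw [one_lt_div hr0]; linarith))
  have hexp : Real.exp (2 * a) * rho p = rho p + ε := by
    rw [ha, mul_div_cancel₀ _ two_ne_zero, Real.exp_log (by positivity), div_mul_cancel₀ _ hr0.ne']
  obtain ⟨c0, c2, ε2, δ, hc0, hc2, hε2, hδ, hy2⟩ := hY2 a ha0
  obtain ⟨β, hβ, hsp⟩ := hSp p ε hp0 hp1 hε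
  obtain ⟨c1, ε1, hc1, hε1, hy1⟩ := hY1 (β / 2 * c0) a (by positivity) ha0
  refine of_eventually (K := (rho p + ε) + 3 + 4) (by linarith) ?_
  have hsp' := (tendsto_add_atTop_nat 1).eventually hsp
  have hN : ∀ᶠ n : ℕ in atTop, 2 < β * (n + 1 : ℕ) :=
    ((tendsto_natCast_atTop_atTop.comp (tendsto_add_atTop_nat 1)).const_mul_atTop
      hβ).eventually_gt_atTop 2
  filter_upwards [hy1, hy2, hsp', hN, hL p c1 ε1 2 hp0 hp1 hc1 hε1, hL p c2 ε2 2 hp0 hp1 hc2 hε2,
    hG1 p δ 2 hp0 hp1 hδ, ev_sq_le ha0, eventually_ge_atTop 2] with n hy1 hy2 hsp hN hL1 hL2 hG hsq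
    hn
  let Bad : Set (Om n) := BadL n c1 ε1 ∪ BadL n c2 ε2 ∪ BadG n δ
  let Z : Om n → Set (Fin n → Bool) := fun ω =>
    {x | (Mx ω).det ≠ 0 ∧ ω ∉ Bad ∧ x ∈ Y1 (Mx ω) (β / 2 * c0) ∪ Y2 (Mx ω) c0}
  have hZ : ∀ ω, ((Z ω).ncard : ℝ) ≤ 2 * Real.exp (a * n) := by
    intro ω
    by_cases h : (Mx ω).det ≠ 0 ∧ ω ∉ Bad
    · have h1 := hy1 ω h.1 fun h' => h.2 (Or.inl (Or.inl h'))
      have h2 := hy2 ω h.1 (fun h' => h.2 (Or.inl (Or.inr h'))) fun h' => h.2 (Or.inr h')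
      have h3 : (Z ω).ncard ≤ (Y1 (Mx ω) (β / 2 * c0)).ncard + (Y2 (Mx ω) c0).ncard :=
        (Set.ncard_le_ncard (fun x hx => hx.2.2) (Set.toFinite _)).trans (Set.ncard_union_le _ _)
      have h4 : ((Z ω).ncard : ℝ) ≤ (Y1 (Mx ω) (β / 2 * c0)).ncard + (Y2 (Mx ω) c0).ncard := by
        exact_mod_cast h3
      linarith
    · have : Z ω = ∅ := by
        ext x
        simp only [Z, Set.mem_ofPred_eq, Set.mem_empty_iff_false, iff_false]
        exact fun hx => h ⟨hx.1, hx.2.1⟩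
      rw [this]; simp only [Set.ncard_empty, Nat.cast_zero]; positivity
  have hBad : Pr p Bad ≤ 3 * Real.exp (-2 * n) := by
    have h1 := Pr_union_le hp0.le hp1.le (BadL n c1 ε1 ∪ BadL n c2 ε2) (BadG n δ)
    have h2 := Pr_union_le hp0.le hp1.le (BadL n c1 ε1) (BadL n c2 ε2)
    simp only [Bad]
    linarith
  let E1 : Set (Om (n + 1)) := {ω | ∃ i ∈ (Finset.univ : Finset (Fin (n + 1))),
    ω ∈ {ω : Om (n + 1) | res (Fin.succAboveEmb i) ω ∈ Bad}}
  let E2 : Set (Om (n + 1)) :=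
    {ω | ∃ i j, i ≠ j ∧ rw' i ω ∈ Z (mn i ω) ∧ rw' j ω ∈ Z (mn j ω)}
  have hsub : OneEv n ⊆ BadS (n + 1) β ∪ E1 ∪ E2 := by
    intro ω hω
    by_cases hS : ω ∈ BadS (n + 1) β
    · exact Or.inl (Or.inl hS)
    by_cases h1 : ω ∈ E1
    · exact Or.inl (Or.inr h1)
    have h1' : ∀ i, mn i ω ∉ Bad := fun i h => h1 ⟨i, Finset.mem_univ _, h⟩
    obtain ⟨i, j, hij, hi, hj⟩ := two_rows hn hβ hc0 hN hω hS
    exact Or.inr ⟨i, j, hij, ⟨hi.1, h1' i, hi.2⟩, ⟨hj.1, h1' j, hj.2⟩⟩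
  have hR : 0 < rho p + ε := by linarith
  have hE1 : Pr p E1 ≤ 3 * (rho p + ε) ^ n := by
    have h1 : Pr p E1 ≤ (Finset.univ : Finset (Fin (n + 1))).card * (3 * Real.exp (-2 * n)) :=
      Pr_exists_le hp0.le hp1.le _ _ fun i _ => by rw [Pr_res]; exact hBad
    have h2 : ((n : ℝ) + 1) ≤ Real.exp n := Real.add_one_le_exp n
    have h3 : Real.exp (-n) ≤ (rho p + ε) ^ n := by
      have : Real.exp (-n) = Real.exp (-1) ^ n := by rw [← Real.exp_nat_mul]; ring_nf
      rw [this]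
      refine pow_le_pow_left₀ (Real.exp_pos _).le ?_ n
      have h4 : (2 : ℝ) ≤ Real.exp 1 := by linarith [Real.add_one_le_exp 1]
      have h5 : Real.exp (-1) ≤ 1 / 2 := by
        rw [Real.exp_neg, one_div]; exact inv_anti₀ two_pos h4
      linarith
    have h4 : Real.exp n * Real.exp (-2 * n) = Real.exp (-n) := by
      rw [← Real.exp_add]; ring_nf
    simp only [Finset.card_univ, Fintype.card_fin, Nat.cast_add, Nat.cast_one] at h1
    have h5 := mul_le_mul_of_nonneg_right h2 (Real.exp_pos (-2 * n)).le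
    nlinarith
  have hE2 : Pr p E2 ≤ 4 * (rho p + ε) ^ n := by
    refine (two_row hp0.le hp1.le Z hZ).trans ?_
    have h1 : rho p ^ (n - 1) ≤ 2 * rho p ^ n := by
      obtain ⟨m, rfl⟩ : ∃ m, n = m + 1 := ⟨n - 1, by omega⟩
      rw [Nat.add_sub_cancel, pow_succ]
      nlinarith [pow_pos hr0 m]
    have h2 : (rho p + ε) ^ n = Real.exp (a * n) * Real.exp (a * n) * rho p ^ n := by
      rw [← hexp, mul_pow, ← Real.exp_nat_mul, ← Real.exp_add]; ring_nf
    rw [h2]
    have h3 := Real.exp_pos (a * n)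
    calc ((n : ℝ) + 1) ^ 2 * (2 * Real.exp (a * n) * rho p ^ (n - 1))
        ≤ Real.exp (a * n) * (2 * Real.exp (a * n) * (2 * rho p ^ n)) := by gcongr
      _ = _ := by ring
  have h1 := Pr_mono hp0.le hp1.le hsub
  have h2 := Pr_union_le hp0.le hp1.le (BadS (n + 1) β ∪ E1) E2
  have h3 := Pr_union_le hp0.le hp1.le (BadS (n + 1) β) E1
  rw [pow_succ] at hsp
  nlinarith

end Crest.Agent.R152
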