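import Crest.Agent.R152.LA

/-! Row 152, Y2, part (b): the rank-two argument. -/

set_option autoImplicit false
open Matrix Filter

namespace Crest.Agent.R152

theorem y2_nt (a b c : ℤ) (d e f : ℚ) {Δ : ℕ} (hΔ : Δ ≠ 0) (hd : d.den ^ 2 ∣ Δ) (he : e.den ^ 2 ∣ Δ)
    (hf : f.den ^ 2 ∣ Δ) (h : 2 * d * e * f = a * f ^ 2 + b * e ^ 2 + c * d ^ 2 - a * b * c) :
    d.den * e.den * f.den ≤ 2 * Δ := by
  have two : ∀ {x y : ℕ}, x ^ 2 ∣ Δ → y ^ 2 ∣ Δ → x * y ∣ 2 * Δ := fun {x y} hx hy => by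
    refine Dvd.dvd.mul_left ((Nat.pow_dvd_pow_iff two_ne_zero).1 ?_) 2
    rw [mul_pow, sq Δ]
    exact mul_dvd_mul hx hy
  have key : d.den * e.den * f.den ∣ 2 * Δ * (d.num.natAbs * e.num.natAbs * f.num.natAbs) := by
    obtain ⟨k1, h1⟩ := hd
    obtain ⟨k2, h2⟩ := he
    obtain ⟨k3, h3⟩ := hf
    have h1' : (Δ : ℚ) = d.den ^ 2 * k1 := by exact_mod_cast h1
    have h2' : (Δ : ℚ) = e.den ^ 2 * k2 := by exact_mod_cast h2
    have h3' : (Δ : ℚ) = f.den ^ 2 * k3 := by exact_mod_cast h3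
    have e1 : (Δ : ℚ) * d ^ 2 = k1 * d.num ^ 2 := by rw [h1', ← d.den_mul_eq_num]; ring
    have e2 : (Δ : ℚ) * e ^ 2 = k2 * e.num ^ 2 := by rw [h2', ← e.den_mul_eq_num]; ring
    have e3 : (Δ : ℚ) * f ^ 2 = k3 * f.num ^ 2 := by rw [h3', ← f.den_mul_eq_num]; ring
    have e4 : (2 * Δ * (d.num * e.num * f.num) : ℚ) = (d.den * e.den * f.den) *
        (a * (k3 * f.num ^ 2) + b * (k2 * e.num ^ 2) + c * (k1 * d.num ^ 2) - Δ * (a * b * c)) := by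
      rw [← e1, ← e2, ← e3, ← d.den_mul_eq_num, ← e.den_mul_eq_num, ← f.den_mul_eq_num]
      linear_combination (Δ * (d.den * e.den * f.den) : ℚ) * h
    have e5 : (2 * Δ * (d.num * e.num * f.num) : ℤ) = (d.den * e.den * f.den) *
        (a * (k3 * f.num ^ 2) + b * (k2 * e.num ^ 2) + c * (k1 * d.num ^ 2) - Δ * (a * b * c)) := by
      exact_mod_cast e4
    have e6 := Int.natAbs_dvd_natAbs.2 (Dvd.intro _ e5.symm)
    simpa only [Int.natAbs_mul, Int.natAbs_natCast, Int.reduceAbs] using e6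
  refine Nat.le_of_dvd (by positivity) ((Nat.dvd_iff_prime_pow_dvd_dvd _ _).2 fun p k hp hk => ?_)
  by_cases h1 : p ∣ d.den
  · by_cases h2 : p ∣ e.den
    · by_cases h3 : p ∣ f.den
      · have c1 : p.Coprime d.num.natAbs := (d.reduced.coprime_dvd_right h1).symm
        have c2 : p.Coprime e.num.natAbs := (e.reduced.coprime_dvd_right h2).symm
        have c3 : p.Coprime f.num.natAbs := (f.reduced.coprime_dvd_right h3).symm
        exact (((c1.mul_right c2).mul_right c3).pow_left k).dvd_of_dvd_mul_right (hk.trans key)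
      · exact ((((hp.coprime_iff_not_dvd).2 h3).pow_left k).dvd_of_dvd_mul_right hk).trans (two hd he)
    · rw [mul_right_comm] at hk
      exact ((((hp.coprime_iff_not_dvd).2 h2).pow_left k).dvd_of_dvd_mul_right hk).trans (two hd hf)
  · rw [mul_assoc] at hk
    exact ((((hp.coprime_iff_not_dvd).2 h1).pow_left k).dvd_of_dvd_mul_left hk).trans (two he hf)

theorem y2_den {g δ m t : ℤ} (hδ : δ ≠ 0) (h : m * g = δ * t) :
    ((g : ℚ) / δ).den ∣ m.natAbs ∧ δ ∣ (((g : ℚ) / δ).den : ℤ) * g := by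
  set q : ℚ := (g : ℚ) / δ with hq
  have hδ' : (δ : ℚ) ≠ 0 := by exact_mod_cast hδ
  have h1 : (g : ℚ) = q * δ := by rw [hq]; field_simp
  have h2 : (q.den : ℚ) * g = δ * q.num := by rw [h1, ← q.den_mul_eq_num]; ring
  have h3 : (q.den : ℤ) * g = δ * q.num := by exact_mod_cast h2
  refine ⟨?_, Dvd.intro _ h3.symm⟩
  have h4 : m * q.num = q.den * t := by
    refine mul_left_cancel₀ hδ ?_
    linear_combination (q.den : ℤ) * h - m * h3
  have h5 := Int.natAbs_dvd_natAbs.2 (Dvd.intro _ h4.symm)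
  rw [Int.natAbs_mul, Int.natAbs_natCast] at h5
  exact q.reduced.symm.dvd_of_dvd_mul_right h5

variable {n : ℕ}

theorem y2_bezout {v : Fin n → ℤ} {m : ℤ}
    (h : ∀ q : ℕ, q.Prime → (q : ℤ) ∣ m → ∃ l, ¬ (q : ℤ) ∣ v l) :
    ∃ (e : Fin n → ℤ) (j : ℤ), e ⬝ᵥ v + j * m = 1 := by
  obtain ⟨g, hg⟩ := Finset.gcd_eq_sum_mul Finset.univ v
  have h1 : Int.gcd (Finset.univ.gcd v) m = 1 := by
    by_contra hne
    obtain ⟨q, hq, hq'⟩ := Nat.exists_prime_and_dvd hne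
    have h2 : (q : ℤ) ∣ (Int.gcd (Finset.univ.gcd v) m : ℤ) := Int.natCast_dvd_natCast.2 hq'
    obtain ⟨l, hl⟩ := h q hq (h2.trans (Int.gcd_dvd_right _ _))
    exact hl ((h2.trans (Int.gcd_dvd_left _ _)).trans (Finset.gcd_dvd (Finset.mem_univ l)))
  obtain ⟨a, b, hab⟩ := Int.isCoprime_iff_gcd_eq_one.2 h1
  refine ⟨a • g, b, ?_⟩
  rw [smul_dotProduct, dotProduct_comm, smul_eq_mul, ← hab, hg]
  rfl

/-- the data attached to a point of `Y2` -/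
structure Y2W (B : Matrix (Fin n) (Fin n) ℤ) (x v : Fin n → ℤ) (m : ℤ) : Prop where
  ne : m ≠ 0
  eq : B *ᵥ v = m • x
  bez : ∃ (e : Fin n → ℤ) (j : ℤ), e ⬝ᵥ v + j * m = 1
  iso : m ∣ v ⬝ᵥ x
  sq : m ^ 2 ∣ B.det

/-- `det B` times the linking form -/
def y2g (B : Matrix (Fin n) (Fin n) ℤ) (z z' : Fin n → ℤ) : ℤ := z ⬝ᵥ B.adjugate *ᵥ z'

variable {B : Matrix (Fin n) (Fin n) ℤ}

theorem y2_dot_symm {A : Matrix (Fin n) (Fin n) ℤ} (hA : Aᵀ = A) (z z' : Fin n → ℤ) :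
    z ⬝ᵥ A *ᵥ z' = z' ⬝ᵥ A *ᵥ z := by
  rw [dotProduct_mulVec, ← mulVec_transpose, hA, dotProduct_comm]

theorem y2g_symm (hs : B.IsSymm) (z z' : Fin n → ℤ) : y2g B z z' = y2g B z' z :=
  y2_dot_symm (by rw [adjugate_transpose, hs.eq]) z z'

theorem y2g_B (z w : Fin n → ℤ) : y2g B z (B *ᵥ w) = B.det * (z ⬝ᵥ w) := by
  rw [y2g, mulVec_mulVec, adjugate_mul, smul_mulVec, one_mulVec, dotProduct_smul, smul_eq_mul]

theorem y2g_add (z u w : Fin n → ℤ) : y2g B z (u + w) = y2g B z u + y2g B z w := by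
  simp only [y2g, mulVec_add, dotProduct_add]

theorem y2g_smul (z u : Fin n → ℤ) (a : ℤ) : y2g B z (a • u) = a * y2g B z u := by
  simp only [y2g, mulVec_smul, dotProduct_smul, smul_eq_mul]

theorem y2g_add' (z u w : Fin n → ℤ) : y2g B (u + w) z = y2g B u z + y2g B w z := by
  simp only [y2g, add_dotProduct]

theorem y2g_smul' (z u : Fin n → ℤ) (a : ℤ) : y2g B (a • u) z = a * y2g B u z := by
  simp only [y2g, smul_dotProduct, smul_eq_mul]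

theorem Y2W.g {y v : Fin n → ℤ} {m : ℤ} (W : Y2W B y v m) (z : Fin n → ℤ) :
    m * y2g B z y = B.det * (z ⬝ᵥ v) := by
  rw [← y2g_smul, ← W.eq, y2g_B]

/-- a multiple of `ℤ^n` lies in a rank two extension of `B ℤ^n` -/
theorem y2_rank (hB : B.det ≠ 0) (hs : B.IsSymm) {x v : Fin n → ℤ} {m : ℤ} (W : Y2W B x v m) :
    ∃ N : ℕ, 0 < N ∧ N * m.natAbs ^ 2 ≤ B.det.natAbs ∧ ∃ e : Fin n → ℤ, ∀ z : Fin n → ℤ,
      ∃ (a b : ℤ) (w : Fin n → ℤ), (N : ℤ) • z = a • x + b • e + B *ᵥ w := by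
  obtain ⟨e, j, hej⟩ := W.bez
  let R : AddSubgroup (Fin n → ℤ) := B.mulVecLin.toAddMonoidHom.range
  have hR : ∀ z, z ∈ R ↔ ∃ w, B *ᵥ w = z := fun z => Iff.rfl
  obtain ⟨R0, hc, hrep, -⟩ := exists_reps B hB
  have hsurj : Function.Surjective fun r : R0 => ((r : Fin n → ℤ) : (Fin n → ℤ) ⧸ R) := by
    intro h
    obtain ⟨s, rfl⟩ := QuotientAddGroup.mk_surjective h
    obtain ⟨r, hr, a, rfl⟩ := hrep s
    refine ⟨⟨r, hr⟩, QuotientAddGroup.eq.2 ((hR _).2 ⟨a, ?_⟩)⟩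
    simp
  have hfin : Finite ((Fin n → ℤ) ⧸ R) := Finite.of_surjective _ hsurj
  have hcard : Nat.card ((Fin n → ℤ) ⧸ R) ≤ B.det.natAbs := by
    have := Nat.card_le_card_of_surjective _ hsurj
    rwa [Nat.card_eq_fintype_card (α := R0), Fintype.card_coe, hc] at this
  let φ : ℤ × ℤ →+ (Fin n → ℤ) :=
    { toFun := fun p => p.1 • x + p.2 • e
      map_zero' := by simp
      map_add' := fun p p' => by simp only [Prod.fst_add, Prod.snd_add, add_smul]; abel }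
  let K : AddSubgroup ((Fin n → ℤ) ⧸ R) := ((QuotientAddGroup.mk' R).comp φ).range
  have hinj : Function.Injective fun p : Fin m.natAbs × Fin m.natAbs =>
      (⟨((QuotientAddGroup.mk' R).comp φ) ((p.1 : ℕ), (p.2 : ℕ)), _, rfl⟩ : K) := by
    rintro ⟨a, b⟩ ⟨a', b'⟩ h
    have h1 := QuotientAddGroup.eq.1 (congrArg Subtype.val h)
    obtain ⟨w, hw⟩ := (hR _).1 h1
    have h2 : B *ᵥ w = ((a' : ℤ) - a) • x + ((b' : ℤ) - b) • e := by
      rw [hw]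
      change -(((a : ℕ) : ℤ) • x + ((b : ℕ) : ℤ) • e) + (((a' : ℕ) : ℤ) • x + ((b' : ℕ) : ℤ) • e) = _
      simp only [sub_smul]; abel
    have h3 : v ⬝ᵥ B *ᵥ w = m * (w ⬝ᵥ x) := by
      rw [y2_dot_symm hs.eq, W.eq, dotProduct_smul, smul_eq_mul]
    obtain ⟨t, ht⟩ := W.iso
    rw [h2, dotProduct_add, dotProduct_smul, dotProduct_smul, smul_eq_mul, smul_eq_mul, ht,
      dotProduct_comm v e] at h3
    have h4 : m ∣ (b' : ℤ) - b := ⟨w ⬝ᵥ x - ((a' : ℤ) - a) * t + ((b' : ℤ) - b) * j, by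
      linear_combination h3 - ((b' : ℤ) - b) * hej⟩
    have h5 := Int.eq_zero_of_dvd_of_natAbs_lt_natAbs h4 (by have := b.2; have := b'.2; omega)
    rw [h5, zero_smul, add_zero] at h2
    have h6 := y2g_B (B := B) e w
    rw [h2, y2g_smul] at h6
    have h7 : m ∣ (a' : ℤ) - a := ⟨e ⬝ᵥ w + ((a' : ℤ) - a) * j, by
      refine mul_left_cancel₀ hB ?_
      linear_combination m * h6 - ((a' : ℤ) - a) * W.g e - B.det * ((a' : ℤ) - a) * hej⟩
    have h8 := Int.eq_zero_of_dvd_of_natAbs_lt_natAbs h7 (by have := a.2; have := a'.2; omega)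
    have h9 : a = a' := Fin.ext (by omega)
    have h10 : b = b' := Fin.ext (by omega)
    rw [h9, h10]
  have hK := Nat.card_le_card_of_injective _ hinj
  rw [Nat.card_prod, Nat.card_eq_fintype_card, Fintype.card_fin, ← sq] at hK
  refine ⟨K.index, Nat.pos_of_ne_zero AddSubgroup.index_ne_zero_of_finite, ?_, e, fun z => ?_⟩
  · calc K.index * m.natAbs ^ 2 ≤ K.index * Nat.card K := Nat.mul_le_mul_left _ hK
      _ = _ := K.index_mul_card
      _ ≤ _ := hcard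
  · obtain ⟨p, hp⟩ := K.nsmul_index_mem (z : (Fin n → ℤ) ⧸ R)
    rw [← QuotientAddGroup.mk_nsmul] at hp
    obtain ⟨w, hw⟩ := (hR _).1 (QuotientAddGroup.eq.1 hp)
    refine ⟨p.1, p.2, w, ?_⟩
    rw [hw, natCast_zsmul]
    change _ = p.1 • x + p.2 • e + (-(p.1 • x + p.2 • e) + _)
    abel

/-- the linking number has a small denominator -/
def Y2near (B : Matrix (Fin n) (Fin n) ℤ) (T : ℕ) (x y : Fin n → ℤ) : Prop :=
  ∃ j : ℕ, 0 < j ∧ j ^ 3 ≤ T ∧ B.det ∣ j * y2g B x y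

theorem Y2near.symm (hs : B.IsSymm) {T : ℕ} {x y : Fin n → ℤ} (h : Y2near B T x y) :
    Y2near B T y x := by
  obtain ⟨j, h1, h2, h3⟩ := h
  exact ⟨j, h1, h2, y2g_symm hs x y ▸ h3⟩

theorem y2_shift (hs : B.IsSymm) {N : ℤ} {x y x' y' w w' : Fin n → ℤ} (hx : N • x = x' + B *ᵥ w)
    (hy : N • y = y' + B *ᵥ w') : ∃ s : ℤ, y2g B x' y' = N ^ 2 * y2g B x y + B.det * s := by
  have h1 : y2g B (N • x) (N • y) = N ^ 2 * y2g B x y := by rw [y2g_smul, y2g_smul']; ring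
  rw [hx, hy, y2g_add, y2g_B, y2g_add', y2g_symm hs (B *ᵥ w), y2g_B] at h1
  exact ⟨-(y' ⬝ᵥ w) - (x' + B *ᵥ w) ⬝ᵥ w', by linear_combination h1⟩

theorem y2_pair (hB : B.det ≠ 0) (hs : B.IsSymm) {N : ℕ} (hN : 0 < N) {x y x' y' w w' v : Fin n → ℤ}
    {m : ℤ} (W : Y2W B y v m) (hx : (N : ℤ) • x = x' + B *ᵥ w) (hy : (N : ℤ) • y = y' + B *ᵥ w') :
    ((y2g B x' y' : ℚ) / B.det).den ^ 2 ∣ B.det.natAbs ∧
      (((y2g B x' y' : ℚ) / B.det).den ^ 3 ≤ 2 * B.det.natAbs →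
        Y2near B (2 * B.det.natAbs * N ^ 6) x y) := by
  obtain ⟨s, hs'⟩ := y2_shift hs hx hy
  obtain ⟨h1, h2⟩ := y2_den (g := y2g B x' y') (m := m) (t := (N : ℤ) ^ 2 * (x ⬝ᵥ v) + m * s) hB (by
    rw [hs']; linear_combination (N : ℤ) ^ 2 * W.g x)
  refine ⟨(pow_dvd_pow_of_dvd h1 2).trans ?_, fun h => ?_⟩
  · rw [← Int.natAbs_pow]; exact Int.natAbs_dvd_natAbs.2 W.sq
  · set D := ((y2g B x' y' : ℚ) / B.det).den with hD
    refine ⟨D * N ^ 2, Nat.mul_pos (Rat.den_pos _) (by positivity), ?_, ?_⟩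
    · calc (D * N ^ 2) ^ 3 = D ^ 3 * N ^ 6 := by ring
        _ ≤ _ := Nat.mul_le_mul_right _ h
    · obtain ⟨t, ht⟩ := h2
      refine ⟨t - D * s, ?_⟩
      push_cast
      linear_combination ht - (D : ℤ) * hs'

theorem y2_diag (hs : B.IsSymm) {N : ℤ} {x x' w v : Fin n → ℤ} {m : ℤ} (W : Y2W B x v m)
    (hx : N • x = x' + B *ᵥ w) : ∃ a : ℤ, y2g B x' x' = B.det * a := by
  obtain ⟨s, hs'⟩ := y2_shift hs hx hx
  obtain ⟨t, ht⟩ := W.iso
  have h1 : y2g B x x = B.det * t := by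
    refine mul_left_cancel₀ W.ne ?_
    rw [W.g, dotProduct_comm, ht]; ring
  exact ⟨N ^ 2 * t + s, by rw [hs', h1]; ring⟩

/-- no three points are pairwise far -/
theorem y2_tri (hB : B.det ≠ 0) (hs : B.IsSymm) {N : ℕ} (hN : 0 < N) {x0 e : Fin n → ℤ}
    (hr : ∀ z : Fin n → ℤ, ∃ (a b : ℤ) (w : Fin n → ℤ), (N : ℤ) • z = a • x0 + b • e + B *ᵥ w)
    {x y z vx vy vz : Fin n → ℤ} {mx my mz : ℤ} (Wx : Y2W B x vx mx) (Wy : Y2W B y vy my)
    (Wz : Y2W B z vz mz) : Y2near B (2 * B.det.natAbs * N ^ 6) x y ∨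
      Y2near B (2 * B.det.natAbs * N ^ 6) x z ∨ Y2near B (2 * B.det.natAbs * N ^ 6) y z := by
  obtain ⟨a1, b1, w1, h1⟩ := hr x
  obtain ⟨a2, b2, w2, h2⟩ := hr y
  obtain ⟨a3, b3, w3, h3⟩ := hr z
  obtain ⟨p1, q1⟩ := y2_pair hB hs hN Wy h1 h2
  obtain ⟨p2, q2⟩ := y2_pair hB hs hN Wz h1 h3
  obtain ⟨p3, q3⟩ := y2_pair hB hs hN Wz h2 h3
  obtain ⟨a, ha⟩ := y2_diag hs Wx h1
  obtain ⟨b, hb⟩ := y2_diag hs Wy h2
  obtain ⟨c, hc⟩ := y2_diag hs Wz h3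
  have hg : 2 * y2g B (a1 • x0 + b1 • e) (a2 • x0 + b2 • e) * y2g B (a1 • x0 + b1 • e) (a3 • x0 + b3 • e) *
      y2g B (a2 • x0 + b2 • e) (a3 • x0 + b3 • e) =
      B.det * a * y2g B (a2 • x0 + b2 • e) (a3 • x0 + b3 • e) ^ 2 +
      B.det * b * y2g B (a1 • x0 + b1 • e) (a3 • x0 + b3 • e) ^ 2 +
      B.det * c * y2g B (a1 • x0 + b1 • e) (a2 • x0 + b2 • e) ^ 2 -
      B.det * a * (B.det * b) * (B.det * c) := by
    rw [← ha, ← hb, ← hc]
    simp only [y2g_add, y2g_add', y2g_smul, y2g_smul', y2g_symm hs e x0]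
    ring
  have hB' : (B.det : ℚ) ≠ 0 := by exact_mod_cast hB
  have hle := y2_nt a b c _ _ _ (Int.natAbs_ne_zero.2 hB) p1 p2 p3 (by
    have hg' := congrArg (Int.cast : ℤ → ℚ) hg
    simp only [Int.cast_mul, Int.cast_add, Int.cast_sub, Int.cast_pow, Int.cast_ofNat] at hg'
    field_simp
    linear_combination hg')
  by_contra hcon
  simp only [not_or] at hcon
  have k1 := not_le.1 (mt q1 hcon.1)
  have k2 := not_le.1 (mt q2 hcon.2.1)
  have k3 := not_le.1 (mt q3 hcon.2.2)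
  have k4 := Nat.pow_le_pow_left hle 3
  rw [mul_pow, mul_pow] at k4
  have k5 := Nat.mul_lt_mul'' (Nat.mul_lt_mul'' k1 k2) k3
  have k6 : (2 * B.det.natAbs) ^ 3 = 2 * B.det.natAbs * (2 * B.det.natAbs) * (2 * B.det.natAbs) := by ring
  omega

end Crest.Agent.R152
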